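import Mathlib

/-!
# P262 (Euclidean Steinitz constant): definitions for the bound
`S₂(d) ≤ C √d (1 + log d)^{3/2}` for families of every length.
-/

namespace Vale.Agent.P262

open Finset

/-- `T0 = 3 + H_d`. -/
noncomputable def T0 (d : ℕ) : ℝ := 3 + ∑ k ∈ range d, (1:ℝ) / (k + 1)

noncomputable def kap (d : ℕ) : ℝ := 20 * d * T0 d

noncomputable def BB (d : ℕ) : ℝ := 12 * d * kap d

noncomputable def Lam (d m : ℕ) : ℝ := kap d * 2 ^ m

noncomputable def RR (d m : ℕ) : ℝ := √(300000 * (m:ℝ) ^ 2 * T0 d * d)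

noncomputable def Ch (d : ℕ) : ℝ := 8 * T0 d

noncomputable def gam (m : ℕ) : ℝ := 1 - 1 / (18 * m)

noncomputable def JJ (m : ℕ) : ℝ := 36 * m

/-- The parameter `m` is large compared with `log d`. -/
structure Good (d m : ℕ) : Prop where
  hd : 1 ≤ d
  hm : 1 ≤ m
  big : 10 ^ 8 * (m:ℝ) ^ 2 * (d:ℝ) ^ 4 * T0 d ^ 2 ≤ 2 ^ m

/-- Relation between the eigenvalues `lam` (sorted increasingly) of the Gram matrix of the whole
family and the crossing levels `τ`. -/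
structure Spec {d : ℕ} (m : ℕ) (τ : Fin d → ℕ) (lam : Fin d → ℝ) : Prop where
  mono : Monotone τ
  nonneg : ∀ k, 0 ≤ lam k
  upper : ∀ k, lam k ≤ Lam d m * 2 ^ (τ k)
  lower : ∀ k, 0 < τ k → Lam d m * 2 ^ (τ k - 1) ≤ lam k

section
variable {d : ℕ} (τ : Fin d → ℕ) (m : ℕ)

/-- rich directions at level `l` -/
def rich (l : ℕ) : Finset (Fin d) := univ.filter fun k => l < τ k

/-- non-rich directions at level `l` -/
def poor (l : ℕ) : Finset (Fin d) := univ.filter fun k => τ k ≤ l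

def zone (l : ℕ) : Finset (Fin d) := univ.filter fun k => τ k ≤ l ∧ l < τ k + 9 * m

def old (l : ℕ) : Finset (Fin d) := univ.filter fun k => τ k + 9 * m ≤ l

/-- weights `ω_{k,l}` -/
noncomputable def om (l : ℕ) (k : Fin d) : ℝ :=
  if τ k + m ≤ l then (121 / 100 : ℝ) ^ (l - (τ k + m)) else 0

noncomputable def rho (l : ℕ) : ℝ :=
  ∑ k, if τ k + 9 * m ≤ l then (10 / 11 : ℝ) ^ (l - (τ k + m)) else 0

noncomputable def Wt (l : ℕ) : ℝ := 160 * d ^ 2 * T0 d * rho τ m l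

noncomputable def chi (l : ℕ) : ℝ :=
  (4 * (RR d m + 1) / Lam d m) * ∑ k, if l < τ k then (1 / 2 : ℝ) ^ (τ k - 1 - l) else 0

noncomputable def eta (l : ℕ) : ℝ := 2 * ∑ l' ∈ range l, chi τ m l'

noncomputable def bud (l : ℕ) : ℝ :=
  ∑ k, ((if τ k = l + 1 then 4 * Ch d else 0)
    + (if τ k ≤ l ∧ l < τ k + 9 * m then 3 * (JJ m + 1) * (111 * T0 d) else 0)
    + (if τ k + 9 * m = l + 1 then 12 * JJ m + 2 else 0))
  + (RR d m + 2) * (Wt τ m l + Wt τ m (l + 1))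

noncomputable def Bud (l : ℕ) : ℝ := ∑ l' ∈ range l, bud τ m l'

/-- energy in the non-rich directions -/
def Upot (l : ℕ) (a : Fin d → ℝ) : ℝ := ∑ k ∈ poor τ l, a k ^ 2

/-- age-weighted energy in the zone -/
noncomputable def Psi (l : ℕ) (a : Fin d → ℝ) : ℝ := ∑ k ∈ zone τ m l, gam m ^ (l - τ k) * a k ^ 2

/-- energy of `a` in the first rich directions -/
def RichOK (l : ℕ) (a : Fin d → ℝ) (ξ : ℝ) : Prop :=
  ∀ j : Fin d, ∑ k ∈ (rich τ l).filter (· ≤ j), a k ^ 2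
    ≤ ξ + Ch d * ((rich τ l).filter (· ≤ j)).card

/-- The potential of a node with endpoints `a, b` and designated top vector `tp` is at most `P`. -/
def Pos (l : ℕ) (a b tp : Fin d → ℝ) (P : ℝ) : Prop :=
  ∃ ξa ξb u ψ σ : ℝ, 0 ≤ ξa ∧ 0 ≤ ξb ∧ 0 ≤ ψ ∧ 0 ≤ σ ∧
    RichOK τ l a ξa ∧ RichOK τ l b ξb ∧
    Upot τ l a ≤ u ∧ Upot τ l b ≤ u ∧ Psi τ m l a ≤ ψ ∧ Psi τ m l b ≤ ψ ∧
    ∑ k ∈ old τ m l, (b k - a k - tp k) ^ 2 ≤ σ ^ 2 ∧
    u + ψ + 2 * (ξa + ξb) + σ ≤ P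

end

section
variable {ι : Type} {d : ℕ} (v : ι → Fin d → ℝ) (τ : Fin d → ℕ) (m : ℕ) (lam : Fin d → ℝ)

/-- weighted square norm of the vector `v i` -/
noncomputable def tt (l : ℕ) (i : ι) : ℝ := ∑ k, om τ m l k * v i k ^ 2

/-- Gram invariant -/
def Gram (l : ℕ) (F : Finset ι) : Prop :=
  ∀ u : Fin d → ℝ,
    |∑ i ∈ F, (∑ k, u k * v i k) ^ 2 - (1 / 2 : ℝ) ^ l * ∑ k, lam k * u k ^ 2|
      ≤ eta τ m l * ((1 / 2 : ℝ) ^ l * ∑ k, lam k * u k ^ 2) + kap d * ∑ k, u k ^ 2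

variable [DecidableEq ι]

/-- dust invariant -/
def Dust (l : ℕ) (F : Finset ι) (top : ι) : Prop := ∑ i ∈ F.erase top, tt v τ m l i ≤ BB d

/-- The node invariant: level `l`, left endpoint `a`, family `F`. -/
def Inv (l : ℕ) (a : Fin d → ℝ) (F : Finset ι) : Prop :=
  ∃ top ∈ F, Gram v τ m lam l F ∧ Dust v τ m l F top ∧
    Pos τ m l a (fun k => a k + ∑ i ∈ F, v i k) (v top) (Bud τ m l)

end

/-- `n+1` disjoint pairs in `F`; the first pair contains `top`. -/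
structure Pairing {ι : Type} [DecidableEq ι] (F : Finset ι) (top : ι) where
  n : ℕ
  p : Fin (n + 1) → ι
  q : Fin (n + 1) → ι
  inj_p : Function.Injective p
  inj_q : Function.Injective q
  disj : ∀ i j, p i ≠ q j
  mem_p : ∀ j, p j ∈ F
  mem_q : ∀ j, q j ∈ F
  p_zero : p 0 = top

/-- the unpaired elements -/
def Pairing.Fr {ι : Type} [DecidableEq ι] {F : Finset ι} {top : ι} (P : Pairing F top) :
    Finset ι := F \ (univ.image P.p ∪ univ.image P.q)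

/-- sortedness properties of a pairing with respect to `t` (with at most 8 pairs). -/
structure Pairing.Sorted {ι : Type} [DecidableEq ι] {F : Finset ι} {top : ι} (P : Pairing F top)
    (t : ι → ℝ) : Prop where
  le : ∀ j, j ≠ 0 → t (P.q j) ≤ t (P.p j)
  card : P.n + 1 ≤ 8
  half : (P.Fr.card ≤ 1 ∧ ∑ j ∈ univ.erase 0, t (P.p j) + ∑ i ∈ P.Fr, t i
        ≤ (1 / 2) * ∑ i ∈ F.erase top, t i) ∨
    (∑ j ∈ univ.erase 0, t (P.p j) ≤ (1 / 2) * (∑ i ∈ F.erase top, t i - ∑ i ∈ P.Fr, t i) ∧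
      ∀ i ∈ P.Fr, 16 * t i ≤ ∑ i ∈ F.erase top, t i)

/-- The rounding error functional: signs `s`, first pair sign `s top`, targets `x` on the free
elements. -/
def rf {ι : Type} [DecidableEq ι] {F : Finset ι} {top : ι} (P : Pairing F top)
    (s x : ι → ℝ) (f : ι → ℝ) : ℝ :=
  ∑ i ∈ F, s i * f i - s top * (f top - f (P.q 0)) - ∑ i ∈ P.Fr, x i * f i

end Vale.Agent.P262
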