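import Vale.Agent.P262.Full.Params

namespace Vale.Agent.P262

open Finset

/-- the operator `x ↦ ∑ ⟪v i, x⟫ v i` -/
noncomputable def diagT {ι : Type} [Fintype ι] {d : ℕ} (v : ι → EuclideanSpace ℝ (Fin d)) :
    EuclideanSpace ℝ (Fin d) →ₗ[ℝ] EuclideanSpace ℝ (Fin d) where
  toFun x := ∑ i, (inner ℝ (v i) x : ℝ) • v i
  map_add' x y := by
    rw [← Finset.sum_add_distrib]
    exact Finset.sum_congr rfl fun i _ => by rw [inner_add_right, add_smul]
  map_smul' c x := by
    rw [Finset.smul_sum]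
    exact Finset.sum_congr rfl fun i _ => by
      rw [real_inner_smul_right, mul_smul, RingHom.id_apply]

theorem diagT_inner {ι : Type} [Fintype ι] {d : ℕ} (v : ι → EuclideanSpace ℝ (Fin d))
    (x y : EuclideanSpace ℝ (Fin d)) :
    (inner ℝ (diagT v x) y : ℝ) = ∑ i, (inner ℝ (v i) x : ℝ) * (inner ℝ (v i) y : ℝ) := by
  show (inner ℝ (∑ i, (inner ℝ (v i) x : ℝ) • v i) y : ℝ) = _
  rw [sum_inner]
  exact Finset.sum_congr rfl fun i _ => by rw [real_inner_smul_left]

theorem diagT_symm {ι : Type} [Fintype ι] {d : ℕ} (v : ι → EuclideanSpace ℝ (Fin d)) :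
    (diagT v).IsSymmetric := by
  intro x y
  rw [diagT_inner, real_inner_comm, diagT_inner]
  exact Finset.sum_congr rfl fun i _ => mul_comm _ _

/-- diagonalisation of the Gram matrix of the family, with sorted eigenvalues -/
theorem exists_diag {ι : Type} [Fintype ι] {d : ℕ} (v : ι → EuclideanSpace ℝ (Fin d)) :
    ∃ (Q : EuclideanSpace ℝ (Fin d) ≃ₗᵢ[ℝ] EuclideanSpace ℝ (Fin d)) (lam : Fin d → ℝ),
      Monotone lam ∧ (∀ k, 0 ≤ lam k) ∧
      ∀ u : Fin d → ℝ, ∑ i, (∑ k, u k * Q (v i) k) ^ 2 = ∑ k, lam k * u k ^ 2 := by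
  have hT := diagT_symm v
  have hn : Module.finrank ℝ (EuclideanSpace ℝ (Fin d)) = d := by simp
  set ev := hT.eigenvalues hn with hev
  set σ := Tuple.sort ev with hσ
  set b := (hT.eigenvectorBasis hn).reindex σ.symm with hb
  have hbk : ∀ k, b k = hT.eigenvectorBasis hn (σ k) := by
    intro k
    rw [hb, OrthonormalBasis.reindex_apply, Equiv.symm_symm]
  set lam : Fin d → ℝ := fun k => ev (σ k) with hlam
  have hTb : ∀ k, diagT v (b k) = lam k • b k := by
    intro k
    rw [hbk]
    exact hT.apply_eigenvectorBasis hn (σ k)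
  have hform : ∀ u : Fin d → ℝ, ∑ i, (∑ k, u k * b.repr (v i) k) ^ 2 = ∑ k, lam k * u k ^ 2 := by
    intro u
    set U : EuclideanSpace ℝ (Fin d) := ∑ k, u k • b k with hU
    have h1 : ∀ i, ∑ k, u k * b.repr (v i) k = inner ℝ (v i) U := by
      intro i
      rw [hU, inner_sum]
      apply Finset.sum_congr rfl
      intro k _
      rw [real_inner_smul_right, OrthonormalBasis.repr_apply_apply, real_inner_comm]
    have h2 : ∑ i, (∑ k, u k * b.repr (v i) k) ^ 2 = inner ℝ (diagT v U) U := by
      rw [diagT_inner]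
      exact Finset.sum_congr rfl fun i _ => by rw [h1, sq]
    have h3 : diagT v U = ∑ k, (lam k * u k) • b k := by
      rw [hU, map_sum]
      apply Finset.sum_congr rfl
      intro k _
      rw [map_smul, hTb, smul_smul, mul_comm]
    rw [h2, h3, sum_inner]
    apply Finset.sum_congr rfl
    intro k _
    rw [real_inner_smul_left, hU, inner_sum]
    have h4 : ∑ k', (inner ℝ (b k) (u k' • b k') : ℝ) = u k := by
      rw [Finset.sum_eq_single k]
      · rw [real_inner_smul_right, real_inner_self_eq_norm_sq, b.orthonormal.1 k]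
        ring
      · intro k' _ hk'
        rw [real_inner_smul_right, b.orthonormal.2 hk'.symm, mul_zero]
      · intro h; exact absurd (Finset.mem_univ k) h
    rw [h4]
    ring
  refine ⟨b.repr, lam, ?_, ?_, hform⟩
  · exact Tuple.monotone_sort ev
  · intro k
    have h1 : (inner ℝ (diagT v (b k)) (b k) : ℝ) = lam k := by
      rw [hTb, real_inner_smul_left, real_inner_self_eq_norm_sq, b.orthonormal.1 k]
      ring
    rw [← h1, diagT_inner]
    exact Finset.sum_nonneg fun i _ => mul_self_nonneg _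

theorem diag_kap_pos {d m : ℕ} (hG : Good d m) : 0 < kap d := by
  have h1 := T0_ge hG.hd
  have h2 : (1:ℝ) ≤ (d:ℝ) := by exact_mod_cast hG.hd
  unfold kap
  positivity

theorem exists_tau {d m : ℕ} (hG : Good d m) {lam : Fin d → ℝ} (hmono : Monotone lam)
    (hnn : ∀ k, 0 ≤ lam k) : ∃ τ : Fin d → ℕ, Spec m τ lam := by
  classical
  have hL : 0 < Lam d m := by
    have := diag_kap_pos hG
    unfold Lam
    positivity
  have hex : ∀ k, ∃ t : ℕ, lam k ≤ Lam d m * 2 ^ t := by
    intro k
    obtain ⟨t, ht⟩ := pow_unbounded_of_one_lt (lam k / Lam d m) (show (1:ℝ) < 2 by norm_num)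
    refine ⟨t, ?_⟩
    rw [div_lt_iff₀ hL] at ht
    linarith
  refine ⟨fun k => Nat.find (hex k), ?_, hnn, fun k => Nat.find_spec (hex k), ?_⟩
  · intro k k' hkk
    exact Nat.find_min' _ ((hmono hkk).trans (Nat.find_spec (hex k')))
  · intro k hk
    have := Nat.find_min (hex k) (show Nat.find (hex k) - 1 < Nat.find (hex k) by omega)
    exact (not_le.mp this).le

theorem root_inv {ι : Type} [Fintype ι] [DecidableEq ι] [Nonempty ι] {d m : ℕ} (hG : Good d m)
    {v : ι → Fin d → ℝ} {τ : Fin d → ℕ} {lam : Fin d → ℝ} (hS : Spec m τ lam)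
    (hgram : ∀ u : Fin d → ℝ, ∑ i, (∑ k, u k * v i k) ^ 2 = ∑ k, lam k * u k ^ 2)
    (hsum : ∀ k, ∑ i, v i k = 0) :
    Inv v τ m lam 0 (fun _ => 0) univ := by
  have hk := diag_kap_pos hG
  have hd : (1:ℝ) ≤ (d:ℝ) := by exact_mod_cast hG.hd
  have hT := T0_ge hG.hd
  have hm := hG.hm
  obtain ⟨top⟩ : Nonempty ι := inferInstance
  refine ⟨top, Finset.mem_univ _, ?_, ?_, ?_⟩
  · intro u
    rw [hgram u, pow_zero, one_mul, sub_self, abs_zero]
    have h1 : eta τ m 0 = 0 := by simp [eta]
    rw [h1, zero_mul, zero_add]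
    exact mul_nonneg hk.le (Finset.sum_nonneg fun k _ => sq_nonneg _)
  · unfold Dust
    have h1 : ∀ i, tt v τ m 0 i = 0 := by
      intro i
      unfold tt
      apply Finset.sum_eq_zero
      intro k _
      unfold om
      rw [if_neg (by omega), zero_mul]
    rw [Finset.sum_eq_zero fun i _ => h1 i]
    unfold BB
    positivity
  · have hCh : 0 ≤ Ch d := by unfold Ch; linarith
    have hb : (fun k => (0:ℝ) + ∑ i, v i k) = fun _ => (0:ℝ) := by
      funext k
      rw [hsum k, add_zero]
    rw [hb]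
    refine ⟨0, 0, 0, 0, 0, le_refl _, le_refl _, le_refl _, le_refl _, ?_, ?_, ?_, ?_, ?_, ?_, ?_, ?_⟩
    · intro j
      simp only [ne_eq, OfNat.ofNat_ne_zero, not_false_eq_true, zero_pow, Finset.sum_const_zero,
        zero_add]
      positivity
    · intro j
      simp only [ne_eq, OfNat.ofNat_ne_zero, not_false_eq_true, zero_pow, Finset.sum_const_zero,
        zero_add]
      positivity
    · simp [Upot]
    · simp [Upot]
    · simp [Psi]
    · simp [Psi]
    · have h1 : old τ m 0 = ∅ := by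
        unfold old
        rw [Finset.filter_eq_empty_iff]
        intro k _
        omega
      rw [h1]
      simp
    · simp [Bud]

end Vale.Agent.P262
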