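import Vale.Agent.P262.Full.Params

namespace Vale.Agent.P262

open Finset

/-- Cauchy-Schwarz with a vector of norm at most one -/
theorem gu_cs {d : ℕ} (u w : Fin d → ℝ) (hw : ∑ k, w k ^ 2 ≤ 1) :
    (∑ k, u k * w k) ^ 2 ≤ ∑ k, u k ^ 2 := by
  refine (Finset.sum_mul_sq_le_sq_mul_sq _ _ _).trans ?_
  exact mul_le_of_le_one_right (Finset.sum_nonneg fun k _ => sq_nonneg _) hw

theorem gu_kap_pos {d m : ℕ} (hG : Good d m) : 0 < kap d := by
  have h1 := T0_ge hG.hd
  have h2 : (1:ℝ) ≤ (d:ℝ) := by exact_mod_cast hG.hd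
  unfold kap
  positivity

theorem gu_Lam_pos {d m : ℕ} (hG : Good d m) : 0 < Lam d m := by
  have h1 := gu_kap_pos hG
  unfold Lam
  positivity

section
variable {ι : Type} [DecidableEq ι] {d m : ℕ} {v : ι → Fin d → ℝ} {τ : Fin d → ℕ}
  {lam : Fin d → ℝ} {l : ℕ} {F : Finset ι} {top : ι}

/-- sums over the child with sign `e` -/
theorem child_sum (s : ι → ℝ) (hs : ∀ i, s i = 1 ∨ s i = -1) {e : ℝ} (he : e = 1 ∨ e = -1)
    (f : ι → ℝ) :
    ∑ i ∈ F.filter (fun i => s i = e), f i = (1 / 2) * (∑ i ∈ F, f i + e * ∑ i ∈ F, s i * f i) := by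
  rw [Finset.sum_filter, Finset.mul_sum, ← Finset.sum_add_distrib, Finset.mul_sum]
  apply Finset.sum_congr rfl
  intro i _
  rcases hs i with h1 | h1 <;> rcases he with h2 | h2 <;> rw [h1, h2]
  · rw [if_pos rfl]; ring
  · rw [if_neg (by norm_num)]; ring
  · rw [if_neg (by norm_num)]; ring
  · rw [if_pos rfl]; ring

/-- splitting a sum over `F` into free and paired elements -/
theorem gu_split (P : Pairing F top) (f : ι → ℝ) :
    ∑ i ∈ F, f i = ∑ i ∈ P.Fr, f i + ∑ i ∈ univ.image P.p ∪ univ.image P.q, f i := by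
  unfold Pairing.Fr
  rw [Finset.sum_sdiff]
  intro i hi
  rcases Finset.mem_union.mp hi with h | h
  · obtain ⟨j, _, rfl⟩ := Finset.mem_image.mp h
    exact P.mem_p j
  · obtain ⟨j, _, rfl⟩ := Finset.mem_image.mp h
    exact P.mem_q j

theorem gu_paired_mem (P : Pairing F top) {i : ι}
    (hi : i ∈ univ.image P.p ∪ univ.image P.q) : i ∈ F := by
  rcases Finset.mem_union.mp hi with h | h
  · obtain ⟨j, _, rfl⟩ := Finset.mem_image.mp h
    exact P.mem_p j
  · obtain ⟨j, _, rfl⟩ := Finset.mem_image.mp h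
    exact P.mem_q j

theorem gu_paired_card (P : Pairing F top) (hcard : P.n + 1 ≤ 8) :
    (((univ.image P.p ∪ univ.image P.q).card : ℕ) : ℝ) ≤ 16 := by
  have h1 : (univ.image P.p ∪ univ.image P.q).card ≤ 16 := by
    refine (Finset.card_union_le _ _).trans ?_
    have h2 : (univ.image P.p).card ≤ P.n + 1 := by
      refine Finset.card_image_le.trans ?_
      rw [Finset.card_univ, Fintype.card_fin]
    have h3 : (univ.image P.q).card ≤ P.n + 1 := by
      refine Finset.card_image_le.trans ?_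
      rw [Finset.card_univ, Fintype.card_fin]
    omega
  exact_mod_cast h1

theorem gu_Fr_sub (P : Pairing F top) : P.Fr ⊆ F := Finset.sdiff_subset

theorem gram_update (hG : Good d m) (hlam : ∀ k, 0 ≤ lam k) (P : Pairing F top)
    (hv : ∀ i ∈ F, ∑ k, v i k ^ 2 ≤ 1) (hgr : Gram v τ m lam l F)
    (s x : ι → ℝ) (hs : ∀ i, s i = 1 ∨ s i = -1)
    (hx : ∀ i ∈ P.Fr, |x i| ≤ chi τ m l)
    (h3 : ∀ u : Fin d → ℝ, |rf P s x (fun i => (∑ k, u k * v i k) ^ 2)|
      ≤ 6 * d * T0 d * ∑ k, u k ^ 2)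
    {e : ℝ} (he : e = 1 ∨ e = -1) :
    Gram v τ m lam (l + 1) (F.filter fun i => s i = e) := by
  intro u
  have h3u := h3 u
  have hgu := hgr u
  rw [child_sum s hs he]
  set f : ι → ℝ := fun i => (∑ k, u k * v i k) ^ 2 with hf
  have hf0 : ∀ i, 0 ≤ f i := fun i => sq_nonneg _
  set G0 : ℝ := (1 / 2 : ℝ) ^ l * ∑ k, lam k * u k ^ 2 with hG0
  set N : ℝ := ∑ k, u k ^ 2 with hN
  have hN0 : 0 ≤ N := Finset.sum_nonneg fun k _ => sq_nonneg _
  have hG00 : 0 ≤ G0 := mul_nonneg (by positivity)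
    (Finset.sum_nonneg fun k _ => mul_nonneg (hlam k) (sq_nonneg _))
  have hfN : ∀ i ∈ F, f i ≤ N := fun i hi => gu_cs u (v i) (hv i hi)
  have hG1 : (1 / 2 : ℝ) ^ (l + 1) * ∑ k, lam k * u k ^ 2 = G0 / 2 := by
    rw [hG0, pow_succ]; ring
  rw [hG1]
  have heta : eta τ m (l + 1) = eta τ m l + 2 * chi τ m l := by
    unfold eta
    rw [Finset.sum_range_succ]
    ring
  rw [heta]
  have he0 := eta_nonneg (m := m) τ l
  have he1 := eta_le hG τ l
  have hc0 := chi_nonneg (m := m) τ l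
  have hc1 := chi_le hG τ l
  have hT := T0_ge hG.hd
  have hd1 : (1:ℝ) ≤ (d:ℝ) := by exact_mod_cast hG.hd
  have hk := gu_kap_pos hG
  have hkap : kap d = 20 * (d * T0 d) := by unfold kap; ring
  have hdT : 4 ≤ (d:ℝ) * T0 d := by nlinarith
  set D : ℝ := (d:ℝ) * T0 d with hD
  have hrf : rf P s x f = ∑ i ∈ F, s i * f i - s top * (f top - f (P.q 0))
      - ∑ i ∈ P.Fr, x i * f i := rfl
  have htopF : top ∈ F := by
    have := P.mem_p 0
    rwa [P.p_zero] at this
  have h4 : |s top * (f top - f (P.q 0))| ≤ N := by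
    have h5 : |s top| = 1 := by
      rcases hs top with h | h <;> rw [h] <;> simp
    rw [abs_mul, h5, one_mul, abs_le]
    have h6 := hf0 top
    have h7 := hf0 (P.q 0)
    have h8 := hfN top htopF
    have h9 := hfN (P.q 0) (P.mem_q 0)
    constructor <;> linarith
  have h5 : |∑ i ∈ P.Fr, x i * f i| ≤ chi τ m l * ∑ i ∈ F, f i := by
    refine (Finset.abs_sum_le_sum_abs _ _).trans ?_
    calc ∑ i ∈ P.Fr, |x i * f i| ≤ ∑ i ∈ P.Fr, chi τ m l * f i := by
          apply Finset.sum_le_sum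
          intro i hi
          rw [abs_mul, abs_of_nonneg (hf0 i)]
          exact mul_le_mul_of_nonneg_right (hx i hi) (hf0 i)
      _ = chi τ m l * ∑ i ∈ P.Fr, f i := by rw [Finset.mul_sum]
      _ ≤ chi τ m l * ∑ i ∈ F, f i := by
          apply mul_le_mul_of_nonneg_left _ hc0
          exact Finset.sum_le_sum_of_subset_of_nonneg (gu_Fr_sub P) (fun i _ _ => hf0 i)
  have hSs : ∑ i ∈ F, s i * f i = rf P s x f + s top * (f top - f (P.q 0))
      + ∑ i ∈ P.Fr, x i * f i := by rw [hrf]; ring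
  have h6 : 6 * (d:ℝ) * T0 d * N = 6 * D * N := by rw [hD]; ring
  rw [h6] at h3u
  set S := ∑ i ∈ F, f i with hS
  set T := ∑ i ∈ F, s i * f i with hTT
  have hS1 : S ≤ (1 + eta τ m l) * G0 + kap d * N := by
    have := (abs_le.mp hgu).2
    linarith
  have hT1 : |T| ≤ 6 * D * N + N + chi τ m l * ((1 + eta τ m l) * G0 + kap d * N) := by
    rw [hSs]
    refine (abs_add_le _ _).trans ?_
    refine (add_le_add (abs_add_le _ _) le_rfl).trans ?_
    have h7 : chi τ m l * S ≤ chi τ m l * ((1 + eta τ m l) * G0 + kap d * N) :=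
      mul_le_mul_of_nonneg_left hS1 hc0
    linarith
  have heT : |e * T| = |T| := by
    rcases he with h | h <;> rw [h] <;> simp
  have h8 : (1 / 2 : ℝ) * (S + e * T) - G0 / 2 = (1 / 2) * ((S - G0) + e * T) := by ring
  rw [h8, abs_mul, abs_of_nonneg (show (0:ℝ) ≤ 1 / 2 by norm_num)]
  have h9 : |S - G0 + e * T| ≤ (eta τ m l * G0 + kap d * N) +
      (6 * D * N + N + chi τ m l * ((1 + eta τ m l) * G0 + kap d * N)) := by
    refine (abs_add_le _ _).trans ?_
    rw [heT]
    exact add_le_add hgu hT1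
  have h10 : chi τ m l * ((1 + eta τ m l) * G0) ≤ chi τ m l * (2 * G0) := by
    apply mul_le_mul_of_nonneg_left _ hc0
    nlinarith
  have h11 : chi τ m l * (kap d * N) ≤ (1 / 100) * (kap d * N) :=
    mul_le_mul_of_nonneg_right hc1 (mul_nonneg hk.le hN0)
  have h12 : N ≤ D * N / 4 := by nlinarith
  have h13 : kap d * N = 20 * (D * N) := by rw [hkap]; ring
  have h14 : 0 ≤ D * N := mul_nonneg (by linarith) hN0
  have h15 : chi τ m l * ((1 + eta τ m l) * G0 + kap d * N) =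
      chi τ m l * ((1 + eta τ m l) * G0) + chi τ m l * (kap d * N) := by ring
  rw [h15] at h9
  have h16 : (eta τ m l + 2 * chi τ m l) * (G0 / 2) + kap d * N =
      (1 / 2) * (eta τ m l * G0 + chi τ m l * (2 * G0) + 2 * (kap d * N)) := by ring
  rw [h16]
  apply mul_le_mul_of_nonneg_left _ (by norm_num)
  linarith

/-- lower bound of the Gram form of the free elements on the rich directions -/
theorem gram_lower (hG : Good d m) (hS : Spec m τ lam) (P : Pairing F top) (hcard : P.n + 1 ≤ 8)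
    (hv : ∀ i ∈ F, ∑ k, v i k ^ 2 ≤ 1) (hgr : Gram v τ m lam l F)
    (u : Fin d → ℝ) (hu : ∀ k, k ∉ rich τ l → u k = 0) :
    (1 / 2) * ∑ k ∈ rich τ l, ((1 / 2) ^ l * lam k) * u k ^ 2
      ≤ ∑ i ∈ P.Fr, (∑ k, u k * v i k) ^ 2 := by
  have hgu := hgr u
  set f : ι → ℝ := fun i => (∑ k, u k * v i k) ^ 2 with hf
  have hf0 : ∀ i, 0 ≤ f i := fun i => sq_nonneg _
  have he1 := eta_le hG τ l
  have hp1 := par1 hG
  have hG0 : (1 / 2 : ℝ) ^ l * ∑ k, lam k * u k ^ 2 =
      ∑ k ∈ rich τ l, ((1 / 2) ^ l * lam k) * u k ^ 2 := by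
    rw [Finset.mul_sum]
    symm
    have h1 : ∑ k ∈ rich τ l, ((1 / 2) ^ l * lam k) * u k ^ 2 =
        ∑ k, ((1 / 2) ^ l * lam k) * u k ^ 2 := by
      apply Finset.sum_subset (Finset.subset_univ _)
      intro k _ hk
      rw [hu k hk]
      ring
    rw [h1]
    exact Finset.sum_congr rfl fun k _ => by ring
  have hN : ∑ k, u k ^ 2 = ∑ k ∈ rich τ l, u k ^ 2 := by
    symm
    apply Finset.sum_subset (Finset.subset_univ _)
    intro k _ hk
    rw [hu k hk]
    ring
  rw [hG0] at hgu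
  set G0 := ∑ k ∈ rich τ l, ((1 / 2) ^ l * lam k) * u k ^ 2 with hG0'
  set N := ∑ k, u k ^ 2 with hN'
  have hN0 : 0 ≤ N := Finset.sum_nonneg fun k _ => sq_nonneg _
  have hG00 : 0 ≤ G0 := Finset.sum_nonneg fun k _ =>
    mul_nonneg (mul_nonneg (by positivity) (hS.nonneg k)) (sq_nonneg _)
  have h1 := gu_split P f
  have h2 : ∑ i ∈ univ.image P.p ∪ univ.image P.q, f i ≤ 16 * N := by
    calc ∑ i ∈ univ.image P.p ∪ univ.image P.q, f i
        ≤ ∑ _i ∈ univ.image P.p ∪ univ.image P.q, N :=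
          Finset.sum_le_sum fun i hi => gu_cs u (v i) (hv i (gu_paired_mem P hi))
      _ = (((univ.image P.p ∪ univ.image P.q).card : ℕ) : ℝ) * N := by
          rw [Finset.sum_const, nsmul_eq_mul]
      _ ≤ 16 * N := mul_le_mul_of_nonneg_right (gu_paired_card P hcard) hN0
  have h3 : 4 * (kap d + 16) * N ≤ G0 := by
    rw [hN, Finset.mul_sum]
    apply Finset.sum_le_sum
    intro k hk
    apply mul_le_mul_of_nonneg_right _ (sq_nonneg _)
    have hk' : l < τ k := (Finset.mem_filter.mp hk).2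
    have h4 := hS.lower k (by omega)
    have h5 : (2:ℝ) ^ l ≤ 2 ^ (τ k - 1) := pow_le_pow_right₀ (by norm_num) (by omega)
    have hL := gu_Lam_pos hG
    have h6 : Lam d m * 2 ^ l ≤ lam k := (mul_le_mul_of_nonneg_left h5 hL.le).trans h4
    have h7 : Lam d m ≤ (1 / 2) ^ l * lam k := by
      have h8 : (1 / 2 : ℝ) ^ l * (Lam d m * 2 ^ l) = Lam d m := by
        rw [mul_comm (Lam d m), ← mul_assoc, ← mul_pow]
        norm_num
      rw [← h8]
      exact mul_le_mul_of_nonneg_left h6 (by positivity)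
    linarith
  have h4 := (abs_le.mp hgu).1
  have h5 : eta τ m l * G0 ≤ (1 / 4) * G0 := mul_le_mul_of_nonneg_right he1 hG00
  have h6 : ∑ i ∈ F, f i ≥ (3 / 4) * G0 - kap d * N := by linarith
  linarith

/-- the steering does not disturb the non-rich directions -/
theorem zone_drift (hG : Good d m) (hS : Spec m τ lam) (P : Pairing F top) (hcard : P.n + 1 ≤ 8)
    (hv : ∀ i ∈ F, ∑ k, v i k ^ 2 ≤ 1) (hgr : Gram v τ m lam l F)
    (y : Fin d → ℝ) (hy : ∀ k, k ∉ rich τ l → y k = 0)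
    (hgy : ∑ k ∈ rich τ l, ((1 / 2) ^ l * lam k) * y k ^ 2
      ≤ 4 * (2 * RR d m + 2) ^ 2 / Lam d m)
    (hyy : ∑ k, y k ^ 2 ≤ 4 * (2 * RR d m + 2) ^ 2 / Lam d m ^ 2) :
    ∑ k ∈ zone τ m l, (∑ i ∈ P.Fr, (∑ k', y k' * v i k') * v i k) ^ 2 ≤ 1 := by
  set z : Fin d → ℝ := fun k => ∑ i ∈ P.Fr, (∑ k', y k' * v i k') * v i k with hz
  set w : Fin d → ℝ := fun k => if k ∈ zone τ m l then z k else 0 with hw
  have hwsum : ∀ g : Fin d → ℝ, ∑ k, w k * g k = ∑ k ∈ zone τ m l, z k * g k := by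
    intro g
    rw [← Finset.sum_subset (Finset.subset_univ (zone τ m l))]
    · apply Finset.sum_congr rfl
      intro k hk
      rw [hw]
      simp only
      rw [if_pos hk]
    · intro k _ hk
      rw [hw]
      simp only
      rw [if_neg hk, zero_mul]
  have hWz : ∑ k ∈ zone τ m l, z k ^ 2 = ∑ k, w k ^ 2 := by
    have h1 := hwsum w
    have h2 : ∑ k, w k ^ 2 = ∑ k, w k * w k := Finset.sum_congr rfl fun k _ => sq _
    rw [h2, h1]
    apply Finset.sum_congr rfl
    intro k hk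
    rw [hw]
    simp only
    rw [if_pos hk, sq]
  set b : ι → ℝ := fun i => ∑ k, y k * v i k with hb
  set a : ι → ℝ := fun i => ∑ k, w k * v i k with ha
  set W2 := ∑ k, w k ^ 2 with hW2
  have hW20 : 0 ≤ W2 := Finset.sum_nonneg fun k _ => sq_nonneg _
  -- the main identity
  have hmain : W2 = ∑ i ∈ P.Fr, a i * b i := by
    rw [← hWz]
    have h1 : ∑ k ∈ zone τ m l, z k ^ 2 = ∑ k ∈ zone τ m l, z k * z k :=
      Finset.sum_congr rfl fun k _ => sq _
    rw [h1, ← hwsum z]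
    have h2 : ∀ k, w k * z k = ∑ i ∈ P.Fr, (w k * v i k) * b i := by
      intro k
      rw [hz]
      simp only
      rw [Finset.mul_sum]
      apply Finset.sum_congr rfl
      intro i _
      rw [hb]
      ring
    rw [Finset.sum_congr rfl fun k _ => h2 k, Finset.sum_comm]
    apply Finset.sum_congr rfl
    intro i _
    rw [← Finset.sum_mul]
  have hdisj : ∀ k, w k * y k = 0 := by
    intro k
    by_cases hk : k ∈ zone τ m l
    · have h1 : k ∉ rich τ l := by
        intro h2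
        have h3 := (Finset.mem_filter.mp hk).2.1
        have h4 := (Finset.mem_filter.mp h2).2
        omega
      rw [hy k h1, mul_zero]
    · rw [hw]
      simp only
      rw [if_neg hk, zero_mul]
  set Y2 := ∑ k, y k ^ 2 with hY2
  have hY20 : 0 ≤ Y2 := Finset.sum_nonneg fun k _ => sq_nonneg _
  have hLp := gu_Lam_pos hG
  have hkp := gu_kap_pos hG
  have he0 := eta_nonneg (m := m) τ l
  have hR0 := RR_nonneg d m
  set Q := 2 * RR d m + 2 with hQ
  have hQ0 : 0 < Q := by linarith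
  set L := Lam d m with hL
  -- paired elements
  have hpair : |∑ i ∈ univ.image P.p ∪ univ.image P.q, a i * b i| ≤ 16 * √(W2 * Y2) := by
    refine (Finset.abs_sum_le_sum_abs _ _).trans ?_
    calc ∑ i ∈ univ.image P.p ∪ univ.image P.q, |a i * b i|
        ≤ ∑ _i ∈ univ.image P.p ∪ univ.image P.q, √(W2 * Y2) := by
          apply Finset.sum_le_sum
          intro i hi
          apply Real.abs_le_sqrt
          rw [mul_pow]
          exact mul_le_mul (gu_cs w (v i) (hv i (gu_paired_mem P hi)))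
            (gu_cs y (v i) (hv i (gu_paired_mem P hi))) (sq_nonneg _) hW20
      _ = (((univ.image P.p ∪ univ.image P.q).card : ℕ) : ℝ) * √(W2 * Y2) := by
          rw [Finset.sum_const, nsmul_eq_mul]
      _ ≤ 16 * √(W2 * Y2) :=
          mul_le_mul_of_nonneg_right (gu_paired_card P hcard) (Real.sqrt_nonneg _)
  -- the form on `w` and `y`
  set Lw := (1 / 2 : ℝ) ^ l * ∑ k, lam k * w k ^ 2 with hLw
  set Ly := (1 / 2 : ℝ) ^ l * ∑ k, lam k * y k ^ 2 with hLy
  have hcomb : ∀ α β : ℝ,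
      |(α ^ 2 * ∑ i ∈ F, a i ^ 2 + 2 * α * β * ∑ i ∈ F, a i * b i + β ^ 2 * ∑ i ∈ F, b i ^ 2)
        - (α ^ 2 * Lw + β ^ 2 * Ly)| ≤
      eta τ m l * (α ^ 2 * Lw + β ^ 2 * Ly) + kap d * (α ^ 2 * W2 + β ^ 2 * Y2) := by
    intro α β
    have h1 := hgr (fun k => α * w k + β * y k)
    have h2 : ∑ i ∈ F, (∑ k, (α * w k + β * y k) * v i k) ^ 2 =
        α ^ 2 * ∑ i ∈ F, a i ^ 2 + 2 * α * β * ∑ i ∈ F, a i * b i + β ^ 2 * ∑ i ∈ F, b i ^ 2 := by
      rw [Finset.mul_sum, Finset.mul_sum, Finset.mul_sum, ← Finset.sum_add_distrib,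
        ← Finset.sum_add_distrib]
      apply Finset.sum_congr rfl
      intro i _
      have h3 : ∑ k, (α * w k + β * y k) * v i k = α * a i + β * b i := by
        rw [ha, hb]
        simp only
        rw [Finset.mul_sum, Finset.mul_sum, ← Finset.sum_add_distrib]
        exact Finset.sum_congr rfl fun k _ => by ring
      rw [h3]
      ring
    have h4 : (1 / 2 : ℝ) ^ l * ∑ k, lam k * (α * w k + β * y k) ^ 2 =
        α ^ 2 * Lw + β ^ 2 * Ly := by
      have h5 : ∑ k, lam k * (α * w k + β * y k) ^ 2 =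
          α ^ 2 * ∑ k, lam k * w k ^ 2 + β ^ 2 * ∑ k, lam k * y k ^ 2 := by
        rw [Finset.mul_sum, Finset.mul_sum, ← Finset.sum_add_distrib]
        apply Finset.sum_congr rfl
        intro k _
        linear_combination (2 * α * β * lam k) * hdisj k
      rw [h5, hLw, hLy]
      ring
    have h6 : ∑ k, (α * w k + β * y k) ^ 2 = α ^ 2 * W2 + β ^ 2 * Y2 := by
      rw [hW2, hY2, Finset.mul_sum, Finset.mul_sum, ← Finset.sum_add_distrib]
      apply Finset.sum_congr rfl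
      intro k _
      linear_combination (2 * α * β) * hdisj k
    rw [h2, h4, h6] at h1
    exact h1
  set X := ∑ i ∈ F, a i * b i with hX
  set c := eta τ m l + kap d / L with hc
  have hc0 : 0 < c := by
    have : 0 < kap d / L := div_pos hkp hLp
    linarith
  have hcL : L * c = eta τ m l * L + kap d := by
    rw [hc]
    field_simp
  -- bounds of the diagonal terms
  have hLwle : Lw ≤ L * W2 := by
    rw [hLw, Finset.mul_sum, hW2, Finset.mul_sum]
    apply Finset.sum_le_sum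
    intro k _
    by_cases hk : k ∈ zone τ m l
    · have h1 : τ k ≤ l := (Finset.mem_filter.mp hk).2.1
      have h2 := hS.upper k
      have h3 : (2:ℝ) ^ (τ k) ≤ 2 ^ l := pow_le_pow_right₀ (by norm_num) h1
      have h4 : lam k ≤ L * 2 ^ l := h2.trans (mul_le_mul_of_nonneg_left h3 hLp.le)
      have h5 : (1 / 2 : ℝ) ^ l * lam k ≤ L := by
        have h8 : (1 / 2 : ℝ) ^ l * (L * 2 ^ l) = L := by
          rw [mul_comm L, ← mul_assoc, ← mul_pow]
          norm_num
        exact (mul_le_mul_of_nonneg_left h4 (by positivity)).trans h8.le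
      rw [← mul_assoc]
      exact mul_le_mul_of_nonneg_right h5 (sq_nonneg _)
    · have h1 : w k = 0 := by
        rw [hw]
        simp only
        rw [if_neg hk]
      rw [h1]
      simp
  have hLyle : Ly ≤ 4 * Q ^ 2 / L := by
    refine le_trans (le_of_eq ?_) hgy
    rw [hLy, Finset.mul_sum]
    symm
    have h1 : ∑ k ∈ rich τ l, ((1 / 2) ^ l * lam k) * y k ^ 2 =
        ∑ k, ((1 / 2) ^ l * lam k) * y k ^ 2 := by
      apply Finset.sum_subset (Finset.subset_univ _)
      intro k _ hk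
      rw [hy k hk]
      ring
    rw [h1]
    exact Finset.sum_congr rfl fun k _ => by ring
  have hNw : eta τ m l * Lw + kap d * W2 ≤ L * c * W2 := by
    rw [hcL]
    have := mul_le_mul_of_nonneg_left hLwle he0
    nlinarith
  have hNy : eta τ m l * Ly + kap d * Y2 ≤ 4 * Q ^ 2 / L * c := by
    have h1 := mul_le_mul_of_nonneg_left hLyle he0
    have h2 := mul_le_mul_of_nonneg_left hyy hkp.le
    have h3 : 4 * Q ^ 2 / L * c = eta τ m l * (4 * Q ^ 2 / L) + kap d * (4 * Q ^ 2 / L ^ 2) := by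
      rw [hc]
      field_simp
    rw [h3]
    linarith
  rw [hWz]
  set W := √W2 with hW
  have hW0 : 0 ≤ W := Real.sqrt_nonneg _
  have hWsq : W ^ 2 = W2 := Real.sq_sqrt hW20
  rcases eq_or_lt_of_le hW0 with h0 | hWpos
  · rw [← hWsq, ← h0]
    norm_num
  -- polarisation
  have hXle : |X| ≤ 2 * Q * c * W := by
    have h1 := hcomb (2 * Q) (L * W)
    have h2 := hcomb (2 * Q) (-(L * W))
    set α := 2 * Q with hα
    set β := L * W with hβ
    have hαβ : 0 < α * β := by positivity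
    have hS : eta τ m l * (α ^ 2 * Lw + β ^ 2 * Ly) + kap d * (α ^ 2 * W2 + β ^ 2 * Y2) ≤
        8 * Q ^ 2 * L * c * W2 := by
      have e1 : eta τ m l * (α ^ 2 * Lw + β ^ 2 * Ly) + kap d * (α ^ 2 * W2 + β ^ 2 * Y2) =
          α ^ 2 * (eta τ m l * Lw + kap d * W2) + β ^ 2 * (eta τ m l * Ly + kap d * Y2) := by ring
      rw [e1]
      have e2 := mul_le_mul_of_nonneg_left hNw (sq_nonneg α)
      have e3 := mul_le_mul_of_nonneg_left hNy (sq_nonneg β)
      have e4 : α ^ 2 * (L * c * W2) + β ^ 2 * (4 * Q ^ 2 / L * c) = 8 * Q ^ 2 * L * c * W2 := by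
        rw [hα, hβ, ← hWsq]
        field_simp
        ring
      linarith
    have h2' : |(α ^ 2 * ∑ i ∈ F, a i ^ 2 - 2 * α * β * X + β ^ 2 * ∑ i ∈ F, b i ^ 2)
        - (α ^ 2 * Lw + β ^ 2 * Ly)| ≤
      eta τ m l * (α ^ 2 * Lw + β ^ 2 * Ly) + kap d * (α ^ 2 * W2 + β ^ 2 * Y2) := by
      have e5 : (α ^ 2 * ∑ i ∈ F, a i ^ 2 + 2 * α * (-β) * X + (-β) ^ 2 * ∑ i ∈ F, b i ^ 2)
        - (α ^ 2 * Lw + (-β) ^ 2 * Ly) =
        (α ^ 2 * ∑ i ∈ F, a i ^ 2 - 2 * α * β * X + β ^ 2 * ∑ i ∈ F, b i ^ 2)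
        - (α ^ 2 * Lw + β ^ 2 * Ly) := by ring
      rw [e5] at h2
      refine h2.trans (le_of_eq ?_)
      ring
    have h3 := abs_le.mp (h1.trans hS)
    have h4 := abs_le.mp (h2'.trans hS)
    have h5 : 4 * (α * β) * |X| ≤ 16 * Q ^ 2 * L * c * W2 := by
      rcases abs_cases X with ⟨h6, _⟩ | ⟨h6, _⟩ <;> rw [h6]
      · linarith [h3.2, h4.1]
      · linarith [h3.1, h4.2]
    have h6 : 16 * Q ^ 2 * L * c * W2 = 4 * (α * β) * (2 * Q * c * W) := by
      rw [hα, hβ, ← hWsq]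
      ring
    rw [h6] at h5
    exact le_of_mul_le_mul_left h5 (by positivity)
  have hYle : √(W2 * Y2) ≤ W * (2 * Q / L) := by
    rw [Real.sqrt_mul hW20]
    apply mul_le_mul_of_nonneg_left _ hW0
    rw [Real.sqrt_le_left (by positivity)]
    refine hyy.trans (le_of_eq ?_)
    field_simp
    ring
  have hfin : W2 ≤ 2 * Q * c * W + 16 * (W * (2 * Q / L)) := by
    have h1 := gu_split P (fun i => a i * b i)
    have h2 : W2 = X - ∑ i ∈ univ.image P.p ∪ univ.image P.q, a i * b i := by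
      rw [hmain, hX, h1]
      ring
    rw [h2]
    have h3 := le_abs_self X
    have h4 := neg_abs_le (∑ i ∈ univ.image P.p ∪ univ.image P.q, a i * b i)
    linarith
  have hp3 := par3 hG τ l
  have h1 : W * W ≤ W * 1 := by
    rw [← sq, hWsq]
    refine hfin.trans ?_
    have h2 : 2 * Q * c * W + 16 * (W * (2 * Q / L)) =
        W * (2 * c * Q + 32 * Q / L) := by ring
    rw [h2]
    exact mul_le_mul_of_nonneg_left hp3 hW0
  have h2 : W ≤ 1 := le_of_mul_le_mul_left h1 hWpos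
  rw [← hWsq]
  nlinarith

end

end Vale.Agent.P262
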