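import Vale.Agent.P262.Full.Params
import Vale.Agent.P262.Full.GramUp

namespace Vale.Agent.P262

open Finset

lemma dust_om_nonneg {d : ℕ} (τ : Fin d → ℕ) (m l : ℕ) (k : Fin d) : 0 ≤ om τ m l k := by
  unfold om
  split_ifs
  · positivity
  · exact le_refl _

lemma dust_om_succ {d : ℕ} (τ : Fin d → ℕ) (m l : ℕ) (k : Fin d) :
    om τ m (l + 1) k = 121 / 100 * om τ m l k + (if τ k + m = l + 1 then 1 else 0) := by
  unfold om
  by_cases h1 : τ k + m ≤ l
  · have h2 : τ k + m ≤ l + 1 := by omega
    have h3 : τ k + m ≠ l + 1 := by omega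
    have h4 : l + 1 - (τ k + m) = (l - (τ k + m)) + 1 := by omega
    rw [if_pos h1, if_pos h2, if_neg h3, h4, pow_succ]
    ring
  · by_cases h2 : τ k + m = l + 1
    · have h3 : τ k + m ≤ l + 1 := by omega
      have h4 : l + 1 - (τ k + m) = 0 := by omega
      rw [if_neg h1, if_pos h3, if_pos h2, h4]
      norm_num
    · have h3 : ¬ τ k + m ≤ l + 1 := by omega
      rw [if_neg h1, if_neg h3, if_neg h2]
      norm_num

lemma dust_tt_nonneg {ι : Type} {d : ℕ} (v : ι → Fin d → ℝ) (τ : Fin d → ℕ) (m l : ℕ) (i : ι) :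
    0 ≤ tt v τ m l i :=
  Finset.sum_nonneg fun k _ => mul_nonneg (dust_om_nonneg τ m l k) (sq_nonneg _)

lemma dust_tt_succ {ι : Type} {d : ℕ} (v : ι → Fin d → ℝ) (τ : Fin d → ℕ) (m l : ℕ) (i : ι) :
    tt v τ m (l + 1) i = 121 / 100 * tt v τ m l i +
      ∑ k ∈ univ.filter (fun k => τ k + m = l + 1), v i k ^ 2 := by
  unfold tt
  rw [Finset.sum_filter, Finset.mul_sum, ← Finset.sum_add_distrib]
  apply Finset.sum_congr rfl
  intro k _
  rw [dust_om_succ]
  split_ifs <;> ring

/-- the representatives of the pairs in the child -/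
lemma dust_pairs {ι : Type} [DecidableEq ι] {F : Finset ι} {top : ι} (P : Pairing F top)
    (s : ι → ℝ) (hsq : ∀ j, s (P.q j) = - s (P.p j)) {e : ℝ} (he : e = 1 ∨ e = -1)
    (f : ι → ℝ) (hf : ∀ i, 0 ≤ f i) (hle : ∀ j, j ≠ 0 → f (P.q j) ≤ f (P.p j)) :
    ∑ i ∈ (F.filter fun i => s i = e).erase (if s top = e then top else P.q 0), f i ≤
      ∑ j ∈ univ.erase 0, f (P.p j) + ∑ i ∈ P.Fr.filter (fun i => s i = e), f i := by
  classical
  have hne : -e ≠ e := by rcases he with h | h <;> rw [h] <;> norm_num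
  set r : Fin (P.n + 1) → ι := fun j => if s (P.p j) = e then P.p j else P.q j with hr
  have hrinj : Function.Injective r := by
    intro i j hij
    rw [hr] at hij
    simp only at hij
    by_cases h1 : s (P.p i) = e
    · by_cases h2 : s (P.p j) = e
      · rw [if_pos h1, if_pos h2] at hij
        exact P.inj_p hij
      · rw [if_pos h1, if_neg h2] at hij
        exact absurd hij (P.disj i j)
    · by_cases h2 : s (P.p j) = e
      · rw [if_neg h1, if_pos h2] at hij
        exact absurd hij.symm (P.disj j i)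
      · rw [if_neg h1, if_neg h2] at hij
        exact P.inj_q hij
  have hsub : (F.filter fun i => s i = e).erase (if s top = e then top else P.q 0) ⊆
      (univ.erase 0).image r ∪ P.Fr.filter (fun i => s i = e) := by
    intro i hi
    rw [Finset.mem_erase, Finset.mem_filter] at hi
    obtain ⟨hi1, hi2, hi3⟩ := hi
    rw [Finset.mem_union]
    by_cases hFr : i ∈ P.Fr
    · right
      exact Finset.mem_filter.mpr ⟨hFr, hi3⟩
    · left
      rw [Pairing.Fr, Finset.mem_sdiff, not_and_not_right] at hFr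
      have h4 := hFr hi2
      rw [Finset.mem_union, Finset.mem_image, Finset.mem_image] at h4
      rw [Finset.mem_image]
      rcases h4 with ⟨j, _, hj⟩ | ⟨j, _, hj⟩
      · refine ⟨j, ?_, ?_⟩
        · rw [Finset.mem_erase]
          refine ⟨?_, Finset.mem_univ _⟩
          intro hj0
          rw [hj0, P.p_zero] at hj
          rw [← hj] at hi1 hi3
          rw [if_pos hi3] at hi1
          exact hi1 rfl
        · rw [hr]
          simp only
          rw [if_pos (by rw [hj]; exact hi3)]
          exact hj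
      · have h5 : s (P.p j) ≠ e := by
          intro h6
          have h7 := hsq j
          rw [h6, hj, hi3] at h7
          exact hne h7.symm
        refine ⟨j, ?_, ?_⟩
        · rw [Finset.mem_erase]
          refine ⟨?_, Finset.mem_univ _⟩
          intro hj0
          rw [hj0] at hj h5
          rw [P.p_zero] at h5
          rw [if_neg h5, hj] at hi1
          exact hi1 rfl
        · rw [hr]
          simp only
          rw [if_neg h5]
          exact hj
  refine (Finset.sum_le_sum_of_subset_of_nonneg hsub fun i _ _ => hf i).trans ?_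
  have h1 := Finset.sum_union_inter (s₁ := (univ.erase 0).image r)
    (s₂ := P.Fr.filter (fun i => s i = e)) (f := f)
  have h2 : 0 ≤ ∑ i ∈ (univ.erase 0).image r ∩ P.Fr.filter (fun i => s i = e), f i :=
    Finset.sum_nonneg fun i _ => hf i
  have h3 : ∑ i ∈ (univ.erase 0).image r, f i = ∑ j ∈ univ.erase 0, f (r j) :=
    Finset.sum_image fun i _ j _ h => hrinj h
  have h4 : ∑ j ∈ univ.erase 0, f (r j) ≤ ∑ j ∈ univ.erase 0, f (P.p j) := by
    apply Finset.sum_le_sum
    intro j hj
    rw [hr]
    simp only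
    split_ifs
    · exact le_refl _
    · exact hle j (Finset.ne_of_mem_erase hj)
  linarith

/-- update of the dust invariant -/
theorem dust_update {ι : Type} [DecidableEq ι] {d m : ℕ} {v : ι → Fin d → ℝ} {τ : Fin d → ℕ}
    {lam : Fin d → ℝ} {l : ℕ} {F : Finset ι} {top : ι} (htop : top ∈ F)
    (hG : Good d m) (hS : Spec m τ lam) (P : Pairing F top)
    (hD : Dust v τ m l F top) (s x : ι → ℝ) (hs : ∀ i, s i = 1 ∨ s i = -1)
    (hsq : ∀ j, s (P.q j) = - s (P.p j))
    (hx : ∀ i ∈ P.Fr, |x i| ≤ chi τ m l)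
    (hcase :
      (∑ j ∈ univ.erase 0, tt v τ m l (P.p j) + ∑ i ∈ P.Fr, tt v τ m l i
        ≤ (1 / 2) * ∑ i ∈ F.erase top, tt v τ m l i) ∨
      (∑ j ∈ univ.erase 0, tt v τ m l (P.p j)
          ≤ (1 / 2) * (∑ i ∈ F.erase top, tt v τ m l i - ∑ i ∈ P.Fr, tt v τ m l i) ∧
        |∑ i ∈ P.Fr, (s i - x i) * tt v τ m l i| ≤ 3 * (BB d / 16)))
    (hle : ∀ j, j ≠ 0 → tt v τ m l (P.q j) ≤ tt v τ m l (P.p j))
    {e : ℝ} (he : e = 1 ∨ e = -1)
    (hgr : Gram v τ m lam (l + 1) (F.filter fun i => s i = e)) :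
    Dust v τ m (l + 1) (F.filter fun i => s i = e) (if s top = e then top else P.q 0) := by
  classical
  unfold Dust
  unfold Dust at hD
  have hT0 := T0_ge hG.hd
  have hd0 : (1 : ℝ) ≤ d := by exact_mod_cast hG.hd
  have hkap : 0 ≤ kap d := by unfold kap; positivity
  have hBB : 0 ≤ BB d := by unfold BB; positivity
  have htt := dust_tt_nonneg v τ m l
  set C := F.filter fun i => s i = e with hC
  set topC := (if s top = e then top else P.q 0) with htopC
  -- the new dust
  have hnew : ∑ i ∈ C.erase topC, ∑ k ∈ univ.filter (fun k => τ k + m = l + 1), v i k ^ 2 ≤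
      BB d / 4 := by
    have h1 : ∑ i ∈ C.erase topC, ∑ k ∈ univ.filter (fun k => τ k + m = l + 1), v i k ^ 2 ≤
        ∑ i ∈ C, ∑ k ∈ univ.filter (fun k => τ k + m = l + 1), v i k ^ 2 := by
      apply Finset.sum_le_sum_of_subset_of_nonneg (Finset.erase_subset _ _)
      intro i _ _
      exact Finset.sum_nonneg fun k _ => sq_nonneg _
    refine h1.trans ?_
    rw [Finset.sum_comm]
    have h2 : ∀ k ∈ univ.filter (fun k => τ k + m = l + 1), ∑ i ∈ C, v i k ^ 2 ≤ 3 * kap d := by
      intro k hk
      have hk' : τ k + m = l + 1 := (Finset.mem_filter.mp hk).2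
      have h3 := hgr (fun k' => if k' = k then 1 else 0)
      have e1 : ∀ i, (∑ k', (if k' = k then (1 : ℝ) else 0) * v i k') = v i k := by
        intro i
        simp
      have e2 : ∑ k', lam k' * (if k' = k then (1 : ℝ) else 0) ^ 2 = lam k := by
        simp [ite_pow]
      have e3 : ∑ k', (if k' = k then (1 : ℝ) else 0) ^ 2 = 1 := by
        simp [ite_pow]
      simp only [e1, e2, e3] at h3
      have h4 := (abs_le.mp h3).2
      have h5 : (1 / 2 : ℝ) ^ (l + 1) * lam k ≤ kap d := by
        have h6 := hS.upper k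
        unfold Lam at h6
        have h7 : kap d * 2 ^ m * 2 ^ τ k = kap d * 2 ^ (l + 1) := by
          rw [mul_assoc, ← pow_add, add_comm m, hk']
        rw [h7] at h6
        have h8 : (1 / 2 : ℝ) ^ (l + 1) * 2 ^ (l + 1) = 1 := by
          rw [← mul_pow]; norm_num
        calc (1 / 2 : ℝ) ^ (l + 1) * lam k ≤ (1 / 2 : ℝ) ^ (l + 1) * (kap d * 2 ^ (l + 1)) :=
              mul_le_mul_of_nonneg_left h6 (by positivity)
          _ = kap d * ((1 / 2 : ℝ) ^ (l + 1) * 2 ^ (l + 1)) := by ring
          _ = kap d := by rw [h8, mul_one]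
      have h9 := eta_le hG τ (l + 1)
      have h10 := eta_nonneg (m := m) τ (l + 1)
      have h11 : eta τ m (l + 1) * ((1 / 2 : ℝ) ^ (l + 1) * lam k) ≤ 1 / 4 * kap d :=
        mul_le_mul h9 h5 (mul_nonneg (by positivity) (hS.nonneg k)) (by norm_num)
      linarith
    refine (Finset.sum_le_sum h2).trans ?_
    rw [Finset.sum_const, nsmul_eq_mul]
    have h3 : ((univ.filter (fun k : Fin d => τ k + m = l + 1)).card : ℝ) ≤ d := by
      have := Finset.card_le_univ (univ.filter (fun k : Fin d => τ k + m = l + 1))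
      rw [Fintype.card_fin] at this
      exact_mod_cast this
    have h4 : ((univ.filter (fun k : Fin d => τ k + m = l + 1)).card : ℝ) * (3 * kap d) ≤
        d * (3 * kap d) := mul_le_mul_of_nonneg_right h3 (by positivity)
    refine h4.trans (le_of_eq ?_)
    unfold BB
    ring
  -- the old dust
  have hold : ∑ i ∈ C.erase topC, tt v τ m l i ≤ (1 / 2 + 3 / 32 + 1 / 200) * BB d := by
    have h1 := dust_pairs P s hsq he (tt v τ m l) htt hle
    refine h1.trans ?_
    rcases hcase with h2 | ⟨h2, h3⟩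
    · have h3 : ∑ i ∈ P.Fr.filter (fun i => s i = e), tt v τ m l i ≤ ∑ i ∈ P.Fr, tt v τ m l i :=
        Finset.sum_le_sum_of_subset_of_nonneg (Finset.filter_subset _ _) fun i _ _ => htt i
      nlinarith
    · have h4 : ∑ i ∈ P.Fr.filter (fun i => s i = e), tt v τ m l i =
          (1 / 2) * (∑ i ∈ P.Fr, tt v τ m l i + e * ∑ i ∈ P.Fr, s i * tt v τ m l i) :=
        child_sum s hs he (tt v τ m l)
      have h5 : ∑ i ∈ P.Fr, s i * tt v τ m l i =
          ∑ i ∈ P.Fr, (s i - x i) * tt v τ m l i + ∑ i ∈ P.Fr, x i * tt v τ m l i := by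
        rw [← Finset.sum_add_distrib]
        apply Finset.sum_congr rfl
        intro i _
        ring
      have h6 : |∑ i ∈ P.Fr, x i * tt v τ m l i| ≤ chi τ m l * ∑ i ∈ P.Fr, tt v τ m l i := by
        rw [Finset.mul_sum]
        refine (Finset.abs_sum_le_sum_abs _ _).trans ?_
        apply Finset.sum_le_sum
        intro i hi
        rw [abs_mul, abs_of_nonneg (htt i)]
        exact mul_le_mul_of_nonneg_right (hx i hi) (htt i)
      have h7 := chi_le hG τ l
      have hFr : ∑ i ∈ P.Fr, tt v τ m l i ≤ ∑ i ∈ F.erase top, tt v τ m l i := by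
        apply Finset.sum_le_sum_of_subset_of_nonneg
        · intro i hi
          rw [Pairing.Fr, Finset.mem_sdiff, Finset.mem_union] at hi
          rw [Finset.mem_erase]
          refine ⟨?_, hi.1⟩
          intro hit
          apply hi.2
          left
          rw [Finset.mem_image]
          exact ⟨0, Finset.mem_univ _, by rw [P.p_zero, hit]⟩
        · intro i _ _
          exact htt i
      have hFr0 : 0 ≤ ∑ i ∈ P.Fr, tt v τ m l i := Finset.sum_nonneg fun i _ => htt i
      have h8 : chi τ m l * ∑ i ∈ P.Fr, tt v τ m l i ≤ 1 / 100 * BB d :=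
        mul_le_mul h7 (hFr.trans hD) hFr0 (by norm_num)
      have h9 : e * ∑ i ∈ P.Fr, s i * tt v τ m l i ≤ 3 * (BB d / 16) + 1 / 100 * BB d := by
        have h10 : |∑ i ∈ P.Fr, s i * tt v τ m l i| ≤ 3 * (BB d / 16) + 1 / 100 * BB d := by
          rw [h5]
          refine (abs_add_le _ _).trans ?_
          linarith
        refine le_trans (le_abs_self _) ?_
        rw [abs_mul]
        have : |e| = 1 := by rcases he with h | h <;> simp [h]
        rw [this, one_mul]
        exact h10
      rw [h4]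
      linarith
  have hsplit : ∑ i ∈ C.erase topC, tt v τ m (l + 1) i =
      121 / 100 * ∑ i ∈ C.erase topC, tt v τ m l i +
      ∑ i ∈ C.erase topC, ∑ k ∈ univ.filter (fun k => τ k + m = l + 1), v i k ^ 2 := by
    rw [Finset.mul_sum, ← Finset.sum_add_distrib]
    exact Finset.sum_congr rfl fun i _ => dust_tt_succ v τ m l i
  rw [hsplit]
  linarith

end Vale.Agent.P262
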