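import Vale.Agent.P262.Full.Tree
import Vale.Agent.P262.Full.Diag

namespace Vale.Agent.P262

open Finset

namespace FinalAux

/-- a duplicate-free list of all elements of `Fin N`, read as a permutation -/
theorem list_perm {N : ℕ} (L : List (Fin N)) (hn : L.Nodup) (hL : L.toFinset = univ) :
    ∃ π : Equiv.Perm (Fin N), ∀ (M : Type) [AddCommMonoid M] (f : Fin N → M) (k : ℕ),
      ∑ i ∈ univ.filter (fun i : Fin N => (i : ℕ) < k), f (π i) = ((L.take k).map f).sum := by
  have hlen : L.length = N := by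
    have h := List.toFinset_card_of_nodup hn
    rw [hL, Finset.card_univ, Fintype.card_fin] at h
    exact h.symm
  have hinj : Function.Injective (fun i : Fin N => L[(i : ℕ)]'(by rw [hlen]; exact i.2)) := by
    intro i j hij
    have := (List.Nodup.getElem_inj_iff hn).1 hij
    exact Fin.ext this
  refine ⟨Equiv.ofBijective _ (Finite.injective_iff_bijective.1 hinj), ?_⟩
  intro M _ f k
  have hk : (L.take k).Nodup := hn.sublist (List.take_sublist k L)
  rw [← List.sum_toFinset f hk]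
  have himg : (L.take k).toFinset = (univ.filter (fun i : Fin N => (i : ℕ) < k)).image
      (Equiv.ofBijective _ (Finite.injective_iff_bijective.1 hinj)) := by
    ext x
    rw [List.mem_toFinset, List.mem_take_iff_getElem, Finset.mem_image]
    constructor
    · rintro ⟨i, hi, rfl⟩
      refine ⟨⟨i, by omega⟩, ?_, rfl⟩
      simp
      omega
    · rintro ⟨i, hi, rfl⟩
      refine ⟨i, ?_, rfl⟩
      have := (Finset.mem_filter.1 hi).2
      have := i.2
      omega
  rw [himg, Finset.sum_image]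
  intro i _ j _ hij
  exact (Equiv.ofBijective _ (Finite.injective_iff_bijective.1 hinj)).injective hij

end FinalAux

theorem main : ∃ C : ℝ, 0 < C ∧ ∀ d : ℕ, 1 ≤ d → ∀ (N : ℕ) (v : Fin N → EuclideanSpace ℝ (Fin d)),
    (∀ i, ‖v i‖ ≤ 1) → ∑ i, v i = 0 →
    ∃ π : Equiv.Perm (Fin N), ∀ k : ℕ,
      ‖∑ i ∈ univ.filter (fun i : Fin N => (i : ℕ) < k), v (π i)‖
        ≤ C * √d * (1 + Real.log d) ^ (3 / 2 : ℝ) := by
  obtain ⟨C, hC, hgood⟩ := exists_good
  refine ⟨C, hC, fun d hd N v hv hsum => ?_⟩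
  obtain ⟨m, hG, hRR⟩ := hgood d hd
  rcases Nat.eq_zero_or_pos N with rfl | hN
  · refine ⟨Equiv.refl _, fun k => ?_⟩
    have : ∑ i ∈ univ.filter (fun i : Fin 0 => (i : ℕ) < k), v ((Equiv.refl (Fin 0)) i) = 0 := by
      apply Finset.sum_eq_zero
      intro i
      exact i.elim0
    rw [this, norm_zero]
    exact (RR_nonneg d m).trans hRR
  · have : Nonempty (Fin N) := ⟨⟨0, hN⟩⟩
    obtain ⟨Q, lam, hmono, hnn, hgram⟩ := exists_diag v
    obtain ⟨τ, hS⟩ := exists_tau hG hmono hnn
    have hQ : ∀ x : EuclideanSpace ℝ (Fin d), ∑ k, (Q x k) ^ 2 = ‖x‖ ^ 2 := by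
      intro x
      rw [← Q.norm_map x, EuclideanSpace.norm_sq_eq]
      refine Finset.sum_congr rfl fun k _ => ?_
      rw [Real.norm_eq_abs, sq_abs]
    have hw : ∀ i, ∑ k, (fun k => Q (v i) k) k ^ 2 ≤ 1 := by
      intro i
      have h := hQ (v i)
      have h1 : ‖v i‖ ^ 2 ≤ 1 := by
        have := hv i
        have h0 := norm_nonneg (v i)
        nlinarith
      show ∑ k, (Q (v i) k) ^ 2 ≤ 1
      rw [h]
      exact h1
    have happ : ∀ (s : Finset (Fin N)) (f : Fin N → EuclideanSpace ℝ (Fin d)) (k : Fin d),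
        (Q (∑ i ∈ s, f i)) k = ∑ i ∈ s, Q (f i) k := by
      intro s f k
      rw [map_sum]
      simp
    have hs : ∀ k, ∑ i, (fun (i : Fin N) (k : Fin d) => Q (v i) k) i k = 0 := by
      intro k
      show ∑ i, Q (v i) k = 0
      rw [← happ univ v k, hsum, map_zero]
      rfl
    have hroot := root_inv (v := fun (i : Fin N) (k : Fin d) => Q (v i) k) hG hS hgram hs
    obtain ⟨L, hnd, hL, hb⟩ := tree hG hw hS hroot
    obtain ⟨π, hπ⟩ := FinalAux.list_perm L hnd hL
    refine ⟨π, fun k => ?_⟩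
    refine le_trans ?_ hRR
    have hsq : ‖∑ i ∈ univ.filter (fun i : Fin N => (i : ℕ) < k), v (π i)‖ ^ 2 ≤ RR d m ^ 2 := by
      rw [← hQ]
      refine le_of_eq_of_le ?_ (hb k)
      refine Finset.sum_congr rfl fun j _ => ?_
      congr 1
      rw [happ, zero_add]
      exact hπ ℝ (fun i => Q (v i) j) k
    exact (pow_le_pow_iff_left₀ (norm_nonneg _) (RR_nonneg d m) two_ne_zero).1 hsq

end Vale.Agent.P262
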