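import Mathlib

/-! P262: Gram-Schmidt walk rounding, deterministic weighted form. -/

namespace Vale.Agent.P262

open Finset
open scoped RealInnerProductSpace

noncomputable section gsAbs

variable {V : Type*} [NormedAddCommGroup V] [InnerProductSpace ℝ V] [FiniteDimensional ℝ V]
variable {κ : Type*} [Fintype κ]

/-- the weighted energy -/
def gsPhi (e : κ → V) (w : κ → ℝ) (g : V) : ℝ := ∑ k, w k * ⟪e k, g⟫ ^ 2

/-- the weighted trace of the projection -/
def gsTau (e : κ → V) (w : κ → ℝ) (W : Submodule ℝ V) : ℝ :=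
  ∑ k, w k * ‖W.starProjection (e k)‖ ^ 2

lemma gs_pyth {U W : Submodule ℝ V} (h : U ≤ W) (a : V) :
    ‖W.starProjection a - U.starProjection a‖ ^ 2 =
      ‖W.starProjection a‖ ^ 2 - ‖U.starProjection a‖ ^ 2 := by
  have h1 : ⟪W.starProjection a - U.starProjection a, U.starProjection a⟫ = 0 := by
    have e1 : W.starProjection a - U.starProjection a =
        (a - U.starProjection a) - (a - W.starProjection a) := by abel
    rw [e1, inner_sub_left,
      Submodule.starProjection_inner_eq_zero _ _ (U.starProjection_apply_mem a),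
      Submodule.starProjection_inner_eq_zero _ _ (h (U.starProjection_apply_mem a)), sub_zero]
  have h2 : W.starProjection a =
      (W.starProjection a - U.starProjection a) + U.starProjection a := by abel
  have h3 := norm_add_sq_real (W.starProjection a - U.starProjection a) (U.starProjection a)
  rw [← h2, h1] at h3
  linarith

lemma gsTau_mono {e : κ → V} {w : κ → ℝ} (hw : ∀ k, 0 ≤ w k) {U W : Submodule ℝ V} (h : U ≤ W) :
    gsTau e w U ≤ gsTau e w W := by
  apply Finset.sum_le_sum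
  intro k _
  apply mul_le_mul_of_nonneg_left _ (hw k)
  have := gs_pyth h (e k)
  nlinarith [sq_nonneg ‖W.starProjection (e k) - U.starProjection (e k)‖]

lemma gsTau_nonneg {e : κ → V} {w : κ → ℝ} (hw : ∀ k, 0 ≤ w k) (W : Submodule ℝ V) :
    0 ≤ gsTau e w W :=
  Finset.sum_nonneg fun k _ => mul_nonneg (hw k) (sq_nonneg _)

lemma gsTau_le {e : κ → V} {w : κ → ℝ} (hw : ∀ k, 0 ≤ w k) (he : ∀ k, ‖e k‖ ≤ 1)
    (W : Submodule ℝ V) : gsTau e w W ≤ ∑ k, w k := by
  apply Finset.sum_le_sum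
  intro k _
  apply mul_le_of_le_one_right (hw k)
  have h1 : ‖W.starProjection (e k)‖ ≤ 1 := (W.norm_starProjection_apply_le (e k)).trans (he k)
  exact pow_le_one₀ (norm_nonneg _) h1

lemma gsPhi_le {e : κ → V} {w : κ → ℝ} (hw : ∀ k, 0 ≤ w k) {U W : Submodule ℝ V} (h : U ≤ W)
    {v : V} (hvW : v ∈ W) (hvU : ∀ y ∈ U, ⟪y, v⟫ = 0) (hv1 : ‖v‖ ≤ 1) :
    gsPhi e w v ≤ gsTau e w W - gsTau e w U := by
  unfold gsPhi gsTau
  rw [← Finset.sum_sub_distrib]
  apply Finset.sum_le_sum
  intro k _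
  rw [← mul_sub]
  apply mul_le_mul_of_nonneg_left _ (hw k)
  rw [← gs_pyth h]
  have h1 : ⟪e k, v⟫ = ⟪W.starProjection (e k) - U.starProjection (e k), v⟫ := by
    have h2 : ⟪e k - W.starProjection (e k), v⟫ = 0 :=
      Submodule.starProjection_inner_eq_zero _ _ hvW
    have h3 : ⟪U.starProjection (e k), v⟫ = 0 := hvU _ (U.starProjection_apply_mem _)
    rw [inner_sub_left] at h2 ⊢
    linarith
  rw [h1]
  have h4 := abs_real_inner_le_norm (W.starProjection (e k) - U.starProjection (e k)) v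
  have h5 : |⟪W.starProjection (e k) - U.starProjection (e k), v⟫| ≤
      ‖W.starProjection (e k) - U.starProjection (e k)‖ := by
    refine h4.trans ?_
    exact mul_le_of_le_one_right (norm_nonneg _) hv1
  rw [← sq_abs]
  exact pow_le_pow_left₀ (abs_nonneg _) h5 2

omit [FiniteDimensional ℝ V] in
lemma gsPhi_nonneg {e : κ → V} {w : κ → ℝ} (hw : ∀ k, 0 ≤ w k) (g : V) : 0 ≤ gsPhi e w g :=
  Finset.sum_nonneg fun k _ => mul_nonneg (hw k) (sq_nonneg _)

omit [FiniteDimensional ℝ V] in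
lemma gsPhi_add_smul (e : κ → V) (w : κ → ℝ) (g v : V) (t : ℝ) :
    gsPhi e w (g + t • v) =
      gsPhi e w g + t * (2 * ∑ k, w k * (⟪e k, g⟫ * ⟪e k, v⟫)) + t ^ 2 * gsPhi e w v := by
  unfold gsPhi
  rw [Finset.mul_sum, Finset.mul_sum, Finset.mul_sum, ← Finset.sum_add_distrib,
    ← Finset.sum_add_distrib]
  apply Finset.sum_congr rfl
  intro k _
  rw [inner_add_right, real_inner_smul_right]
  ring

/-- the exit time -/
lemma gs_exit {ι : Type*} {S : Finset ι} {x z : ι → ℝ} (hx : ∀ i ∈ S, |x i| < 1) {p : ι}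
    (hp : p ∈ S) (hz : |z p| = 1) :
    ∃ δ : ℝ, 0 < δ ∧ (∀ i ∈ S, |x i + δ * z i| ≤ 1) ∧ ∃ j ∈ S, |x j + δ * z j| = 1 := by
  have hS : S.Nonempty := ⟨p, hp⟩
  set f : ℝ → ℝ := fun δ => S.sup' hS fun i => |x i + δ * z i| with hf
  have hcont : Continuous f := by
    apply Continuous.finset_sup'_apply
    intro i _
    fun_prop
  have h0 : f 0 < 1 := by
    rw [hf]
    simp only [zero_mul, add_zero]
    rw [Finset.sup'_lt_iff]
    exact hx
  have h2 : 1 ≤ f 2 := by
    have h3 : |x p + 2 * z p| ≤ f 2 := Finset.le_sup' (fun i => |x i + 2 * z i|) hp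
    refine le_trans ?_ h3
    have h4 := hx p hp
    have h5 : |2 * z p| ≤ |x p + 2 * z p| + |x p| := by
      have := abs_sub (x p + 2 * z p) (x p)
      have e : x p + 2 * z p - x p = 2 * z p := by ring
      rw [e] at this
      exact this
    rw [abs_mul, hz] at h5
    norm_num at h5
    linarith
  obtain ⟨δ, hδ, hδ1⟩ : (1 : ℝ) ∈ f '' Set.Icc 0 2 :=
    intermediate_value_Icc (by norm_num) hcont.continuousOn ⟨h0.le, h2⟩
  refine ⟨δ, ?_, ?_, ?_⟩
  · rcases hδ.1.lt_or_eq with h | h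
    · exact h
    · rw [← h] at hδ1
      linarith
  · intro i hi
    rw [← hδ1]
    exact Finset.le_sup' (fun i => |x i + δ * z i|) hi
  · obtain ⟨j, hj, hj2⟩ := Finset.exists_mem_eq_sup' hS fun i => |x i + δ * z i|
    exact ⟨j, hj, by rw [← hj2]; exact hδ1⟩

/-- the walk -/
theorem gs_walk {ι : Type*} [DecidableEq ι] (e : κ → V) (w : κ → ℝ) (hw : ∀ k, 0 ≤ w k)
    (u : ι → V) (n : ℕ) : ∀ (S : Finset ι), S.card = n → (∀ i ∈ S, ‖u i‖ ≤ 1) →
    ∀ (x : ι → ℝ), (∀ i ∈ S, |x i| < 1) → ∀ p ∈ S, ∀ g : V,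
    ∃ ε : ι → ℝ, (∀ i ∈ S, ε i = 1 ∨ ε i = -1) ∧
      gsPhi e w (g + ∑ i ∈ S, (ε i - x i) • u i) ≤ gsPhi e w g +
        (1 - x p ^ 2) * gsTau e w (Submodule.span ℝ (u '' S)) +
        x p ^ 2 * gsTau e w (Submodule.span ℝ (u '' (S.erase p))) := by
  induction n using Nat.strong_induction_on with
  | _ n ih =>
  intro S hS hu x hx p hp g
  set W := Submodule.span ℝ (u '' (S : Set ι)) with hWdef
  set U := Submodule.span ℝ (u '' ((S.erase p : Finset ι) : Set ι)) with hUdef
  have hUW : U ≤ W := by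
    apply Submodule.span_mono
    apply Set.image_mono
    exact Finset.coe_subset.mpr (Finset.erase_subset p S)
  set v := u p - U.starProjection (u p) with hv
  have hupW : u p ∈ W := Submodule.subset_span ⟨p, hp, rfl⟩
  have hvW : v ∈ W := W.sub_mem hupW (hUW (U.starProjection_apply_mem _))
  have hvU : ∀ y ∈ U, ⟪y, v⟫ = 0 := by
    intro y hy
    rw [real_inner_comm]
    exact Submodule.starProjection_inner_eq_zero _ _ hy
  have hv1 : ‖v‖ ≤ 1 := by
    have h1 : ‖u p‖ ^ 2 = ‖v‖ ^ 2 + ‖U.starProjection (u p)‖ ^ 2 := by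
      have h2 := norm_add_sq_real v (U.starProjection (u p))
      have h3 : ⟪v, U.starProjection (u p)⟫ = 0 := by
        rw [real_inner_comm]; exact hvU _ (U.starProjection_apply_mem _)
      rw [h3] at h2
      have h4 : v + U.starProjection (u p) = u p := by rw [hv]; abel
      rw [h4] at h2
      linarith
    have h5 : ‖u p‖ ^ 2 ≤ 1 := pow_le_one₀ (norm_nonneg _) (hu p hp)
    have h6 : ‖v‖ ^ 2 ≤ 1 := by nlinarith [sq_nonneg ‖U.starProjection (u p)‖]
    have h7 : ‖v‖ ^ 2 ≤ 1 ^ 2 := by simpa using h6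
    exact le_of_sq_le_sq h7 (by norm_num)
  -- coefficients
  obtain ⟨c, hc⟩ : ∃ c : ι → ℝ, ∑ i ∈ S.erase p, c i • u i = U.starProjection (u p) :=
    (Submodule.mem_span_image_finset_iff_exists_fun' ℝ).mp (U.starProjection_apply_mem (u p))
  set z : ι → ℝ := fun i => if i = p then 1 else - c i with hz
  have hzp : z p = 1 := by rw [hz]; simp
  have hzsum : ∑ i ∈ S, z i • u i = v := by
    rw [← Finset.add_sum_erase S _ hp, hzp, one_smul, hv, ← hc, sub_eq_add_neg,
      ← Finset.sum_neg_distrib]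
    congr 1
    apply Finset.sum_congr rfl
    intro i hi
    have : i ≠ p := Finset.ne_of_mem_erase hi
    rw [hz]
    simp [this]
  -- the quadratic function
  set A := gsTau e w W - gsTau e w U with hA
  have hAle : gsPhi e w v ≤ A := gsPhi_le hw hUW hvW hvU hv1
  have hA0 : 0 ≤ A := by
    rw [hA]
    have := gsTau_mono (e := e) hw hUW
    linarith
  set B := 2 * (∑ k, w k * (⟪e k, g⟫ * ⟪e k, v⟫)) - 2 * x p * A with hB
  obtain ⟨s, hs1, hsB⟩ : ∃ s : ℝ, (s = 1 ∨ s = -1) ∧ s * B ≤ 0 := by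
    rcases le_total B 0 with h | h
    · exact ⟨1, Or.inl rfl, by linarith⟩
    · exact ⟨-1, Or.inr rfl, by linarith⟩
  have hsabs : |s| = 1 := by rcases hs1 with h | h <;> simp [h]
  obtain ⟨δ, hδ, hle, j, hj, hj1⟩ := gs_exit (z := fun i => s * z i) hx hp
    (by rw [hzp, mul_one]; exact hsabs)
  set t := δ * s with ht
  set x' : ι → ℝ := fun i => x i + t * z i with hx'
  have hx'e : ∀ i, x i + δ * (s * z i) = x' i := by
    intro i
    rw [hx', ht]
    ring
  simp only [hx'e] at hle hj1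
  set g' := g + t • v with hg'
  have hQ : gsPhi e w g' - x' p ^ 2 * A ≤ gsPhi e w g - x p ^ 2 * A := by
    rw [hg', gsPhi_add_smul]
    have h1 : x' p = x p + t := by rw [hx']; simp only; rw [hzp, mul_one]
    rw [h1]
    have h2 : t * B ≤ 0 := by
      rw [ht, mul_assoc]
      exact mul_nonpos_of_nonneg_of_nonpos hδ.le hsB
    have h3 : t ^ 2 * (gsPhi e w v - A) ≤ 0 :=
      mul_nonpos_of_nonneg_of_nonpos (sq_nonneg t) (by linarith)
    rw [hB] at h2
    nlinarith
  set S' := S.filter fun i => |x' i| < 1 with hS'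
  have hS'S : S' ⊆ S := Finset.filter_subset _ _
  have hcard : S'.card < n := by
    rw [← hS]
    apply Finset.card_lt_card
    rw [Finset.ssubset_iff_of_subset hS'S]
    refine ⟨j, hj, ?_⟩
    rw [hS', Finset.mem_filter]
    rintro ⟨_, h⟩
    rw [hj1] at h
    exact lt_irrefl _ h
  have hfrozen : ∀ i ∈ S, i ∉ S' → x' i = 1 ∨ x' i = -1 := by
    intro i hi hi'
    have h1 : |x' i| = 1 := by
      apply le_antisymm (hle i hi)
      by_contra h2
      push Not at h2
      exact hi' (Finset.mem_filter.mpr ⟨hi, h2⟩)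
    exact eq_or_eq_neg_of_abs_eq h1
  -- the combination step
  have hcomb : ∀ ε' : ι → ℝ, (∀ i ∈ S', ε' i = 1 ∨ ε' i = -1) →
      gsPhi e w (g' + ∑ i ∈ S', (ε' i - x' i) • u i) ≤ gsPhi e w g +
        (1 - x p ^ 2) * gsTau e w W + x p ^ 2 * gsTau e w U →
      ∃ ε : ι → ℝ, (∀ i ∈ S, ε i = 1 ∨ ε i = -1) ∧
      gsPhi e w (g + ∑ i ∈ S, (ε i - x i) • u i) ≤ gsPhi e w g +
        (1 - x p ^ 2) * gsTau e w W + x p ^ 2 * gsTau e w U := by
    intro ε' hε' hbd
    refine ⟨fun i => if i ∈ S' then ε' i else x' i, ?_, ?_⟩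
    · intro i hi
      by_cases h : i ∈ S'
      · simp only [h, if_true]; exact hε' i h
      · simp only [h, if_false]; exact hfrozen i hi h
    · have h1 : g + ∑ i ∈ S, ((if i ∈ S' then ε' i else x' i) - x i) • u i =
          g' + ∑ i ∈ S', (ε' i - x' i) • u i := by
        have h2 : ∑ i ∈ S, ((if i ∈ S' then ε' i else x' i) - x i) • u i =
            ∑ i ∈ S, (((if i ∈ S' then ε' i else x' i) - x' i) • u i + (t * z i) • u i) := by
          apply Finset.sum_congr rfl
          intro i _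
          rw [← add_smul]
          congr 1
          rw [hx']
          ring
        have h3 : ∑ i ∈ S, ((if i ∈ S' then ε' i else x' i) - x' i) • u i =
            ∑ i ∈ S', (ε' i - x' i) • u i := by
          rw [← Finset.sum_subset hS'S]
          · apply Finset.sum_congr rfl
            intro i hi
            rw [if_pos hi]
          · intro i _ hi
            rw [if_neg hi, sub_self, zero_smul]
        have h4 : ∑ i ∈ S, (t * z i) • u i = t • v := by
          rw [← hzsum, Finset.smul_sum]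
          apply Finset.sum_congr rfl
          intro i _
          rw [mul_smul]
        rw [h2, Finset.sum_add_distrib, h3, h4, hg']
        abel
      rw [h1]
      exact hbd
  have hu' : ∀ i ∈ S', ‖u i‖ ≤ 1 := fun i hi => hu i (hS'S hi)
  have hx1' : ∀ i ∈ S', |x' i| < 1 := fun i hi => (Finset.mem_filter.mp hi).2
  have htau : ∀ T : Finset ι, T ⊆ S → gsTau e w (Submodule.span ℝ (u '' (T : Set ι))) ≤
      gsTau e w W := by
    intro T hT
    apply gsTau_mono hw
    apply Submodule.span_mono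
    apply Set.image_mono
    exact Finset.coe_subset.mpr hT
  have htau' : ∀ T : Finset ι, T ⊆ S.erase p →
      gsTau e w (Submodule.span ℝ (u '' (T : Set ι))) ≤ gsTau e w U := by
    intro T hT
    apply gsTau_mono hw
    apply Submodule.span_mono
    apply Set.image_mono
    exact Finset.coe_subset.mpr hT
  have hx'p : x' p ^ 2 ≤ 1 := by
    rw [← sq_abs]
    exact pow_le_one₀ (abs_nonneg _) (hle p hp)
  by_cases hpS : p ∈ S'
  · obtain ⟨ε', hε', hbd⟩ := ih _ hcard S' rfl hu' x' hx1' p hpS g'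
    refine hcomb ε' hε' (hbd.trans ?_)
    have h1 := htau S' hS'S
    have h2 := htau' (S'.erase p) (Finset.erase_subset_erase p hS'S)
    have h3 : (1 - x' p ^ 2) * gsTau e w (Submodule.span ℝ (u '' (S' : Set ι))) ≤
        (1 - x' p ^ 2) * gsTau e w W := mul_le_mul_of_nonneg_left h1 (by linarith)
    have h4 : x' p ^ 2 * gsTau e w (Submodule.span ℝ (u '' ((S'.erase p : Finset ι) : Set ι))) ≤
        x' p ^ 2 * gsTau e w U := mul_le_mul_of_nonneg_left h2 (sq_nonneg _)
    rw [hA] at hQ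
    nlinarith
  · have hxp1 : x' p ^ 2 = 1 := by
      rcases hfrozen p hp hpS with h | h <;> rw [h] <;> norm_num
    have hsub : S' ⊆ S.erase p := by
      intro i hi
      rw [Finset.mem_erase]
      exact ⟨fun h => hpS (h ▸ hi), hS'S hi⟩
    have hfin : gsPhi e w g' + gsTau e w U ≤ gsPhi e w g +
        (1 - x p ^ 2) * gsTau e w W + x p ^ 2 * gsTau e w U := by
      rw [hxp1, hA] at hQ
      nlinarith
    rcases S'.eq_empty_or_nonempty with hempty | ⟨p', hp'⟩
    · refine hcomb (fun _ => 1) (fun i _ => Or.inl rfl) ?_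
      rw [hempty, Finset.sum_empty, add_zero]
      have := gsTau_nonneg (e := e) hw U
      linarith
    · obtain ⟨ε', hε', hbd⟩ := ih _ hcard S' rfl hu' x' hx1' p' hp' g'
      refine hcomb ε' hε' (hbd.trans ?_)
      have h1 := htau' S' hsub
      have h2 := htau' (S'.erase p') ((Finset.erase_subset p' S').trans hsub)
      have hx'p' : x' p' ^ 2 ≤ 1 := by
        rw [← sq_abs]
        exact pow_le_one₀ (abs_nonneg _) (hle p' (hS'S hp'))
      have h3 : (1 - x' p' ^ 2) * gsTau e w (Submodule.span ℝ (u '' (S' : Set ι))) ≤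
          (1 - x' p' ^ 2) * gsTau e w U := mul_le_mul_of_nonneg_left h1 (by linarith)
      have h4 : x' p' ^ 2 * gsTau e w (Submodule.span ℝ (u '' ((S'.erase p' : Finset ι) : Set ι))) ≤
          x' p' ^ 2 * gsTau e w U := mul_le_mul_of_nonneg_left h2 (sq_nonneg _)
      nlinarith

end gsAbs

/-- **Gram-Schmidt walk** (Bansal-Dadush-Garg-Lovett, Harshaw-Savje-Spielman-Zhang), weighted
deterministic form. -/
theorem gs {ι κ : Type} [DecidableEq ι] [Fintype κ] (s : Finset ι) (u : ι → κ → ℝ)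
    (hu : ∀ i ∈ s, ∑ k, u i k ^ 2 ≤ 1) (x : ι → ℝ) (hx : ∀ i ∈ s, |x i| ≤ 1)
    (w : κ → ℝ) (hw : ∀ k, 0 ≤ w k) :
    ∃ ε : ι → ℝ, (∀ i, ε i = 1 ∨ ε i = -1) ∧
      ∑ k, w k * (∑ i ∈ s, (ε i - x i) * u i k) ^ 2 ≤ ∑ k, w k := by
  classical
  set e : κ → EuclideanSpace ℝ κ := fun k => EuclideanSpace.single k (1 : ℝ) with he
  set u' : ι → EuclideanSpace ℝ κ := fun i => WithLp.toLp 2 (u i) with hu'
  have he1 : ∀ k, ‖e k‖ ≤ 1 := by
    intro k
    rw [he]
    simp
  have hinner : ∀ k (g : EuclideanSpace ℝ κ), ⟪e k, g⟫ = g k := by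
    intro k g
    rw [he]
    simp [EuclideanSpace.inner_single_left]
  have hu1 : ∀ i ∈ s, ‖u' i‖ ≤ 1 := by
    intro i hi
    have h1 : ‖u' i‖ ^ 2 ≤ 1 ^ 2 := by
      rw [EuclideanSpace.norm_sq_eq, one_pow]
      refine le_trans (le_of_eq ?_) (hu i hi)
      apply Finset.sum_congr rfl
      intro k _
      rw [Real.norm_eq_abs, sq_abs]
    exact le_of_sq_le_sq h1 (by norm_num)
  have hPhi : ∀ f : ι → ℝ, gsPhi e w (∑ i ∈ s, f i • u' i) =
      ∑ k, w k * (∑ i ∈ s, f i * u i k) ^ 2 := by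
    intro f
    unfold gsPhi
    apply Finset.sum_congr rfl
    intro k _
    rw [hinner]
    congr 2
    rw [WithLp.ofLp_sum, Finset.sum_apply]
    apply Finset.sum_congr rfl
    intro i _
    rw [WithLp.ofLp_smul, Pi.smul_apply, smul_eq_mul]
  set S := s.filter fun i => |x i| < 1 with hS
  have hSs : S ⊆ s := Finset.filter_subset _ _
  have hfrozen : ∀ i ∈ s, i ∉ S → x i = 1 ∨ x i = -1 := by
    intro i hi hi'
    have h1 : |x i| = 1 := by
      apply le_antisymm (hx i hi)
      by_contra h2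
      push Not at h2
      exact hi' (Finset.mem_filter.mpr ⟨hi, h2⟩)
    exact eq_or_eq_neg_of_abs_eq h1
  -- from signs on `S` to signs everywhere
  have hfinal : ∀ ε' : ι → ℝ, (∀ i ∈ S, ε' i = 1 ∨ ε' i = -1) →
      gsPhi e w (∑ i ∈ S, (ε' i - x i) • u' i) ≤ ∑ k, w k →
      ∃ ε : ι → ℝ, (∀ i, ε i = 1 ∨ ε i = -1) ∧
        ∑ k, w k * (∑ i ∈ s, (ε i - x i) * u i k) ^ 2 ≤ ∑ k, w k := by
    intro ε' hε' hbd
    refine ⟨fun i => if i ∈ s then (if i ∈ S then ε' i else x i) else 1, ?_, ?_⟩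
    · intro i
      by_cases h1 : i ∈ s
      · by_cases h2 : i ∈ S
        · simp only [h1, h2, if_true]; exact hε' i h2
        · simp only [h1, h2, if_true, if_false]; exact hfrozen i h1 h2
      · left
        exact if_neg h1
    · rw [← hPhi fun i => (if i ∈ s then (if i ∈ S then ε' i else x i) else 1) - x i]
      have h3 : ∑ i ∈ s, ((if i ∈ s then (if i ∈ S then ε' i else x i) else 1) - x i) • u' i =
          ∑ i ∈ S, (ε' i - x i) • u' i := by
        rw [← Finset.sum_subset hSs]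
        · apply Finset.sum_congr rfl
          intro i hi
          rw [if_pos (hSs hi), if_pos hi]
        · intro i hi hi'
          rw [if_pos hi, if_neg hi', sub_self, zero_smul]
      rw [h3]
      exact hbd
  rcases S.eq_empty_or_nonempty with hempty | ⟨p, hp⟩
  · refine hfinal (fun _ => 1) (fun i _ => Or.inl rfl) ?_
    rw [hempty, Finset.sum_empty]
    have h1 : gsPhi e w 0 = 0 := by
      unfold gsPhi
      simp
    rw [h1]
    exact Finset.sum_nonneg fun k _ => hw k
  · obtain ⟨ε', hε', hbd⟩ := gs_walk e w hw u' _ S rfl (fun i hi => hu1 i (hSs hi)) x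
      (fun i hi => (Finset.mem_filter.mp hi).2) p hp 0
    refine hfinal ε' hε' ?_
    rw [zero_add] at hbd
    refine hbd.trans ?_
    have h1 : gsPhi e w 0 = 0 := by
      unfold gsPhi
      simp
    have h2 := gsTau_le (e := e) hw he1 (Submodule.span ℝ (u' '' (S : Set ι)))
    have h3 := gsTau_le (e := e) hw he1 (Submodule.span ℝ (u' '' ((S.erase p : Finset ι) : Set ι)))
    have h4 : x p ^ 2 ≤ 1 := by
      rw [← sq_abs]
      exact pow_le_one₀ (abs_nonneg _) (hx p (hSs hp))
    rw [h1]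
    nlinarith [mul_le_mul_of_nonneg_left h2 (show 0 ≤ 1 - x p ^ 2 by linarith),
      mul_le_mul_of_nonneg_left h3 (sq_nonneg (x p))]

end Vale.Agent.P262
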