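import Vale.Agent.P262.Full.Defs

namespace Vale.Agent.P262

open Finset

namespace PairAux

theorem odd_le (a : ℕ → ℝ) : ∀ M : ℕ, (∀ i j, i ≤ j → j < 2 * M → a j ≤ a i) →
    2 * ∑ j ∈ range M, a (2 * j + 1) ≤ ∑ i ∈ range (2 * M), a i := by
  intro M
  induction M with
  | zero => intro _; simp
  | succ M ih =>
    intro h
    have h1 := ih (fun i j hij hj => h i j hij (by omega))
    have h2 := h (2 * M) (2 * M + 1) (by omega) (by omega)
    rw [Finset.sum_range_succ, show 2 * (M + 1) = 2 * M + 1 + 1 by ring,
      Finset.sum_range_succ _ (2 * M + 1), Finset.sum_range_succ _ (2 * M)]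
    linarith

/-- decreasing enumeration of a finite set -/
theorem exists_enum {ι : Type} [DecidableEq ι] (S : Finset ι) (t : ι → ℝ) (x0 : ι) :
    ∃ e : ℕ → ι, (∀ i, i < S.card → e i ∈ S) ∧
      (∀ i j, i < S.card → j < S.card → e i = e j → i = j) ∧
      (∀ x ∈ S, ∃ i, i < S.card ∧ e i = x) ∧
      (∀ i j, i ≤ j → j < S.card → t (e j) ≤ t (e i)) := by
  set g : Fin S.card → ι := fun i => (S.equivFin.symm i : ι) with hg
  set σ := Tuple.sort (fun i => - t (g i)) with hσ
  have hmono := Tuple.monotone_sort (fun i => - t (g i))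
  have hginj : Function.Injective g := by
    intro i j hij
    exact S.equivFin.symm.injective (Subtype.ext hij)
  refine ⟨fun i => if h : i < S.card then g (σ ⟨i, h⟩) else x0, ?_, ?_, ?_, ?_⟩
  · intro i hi
    simp only [dif_pos hi]
    exact (S.equivFin.symm (σ ⟨i, hi⟩)).2
  · intro i j hi hj hij
    simp only [dif_pos hi, dif_pos hj] at hij
    have := σ.injective (hginj hij)
    exact Fin.mk.inj_iff.1 this
  · intro x hx
    refine ⟨(σ.symm (S.equivFin ⟨x, hx⟩) : Fin S.card), (σ.symm (S.equivFin ⟨x, hx⟩)).2, ?_⟩
    simp only [dif_pos (σ.symm (S.equivFin ⟨x, hx⟩)).2]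
    simp [hg]
  · intro i j hij hj
    have hi : i < S.card := lt_of_le_of_lt hij hj
    simp only [dif_pos hi, dif_pos hj]
    have := hmono (show (⟨i, hi⟩ : Fin S.card) ≤ ⟨j, hj⟩ from hij)
    simp only [Function.comp] at this
    linarith

end PairAux

theorem exists_pairing {ι : Type} [DecidableEq ι] (F : Finset ι) (top : ι) (htop : top ∈ F)
    (hF : 2 ≤ F.card) (t : ι → ℝ) (ht : ∀ i ∈ F, 0 ≤ t i) :
    ∃ P : Pairing F top, P.Sorted t := by
  obtain ⟨e, e1, e2, e3, e4⟩ := PairAux.exists_enum (F.erase top) t top
  have hn1 : (F.erase top).card = F.card - 1 := Finset.card_erase_of_mem htop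
  set n := (F.erase top).card with hn
  have hn0 : 1 ≤ n := by omega
  obtain ⟨k, hk7, hkn, hkcase⟩ : ∃ k, k ≤ 7 ∧ 2 * k + 1 ≤ n ∧ (n ≤ 2 * k + 2 ∨ k = 7) :=
    ⟨min 7 ((n - 1) / 2), by omega, by omega, by omega⟩
  have hmem : ∀ i, i < n → e i ∈ F := fun i hi => Finset.mem_of_mem_erase (e1 i hi)
  have hne : ∀ i, i < n → e i ≠ top := fun i hi => Finset.ne_of_mem_erase (e1 i hi)
  -- the pairing
  let P : Pairing F top :=
    { n := k
      p := fun j => if j = 0 then top else e (2 * (j : ℕ) - 1)
      q := fun j => e (2 * (j : ℕ))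
      inj_p := by
        intro i j hij
        simp only at hij
        have hi := i.2
        have hj := j.2
        split_ifs at hij with h1 h2 h2
        · rw [h1, h2]
        · have hj0 : (j : ℕ) ≠ 0 := fun h => h2 (Fin.ext h)
          exact absurd hij.symm (hne _ (by omega))
        · have hi0 : (i : ℕ) ≠ 0 := fun h => h1 (Fin.ext h)
          exact absurd hij (hne _ (by omega))
        · have hj0 : (j : ℕ) ≠ 0 := fun h => h2 (Fin.ext h)
          have hi0 : (i : ℕ) ≠ 0 := fun h => h1 (Fin.ext h)
          have := e2 _ _ (by omega) (by omega) hij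
          exact Fin.ext (by omega)
      inj_q := by
        intro i j hij
        have hi := i.2
        have hj := j.2
        have := e2 _ _ (by omega) (by omega) hij
        exact Fin.ext (by omega)
      disj := by
        intro i j hij
        have hi := i.2
        have hj := j.2
        split_ifs at hij with h1
        · exact absurd hij.symm (hne _ (by omega))
        · have hi0 : (i : ℕ) ≠ 0 := fun h => h1 (Fin.ext h)
          have := e2 _ _ (by omega) (by omega) hij
          omega
      mem_p := by
        intro j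
        have hj := j.2
        split_ifs with h1
        · exact htop
        · exact hmem _ (by omega)
      mem_q := by
        intro j
        have hj := j.2
        exact hmem _ (by omega)
      p_zero := by simp }
  have hFr : P.Fr = (Ico (2 * k + 1) n).image e := by
    ext x
    unfold Pairing.Fr
    rw [Finset.mem_sdiff, Finset.mem_union, Finset.mem_image, Finset.mem_image, Finset.mem_image]
    constructor
    · rintro ⟨hxF, hx⟩
      rw [not_or] at hx
      obtain ⟨hxp, hxq⟩ := hx
      have hxt : x ≠ top := by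
        rintro rfl
        exact hxp ⟨0, Finset.mem_univ _, P.p_zero⟩
      obtain ⟨i, hi, rfl⟩ := e3 x (Finset.mem_erase.2 ⟨hxt, hxF⟩)
      refine ⟨i, Finset.mem_Ico.2 ⟨?_, hi⟩, rfl⟩
      by_contra hlt
      rcases Nat.even_or_odd' i with ⟨c, hc | hc⟩
      · apply hxq
        refine ⟨⟨c, by show c < k + 1; omega⟩, Finset.mem_univ _, ?_⟩
        show e (2 * c) = e i
        rw [hc]
      · apply hxp
        have hc1 : c + 1 < k + 1 := by omega
        refine ⟨⟨c + 1, hc1⟩, Finset.mem_univ _, ?_⟩
        show (if (⟨c + 1, hc1⟩ : Fin (k + 1)) = 0 then top else e (2 * (c + 1) - 1)) = e i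
        rw [if_neg]
        · rw [hc]
          congr 1
        · intro h
          have := congrArg Fin.val h
          simp at this
    · rintro ⟨i, hi, rfl⟩
      rw [Finset.mem_Ico] at hi
      refine ⟨hmem i hi.2, ?_⟩
      rintro (⟨j, _, hj⟩ | ⟨j, _, hj⟩)
      · change (if j = 0 then top else e (2 * (j : ℕ) - 1)) = e i at hj
        have hj2 : (j : ℕ) < k + 1 := j.2
        split_ifs at hj with h1
        · exact hne i hi.2 hj.symm
        · have hj0 : (j : ℕ) ≠ 0 := fun h => h1 (Fin.ext h)
          have := e2 _ _ (by omega) (by omega) hj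
          omega
      · change e (2 * (j : ℕ)) = e i at hj
        have hj2 : (j : ℕ) < k + 1 := j.2
        have := e2 _ _ (by omega) (by omega) hj
        omega
  have hinj : Set.InjOn e (Ico (2 * k + 1) n) := by
    intro i hi j hj hij
    simp only [Finset.coe_Ico, Set.mem_Ico] at hi hj
    exact e2 _ _ hi.2 hj.2 hij
  have hinj' : Set.InjOn e (range n) := by
    intro i hi j hj hij
    simp only [Finset.coe_range, Set.mem_Iio] at hi hj
    exact e2 _ _ hi hj hij
  have hsumFr : ∑ i ∈ P.Fr, t i = ∑ i ∈ Ico (2 * k + 1) n, t (e i) := by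
    rw [hFr, Finset.sum_image hinj]
  have hsumF : ∑ i ∈ F.erase top, t i = ∑ i ∈ range n, t (e i) := by
    have him : F.erase top = (range n).image e := by
      ext x
      rw [Finset.mem_image]
      constructor
      · intro hx
        obtain ⟨i, hi, rfl⟩ := e3 x hx
        exact ⟨i, Finset.mem_range.2 hi, rfl⟩
      · rintro ⟨i, hi, rfl⟩
        exact e1 i (Finset.mem_range.1 hi)
    rw [him, Finset.sum_image hinj']
  have hsump : ∑ j ∈ univ.erase (0 : Fin (P.n + 1)), t (P.p j)
      = ∑ j ∈ range k, t (e (2 * j + 1)) := by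
    have h0 := Finset.add_sum_erase (univ : Finset (Fin (P.n + 1))) (fun j => t (P.p j))
      (Finset.mem_univ 0)
    rw [Fin.sum_univ_succ] at h0
    have h1 := add_left_cancel h0
    rw [h1, ← Fin.sum_univ_eq_sum_range (fun j => t (e (2 * j + 1))) k]
    refine Finset.sum_congr rfl fun j _ => ?_
    show t (if j.succ = 0 then top else e (2 * (j.succ : ℕ) - 1)) = _
    rw [if_neg (Fin.succ_ne_zero j), Fin.val_succ]
    congr 2
  have hsplit : ∑ i ∈ range n, t (e i)
      = ∑ i ∈ range (2 * k + 1), t (e i) + ∑ i ∈ Ico (2 * k + 1) n, t (e i) := by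
    rw [Finset.sum_range_add_sum_Ico _ hkn]
  have hnn : ∀ i, i < n → 0 ≤ t (e i) := fun i hi => ht _ (hmem i hi)
  have hhalf : ∑ j ∈ range k, t (e (2 * j + 1)) ≤ 1 / 2 * ∑ i ∈ range (2 * k + 1), t (e i) := by
    have h1 := PairAux.odd_le (fun i => t (e i)) k (fun i j hij hj => e4 i j hij (by omega))
    rw [Finset.sum_range_succ]
    have h2 := hnn (2 * k) (by omega)
    linarith
  refine ⟨P, ?_, ?_, ?_⟩
  · intro j hj
    show t (e (2 * (j : ℕ))) ≤ t (if j = 0 then top else e (2 * (j : ℕ) - 1))
    rw [if_neg hj]
    have hj2 : (j : ℕ) < k + 1 := j.2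
    exact e4 _ _ (by omega) (by omega)
  · show k + 1 ≤ 8
    omega
  · rw [hsump, hsumFr, hsumF]
    rcases Nat.lt_or_ge (2 * k + 2) n with hlt | hge
    · right
      have hk : k = 7 := by omega
      refine ⟨?_, ?_⟩
      · rw [hsplit, add_sub_cancel_right]
        exact hhalf
      · intro i hi
        rw [hFr, Finset.mem_image] at hi
        obtain ⟨j, hj, rfl⟩ := hi
        rw [Finset.mem_Ico] at hj
        rw [hsplit]
        have h1 : 15 * t (e j) ≤ ∑ i ∈ range (2 * k + 1), t (e i) := by
          have : ∑ i ∈ range (2 * k + 1), t (e j) ≤ ∑ i ∈ range (2 * k + 1), t (e i) := by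
            refine Finset.sum_le_sum fun i hi => ?_
            rw [Finset.mem_range] at hi
            exact e4 _ _ (by omega) hj.2
          rw [Finset.sum_const, Finset.card_range, hk] at this
          simpa [hk] using this
        have h2 : t (e j) ≤ ∑ i ∈ Ico (2 * k + 1) n, t (e i) := by
          refine Finset.single_le_sum (f := fun i => t (e i)) (fun i hi => ?_)
            (Finset.mem_Ico.2 hj)
          exact hnn i (Finset.mem_Ico.1 hi).2
        linarith
    · left
      refine ⟨?_, ?_⟩
      · rw [hFr]
        refine Finset.card_image_le.trans ?_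
        rw [Nat.card_Ico]
        omega
      · rcases Nat.lt_or_ge (2 * k + 1) n with h1 | h1
        · have hn2 : n = 2 * (k + 1) := by omega
          have h2 := PairAux.odd_le (fun i => t (e i)) (k + 1)
            (fun i j hij hj => e4 i j hij (by omega))
          rw [Finset.sum_range_succ] at h2
          have h3 : ∑ i ∈ Ico (2 * k + 1) n, t (e i) = t (e (2 * k + 1)) := by
            have : Ico (2 * k + 1) n = {2 * k + 1} := by
              ext x
              rw [Finset.mem_Ico, Finset.mem_singleton]
              omega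
            rw [this, Finset.sum_singleton]
          rw [h3, hn2]
          linarith
        · have hn2 : n = 2 * k + 1 := by omega
          have h3 : ∑ i ∈ Ico (2 * k + 1) n, t (e i) = 0 := by
            rw [hn2, Finset.Ico_self, Finset.sum_empty]
          rw [hsplit, h3, add_zero, add_zero]
          exact hhalf

end Vale.Agent.P262
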