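import Vale.Agent.P262.Full.Defs

namespace Vale.Agent.P262

open Finset

theorem prm_T0_ge3 (d : ℕ) : 3 ≤ T0 d := by
  unfold T0
  have : 0 ≤ ∑ k ∈ range d, (1:ℝ) / (k + 1) := Finset.sum_nonneg fun k _ => by positivity
  linarith

theorem T0_ge {d : ℕ} (hd : 1 ≤ d) : 4 ≤ T0 d := by
  unfold T0
  have h : ∑ k ∈ range 1, (1:ℝ) / (k + 1) ≤ ∑ k ∈ range d, (1:ℝ) / (k + 1) :=
    Finset.sum_le_sum_of_subset_of_nonneg (Finset.range_subset_range.2 hd)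
      (fun k _ _ => by positivity)
  rw [Finset.sum_range_one] at h
  have h1 : (1:ℝ) / (((0:ℕ):ℝ) + 1) = 1 := by norm_num
  rw [h1] at h
  linarith

theorem RR_nonneg (d m : ℕ) : 0 ≤ RR d m := Real.sqrt_nonneg _

theorem prm_T0_pos (d : ℕ) : 0 < T0 d := lt_of_lt_of_le (by norm_num) (prm_T0_ge3 d)

theorem prm_Lam_nonneg (d m : ℕ) : 0 ≤ Lam d m := by
  have := prm_T0_pos d
  unfold Lam kap
  positivity

theorem chi_nonneg {d m : ℕ} (τ : Fin d → ℕ) (l : ℕ) : 0 ≤ chi τ m l := by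
  unfold chi
  have h1 := RR_nonneg d m
  have h2 := prm_Lam_nonneg d m
  refine mul_nonneg (by positivity) (Finset.sum_nonneg fun k _ => ?_)
  split_ifs <;> positivity

/-- basic consequences of `Good` -/
theorem prm_basic {d m : ℕ} (hG : Good d m) :
    1 ≤ (d : ℝ) ∧ 1 ≤ (m : ℝ) ∧ 4 ≤ T0 d ∧
    RR d m ^ 2 = 300000 * ((m:ℝ) ^ 2 * T0 d * d) ∧
    (RR d m + 1) ^ 2 ≤ 600002 * ((m:ℝ) ^ 2 * T0 d * d) ∧
    RR d m + 1 ≤ 600002 * ((m:ℝ) ^ 2 * T0 d * d) ∧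
    2000000000 * ((m:ℝ) ^ 2 * T0 d * d) * ((d:ℝ) ^ 4 * T0 d ^ 2) ≤ Lam d m := by
  have hd : (1:ℝ) ≤ d := by exact_mod_cast hG.hd
  have hm : (1:ℝ) ≤ m := by exact_mod_cast hG.hm
  have hT := T0_ge hG.hd
  have hT0 := prm_T0_pos d
  have hX : 1 ≤ (m:ℝ) ^ 2 * T0 d * d := by
    have h1 : (1:ℝ) ≤ (m:ℝ) ^ 2 := one_le_pow₀ hm
    have h2 : (1:ℝ) ≤ (m:ℝ) ^ 2 * T0 d := by nlinarith
    nlinarith
  have hRR2 : RR d m ^ 2 = 300000 * ((m:ℝ) ^ 2 * T0 d * d) := by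
    unfold RR
    rw [Real.sq_sqrt (by positivity)]
    ring
  have hR := RR_nonneg d m
  have h4 : (RR d m + 1) ^ 2 ≤ 600002 * ((m:ℝ) ^ 2 * T0 d * d) := by
    nlinarith [sq_nonneg (RR d m - 1)]
  refine ⟨hd, hm, hT, hRR2, h4, ?_, ?_⟩
  · refine le_trans ?_ h4
    nlinarith
  · unfold Lam kap
    have := hG.big
    calc 2000000000 * ((m:ℝ) ^ 2 * T0 d * d) * ((d:ℝ) ^ 4 * T0 d ^ 2)
        = 20 * d * T0 d * (10 ^ 8 * (m:ℝ) ^ 2 * (d:ℝ) ^ 4 * T0 d ^ 2) := by ring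
      _ ≤ 20 * d * T0 d * 2 ^ m := by gcongr

theorem prm_Lam_pos {d m : ℕ} (hG : Good d m) : 0 < Lam d m := by
  have hd : (0:ℝ) < d := by exact_mod_cast hG.hd
  have := prm_T0_pos d
  unfold Lam kap
  positivity

/-- `c d (RR+1) ≤ Lam` for moderate constants -/
theorem prm_R1 {d m : ℕ} (hG : Good d m) :
    1600 * (RR d m + 1) * d ≤ Lam d m := by
  obtain ⟨hd, hm, hT, _, _, h1, h2⟩ := prm_basic hG
  have hd4 : (d:ℝ) * 16 ≤ (d:ℝ) ^ 4 * T0 d ^ 2 := by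
    have e1 : (d:ℝ) ≤ (d:ℝ) ^ 4 := by
      calc (d:ℝ) = (d:ℝ) ^ 1 := (pow_one _).symm
        _ ≤ (d:ℝ) ^ 4 := pow_le_pow_right₀ hd (by norm_num)
    have e2 : (16:ℝ) ≤ T0 d ^ 2 := by nlinarith
    have e3 : 0 ≤ (d:ℝ) := by linarith
    nlinarith
  have hX0 : 0 ≤ (m:ℝ) ^ 2 * T0 d * d := by positivity
  calc 1600 * (RR d m + 1) * d ≤ 1600 * (600002 * ((m:ℝ) ^ 2 * T0 d * d)) * d := by gcongr
    _ ≤ 2000000000 * ((m:ℝ) ^ 2 * T0 d * d) * ((d:ℝ) * 16) := by nlinarith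
    _ ≤ 2000000000 * ((m:ℝ) ^ 2 * T0 d * d) * ((d:ℝ) ^ 4 * T0 d ^ 2) := by gcongr
    _ ≤ Lam d m := h2

theorem chi_le {d m : ℕ} (hG : Good d m) (τ : Fin d → ℕ) (l : ℕ) : chi τ m l ≤ 1 / 100 := by
  have hL := prm_Lam_pos hG
  have hR := RR_nonneg d m
  have hs : ∑ k : Fin d, (if l < τ k then (1 / 2 : ℝ) ^ (τ k - 1 - l) else 0) ≤ d := by
    calc _ ≤ ∑ _k : Fin d, (1:ℝ) := Finset.sum_le_sum fun k _ => by
          split_ifs
          · exact pow_le_one₀ (by norm_num) (by norm_num)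
          · norm_num
      _ = d := by simp
  unfold chi
  calc _ ≤ 4 * (RR d m + 1) / Lam d m * d := by gcongr
    _ = (4 * (RR d m + 1) * d) / Lam d m := by ring
    _ ≤ 1 / 100 := by
      rw [div_le_iff₀ hL]
      have := prm_R1 hG
      linarith

/-- the steering coefficients are at most `chi` -/
theorem chi_bound {d m : ℕ} (hG : Good d m) (τ : Fin d → ℕ) (l : ℕ) (k : Fin d)
    (hk : k ∈ rich τ l) :
    4 * (RR d m + 1) / (Lam d m * 2 ^ (τ k - 1 - l)) ≤ chi τ m l := by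
  have hL := prm_Lam_pos hG
  have hR := RR_nonneg d m
  have hk' : l < τ k := by simpa [rich] using hk
  have h1 : (1 / 2 : ℝ) ^ (τ k - 1 - l) ≤
      ∑ k : Fin d, (if l < τ k then (1 / 2 : ℝ) ^ (τ k - 1 - l) else 0) := by
    have := Finset.single_le_sum (f := fun k : Fin d =>
      (if l < τ k then (1 / 2 : ℝ) ^ (τ k - 1 - l) else 0)) (fun k _ => by
        split_ifs <;> positivity) (Finset.mem_univ k)
    simp only [if_pos hk'] at this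
    exact this
  unfold chi
  calc 4 * (RR d m + 1) / (Lam d m * 2 ^ (τ k - 1 - l))
      = 4 * (RR d m + 1) / Lam d m * (1 / 2 : ℝ) ^ (τ k - 1 - l) := by
        rw [one_div, inv_pow, ← div_div, div_eq_mul_inv _ ((2:ℝ) ^ (τ k - 1 - l))]
    _ ≤ _ := by gcongr

theorem eta_nonneg {d m : ℕ} (τ : Fin d → ℕ) (l : ℕ) : 0 ≤ eta τ m l := by
  unfold eta
  exact mul_nonneg (by norm_num) (Finset.sum_nonneg fun l' _ => chi_nonneg τ l')

theorem prm_geom (l t : ℕ) :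
    ∑ l' ∈ range l, (if l' < t then (1 / 2 : ℝ) ^ (t - 1 - l') else 0) ≤ 2 := by
  rw [← Finset.sum_filter]
  calc _ ≤ ∑ l' ∈ range t, (1 / 2 : ℝ) ^ (t - 1 - l') := by
        refine Finset.sum_le_sum_of_subset_of_nonneg ?_ (fun _ _ _ => by positivity)
        intro x hx
        rw [Finset.mem_filter] at hx
        exact Finset.mem_range.2 hx.2
    _ = ∑ j ∈ range t, (1 / 2 : ℝ) ^ j := Finset.sum_range_reflect _ _
    _ ≤ 2 := by
      rw [geom_sum_eq (by norm_num)]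
      have h0 : 0 ≤ (1 / 2 : ℝ) ^ t := by positivity
      have h1 : ((1 / 2 : ℝ) ^ t - 1) / (1 / 2 - 1) = 2 - 2 * (1 / 2 : ℝ) ^ t := by ring
      rw [h1]
      linarith

theorem prm_eta {d m : ℕ} (hG : Good d m) (τ : Fin d → ℕ) (l : ℕ) :
    eta τ m l ≤ 16 * (RR d m + 1) * d / Lam d m := by
  have hL := prm_Lam_pos hG
  have hR := RR_nonneg d m
  unfold eta chi
  rw [← Finset.mul_sum, Finset.sum_comm]
  have h1 : ∑ k : Fin d, ∑ l' ∈ range l, (if l' < τ k then (1 / 2 : ℝ) ^ (τ k - 1 - l') else 0) ≤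
      2 * d := by
    calc _ ≤ ∑ _k : Fin d, (2:ℝ) := Finset.sum_le_sum fun k _ => prm_geom l (τ k)
      _ = 2 * d := by simp [mul_comm]
  calc _ ≤ 2 * (4 * (RR d m + 1) / Lam d m * (2 * d)) := by gcongr
    _ = _ := by ring

theorem eta_le {d m : ℕ} (hG : Good d m) (τ : Fin d → ℕ) (l : ℕ) : eta τ m l ≤ 1 / 4 := by
  have hL := prm_Lam_pos hG
  refine (prm_eta hG τ l).trans ?_
  rw [div_le_iff₀ hL]
  have := prm_R1 hG
  linarith

theorem prm_rho_nonneg {d m : ℕ} (τ : Fin d → ℕ) (l : ℕ) : 0 ≤ rho τ m l := by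
  unfold rho
  refine Finset.sum_nonneg fun k _ => ?_
  split_ifs <;> positivity

theorem Wt_nonneg {d m : ℕ} (τ : Fin d → ℕ) (l : ℕ) : 0 ≤ Wt τ m l := by
  have h1 := prm_T0_pos d
  have h2 := prm_rho_nonneg (m := m) τ l
  unfold Wt
  positivity

theorem prm_ten (m : ℕ) : (10 / 11 : ℝ) ^ (8 * m) ≤ 1 / 2 ^ m := by
  rw [pow_mul, ← one_div_pow]
  exact pow_le_pow_left₀ (by norm_num) (by norm_num) m

theorem prm_2m {d m : ℕ} (hG : Good d m) (c : ℝ) (hc0 : 0 ≤ c) (hc : c ≤ 10 ^ 8) :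
    c * ((m:ℝ) ^ 2 * (d:ℝ) ^ 4 * T0 d ^ 2) / 2 ^ m ≤ 1 := by
  rw [div_le_one (by positivity)]
  refine le_trans ?_ hG.big
  have : 0 ≤ (m:ℝ) ^ 2 * (d:ℝ) ^ 4 * T0 d ^ 2 := by positivity
  nlinarith

theorem Wt_le {d m : ℕ} (hG : Good d m) (τ : Fin d → ℕ) (l : ℕ) : Wt τ m l ≤ 1 := by
  obtain ⟨hd, hm, hT, _, _, _, _⟩ := prm_basic hG
  have hT0 := prm_T0_pos d
  have hrho : rho τ m l ≤ d * (1 / 2 ^ m) := by
    unfold rho
    calc _ ≤ ∑ _k : Fin d, (1 / 2 ^ m : ℝ) := Finset.sum_le_sum fun k _ => by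
          split_ifs with hk
          · refine le_trans ?_ (prm_ten m)
            exact pow_le_pow_of_le_one (by norm_num) (by norm_num) (by omega)
          · positivity
      _ = d * (1 / 2 ^ m) := by simp
  unfold Wt
  calc 160 * (d:ℝ) ^ 2 * T0 d * rho τ m l ≤ 160 * (d:ℝ) ^ 2 * T0 d * (d * (1 / 2 ^ m)) := by gcongr
    _ = 160 * (1 * (d:ℝ) ^ 3 * T0 d) / 2 ^ m := by ring
    _ ≤ 160 * ((m:ℝ) ^ 2 * (d:ℝ) ^ 4 * T0 d ^ 2) / 2 ^ m := by
        gcongr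
        · exact one_le_pow₀ hm
        · norm_num
        · nlinarith
    _ ≤ 1 := prm_2m hG 160 (by norm_num) (by norm_num)

theorem prm_2m_big {d m : ℕ} (hG : Good d m) : (10:ℝ) ^ 8 ≤ 2 ^ m := by
  obtain ⟨hd, hm, hT, _, _, _, _⟩ := prm_basic hG
  refine le_trans ?_ hG.big
  have h1 : (1:ℝ) ≤ (m:ℝ) ^ 2 := one_le_pow₀ hm
  have h2 : (1:ℝ) ≤ (d:ℝ) ^ 4 := one_le_pow₀ hd
  have h3 : (1:ℝ) ≤ T0 d ^ 2 := one_le_pow₀ (by linarith)
  calc (10:ℝ) ^ 8 = 10 ^ 8 * 1 * 1 * 1 := by norm_num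
    _ ≤ 10 ^ 8 * (m:ℝ) ^ 2 * (d:ℝ) ^ 4 * T0 d ^ 2 := by gcongr

theorem par1 {d m : ℕ} (hG : Good d m) : kap d + 16 ≤ Lam d m / 4 := by
  obtain ⟨hd, hm, hT, _, _, _, _⟩ := prm_basic hG
  have hb := prm_2m_big hG
  have hk : 80 ≤ kap d := by unfold kap; nlinarith
  unfold Lam
  nlinarith

theorem par2 {d m : ℕ} (hG : Good d m) : 8 * (RR d m + 1) ^ 2 ≤ Lam d m := by
  obtain ⟨hd, hm, hT, _, h1, _, h2⟩ := prm_basic hG
  have hX0 : 0 ≤ (m:ℝ) ^ 2 * T0 d * d := by have := prm_T0_pos d; positivity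
  have h3 : 1 ≤ (d:ℝ) ^ 4 * T0 d ^ 2 := by
    have e2 : (1:ℝ) ≤ (d:ℝ) ^ 4 := one_le_pow₀ hd
    have e3 : (1:ℝ) ≤ T0 d ^ 2 := one_le_pow₀ (by linarith)
    nlinarith
  calc 8 * (RR d m + 1) ^ 2 ≤ 8 * (600002 * ((m:ℝ) ^ 2 * T0 d * d)) := by gcongr
    _ ≤ 2000000000 * ((m:ℝ) ^ 2 * T0 d * d) * 1 := by nlinarith
    _ ≤ 2000000000 * ((m:ℝ) ^ 2 * T0 d * d) * ((d:ℝ) ^ 4 * T0 d ^ 2) := by gcongr
    _ ≤ Lam d m := h2

theorem par3 {d m : ℕ} (hG : Good d m) (τ : Fin d → ℕ) (l : ℕ) :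
    2 * (eta τ m l + kap d / Lam d m) * (2 * RR d m + 2) + 32 * (2 * RR d m + 2) / Lam d m
      ≤ 1 := by
  obtain ⟨hd, hm, hT, _, h1, h2, h3⟩ := prm_basic hG
  have hL := prm_Lam_pos hG
  have hR := RR_nonneg d m
  have he := prm_eta hG τ l
  have hX0 : 0 ≤ (m:ℝ) ^ 2 * T0 d * d := by have := prm_T0_pos d; positivity
  have e1 : 2 * (eta τ m l + kap d / Lam d m) * (2 * RR d m + 2) +
      32 * (2 * RR d m + 2) / Lam d m ≤
      (64 * (RR d m + 1) ^ 2 * d + 4 * (RR d m + 1) * kap d + 64 * (RR d m + 1)) / Lam d m := by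
    calc _ ≤ 2 * (16 * (RR d m + 1) * d / Lam d m + kap d / Lam d m) * (2 * RR d m + 2) +
          32 * (2 * RR d m + 2) / Lam d m := by gcongr
      _ = _ := by field_simp; ring
  refine e1.trans ?_
  rw [div_le_one hL]
  have hT0 := prm_T0_pos d
  have f1 : 64 * (RR d m + 1) ^ 2 * d ≤ 64 * (600002 * ((m:ℝ) ^ 2 * T0 d * d)) * d := by gcongr
  have f2 : 4 * (RR d m + 1) * kap d ≤
      4 * (600002 * ((m:ℝ) ^ 2 * T0 d * d)) * (20 * d * T0 d) := by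
    unfold kap
    gcongr
  have f3 : 64 * (RR d m + 1) ≤ 64 * (600002 * ((m:ℝ) ^ 2 * T0 d * d)) := by gcongr
  have g1 : (d:ℝ) * T0 d ≤ (d:ℝ) ^ 4 * T0 d ^ 2 / 4 := by
    have a1 : (d:ℝ) ≤ (d:ℝ) ^ 4 := by
      calc (d:ℝ) = (d:ℝ) ^ 1 := (pow_one _).symm
        _ ≤ (d:ℝ) ^ 4 := pow_le_pow_right₀ hd (by norm_num)
    have a2 : T0 d ≤ T0 d ^ 2 / 4 := by nlinarith
    calc (d:ℝ) * T0 d ≤ (d:ℝ) ^ 4 * (T0 d ^ 2 / 4) := by gcongr
      _ = _ := by ring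
  have g2 : (d:ℝ) ≤ d * T0 d / 4 := by nlinarith
  have g3 : (1:ℝ) ≤ d := hd
  calc 64 * (RR d m + 1) ^ 2 * d + 4 * (RR d m + 1) * kap d + 64 * (RR d m + 1)
      ≤ 64 * (600002 * ((m:ℝ) ^ 2 * T0 d * d)) * d +
        4 * (600002 * ((m:ℝ) ^ 2 * T0 d * d)) * (20 * d * T0 d) +
        64 * (600002 * ((m:ℝ) ^ 2 * T0 d * d)) := by linarith
    _ = ((m:ℝ) ^ 2 * T0 d * d) * (38400128 * d + 48000160 * (d * T0 d) + 38400128 * 1) := by ring
    _ ≤ ((m:ℝ) ^ 2 * T0 d * d) * (2000000000 * ((d:ℝ) ^ 4 * T0 d ^ 2)) := by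
        gcongr
        nlinarith
    _ = 2000000000 * ((m:ℝ) ^ 2 * T0 d * d) * ((d:ℝ) ^ 4 * T0 d ^ 2) := by ring
    _ ≤ Lam d m := h3

/-! ### the total budget -/

theorem prm_sum_if (l : ℕ) (P : ℕ → Prop) [DecidablePred P] (c : ℝ) (hc : 0 ≤ c) (N : ℕ)
    (h : ((range l).filter P).card ≤ N) :
    ∑ x ∈ range l, (if P x then c else 0) ≤ N * c := by
  rw [← Finset.sum_filter, Finset.sum_const, nsmul_eq_mul]
  exact mul_le_mul_of_nonneg_right (by exact_mod_cast h) hc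

theorem prm_rho_sum_aux (t m l : ℕ) :
    ∑ l' ∈ range l, (if t + 9 * m ≤ l' then (10 / 11 : ℝ) ^ (l' - (t + m)) else 0) ≤
      11 * (10 / 11 : ℝ) ^ (8 * m) := by
  rw [← Finset.sum_filter]
  calc _ ≤ ∑ l' ∈ Finset.Ico (t + 9 * m) l, (10 / 11 : ℝ) ^ (l' - (t + m)) := by
        refine Finset.sum_le_sum_of_subset_of_nonneg ?_ (fun _ _ _ => by positivity)
        intro x hx
        rw [Finset.mem_filter, Finset.mem_range] at hx
        exact Finset.mem_Ico.2 ⟨hx.2, hx.1⟩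
    _ = ∑ i ∈ range (l - (t + 9 * m)), (10 / 11 : ℝ) ^ (8 * m) * (10 / 11 : ℝ) ^ i := by
        rw [Finset.sum_Ico_eq_sum_range]
        refine Finset.sum_congr rfl fun i _ => ?_
        rw [← pow_add]
        congr 1
        omega
    _ = (10 / 11 : ℝ) ^ (8 * m) * ∑ i ∈ range (l - (t + 9 * m)), (10 / 11 : ℝ) ^ i := by
        rw [Finset.mul_sum]
    _ ≤ (10 / 11 : ℝ) ^ (8 * m) * 11 := by
        gcongr
        rw [geom_sum_eq (by norm_num)]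
        have h0 : 0 ≤ (10 / 11 : ℝ) ^ (l - (t + 9 * m)) := by positivity
        have h1 : ((10 / 11 : ℝ) ^ (l - (t + 9 * m)) - 1) / (10 / 11 - 1) =
            11 - 11 * (10 / 11 : ℝ) ^ (l - (t + 9 * m)) := by ring
        rw [h1]
        linarith
    _ = _ := mul_comm _ _

theorem prm_Wt_sum {d m : ℕ} (τ : Fin d → ℕ) (l : ℕ) :
    ∑ l' ∈ range l, Wt τ m l' ≤ 160 * (d:ℝ) ^ 2 * T0 d * (11 * d / 2 ^ m) := by
  have hT0 := prm_T0_pos d
  unfold Wt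
  rw [← Finset.mul_sum]
  have h1 : ∑ l' ∈ range l, rho τ m l' ≤ 11 * d / 2 ^ m := by
    unfold rho
    rw [Finset.sum_comm]
    calc _ ≤ ∑ _k : Fin d, 11 * (1 / 2 ^ m : ℝ) := Finset.sum_le_sum fun k _ => by
          refine (prm_rho_sum_aux (τ k) m l).trans ?_
          have := prm_ten m
          linarith
      _ = 11 * d / 2 ^ m := by
          simp only [Finset.sum_const, Finset.card_univ, Fintype.card_fin, nsmul_eq_mul]
          ring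
  exact mul_le_mul_of_nonneg_left h1 (by positivity)

/-- total budget -/
theorem Bud_le {d m : ℕ} (hG : Good d m) (τ : Fin d → ℕ) (l : ℕ) :
    Bud τ m l + Ch d * d ≤ RR d m ^ 2 := by
  obtain ⟨hd, hm, hT, hRR, h1, h2, h3⟩ := prm_basic hG
  have hT0 := prm_T0_pos d
  have hR := RR_nonneg d m
  have hCh : 0 ≤ Ch d := by unfold Ch; positivity
  have hJJ : 0 ≤ JJ m := by unfold JJ; positivity
  -- the directional part
  have hdir : ∑ l' ∈ range l, ∑ k : Fin d, ((if τ k = l' + 1 then 4 * Ch d else 0)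
      + (if τ k ≤ l' ∧ l' < τ k + 9 * m then 3 * (JJ m + 1) * (111 * T0 d) else 0)
      + (if τ k + 9 * m = l' + 1 then 12 * JJ m + 2 else 0)) ≤
      d * (4 * Ch d + 9 * m * (3 * (JJ m + 1) * (111 * T0 d)) + (12 * JJ m + 2)) := by
    rw [Finset.sum_comm]
    have : ∀ k ∈ (univ : Finset (Fin d)), ∑ l' ∈ range l, ((if τ k = l' + 1 then 4 * Ch d else 0)
      + (if τ k ≤ l' ∧ l' < τ k + 9 * m then 3 * (JJ m + 1) * (111 * T0 d) else 0)
      + (if τ k + 9 * m = l' + 1 then 12 * JJ m + 2 else 0)) ≤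
      (4 * Ch d + 9 * m * (3 * (JJ m + 1) * (111 * T0 d)) + (12 * JJ m + 2)) := by
      intro k _
      rw [Finset.sum_add_distrib, Finset.sum_add_distrib]
      have a1 := prm_sum_if l (fun x => τ k = x + 1) (4 * Ch d) (by positivity) 1 (by
        rw [Finset.card_le_one]
        intro x hx y hy
        rw [Finset.mem_filter] at hx hy
        omega)
      have a2 := prm_sum_if l (fun x => τ k ≤ x ∧ x < τ k + 9 * m)
        (3 * (JJ m + 1) * (111 * T0 d)) (by positivity) (9 * m) (by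
        have hsub : (range l).filter (fun x => τ k ≤ x ∧ x < τ k + 9 * m) ⊆
            Finset.Ico (τ k) (τ k + 9 * m) := by
          intro x hx
          rw [Finset.mem_filter] at hx
          exact Finset.mem_Ico.2 hx.2
        refine (Finset.card_le_card hsub).trans ?_
        rw [Nat.card_Ico]
        omega)
      have a3 := prm_sum_if l (fun x => τ k + 9 * m = x + 1) (12 * JJ m + 2) (by positivity) 1 (by
        rw [Finset.card_le_one]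
        intro x hx y hy
        rw [Finset.mem_filter] at hx hy
        omega)
      push_cast at a1 a2 a3
      linarith
    refine (Finset.sum_le_sum this).trans ?_
    rw [Finset.sum_const, Finset.card_univ, Fintype.card_fin, nsmul_eq_mul]
  have hW1 := prm_Wt_sum (m := m) τ l
  have hW2 : ∑ l' ∈ range l, Wt τ m (l' + 1) ≤ 160 * (d:ℝ) ^ 2 * T0 d * (11 * d / 2 ^ m) := by
    have e1 := prm_Wt_sum (m := m) τ (l + 1)
    rw [Finset.sum_range_succ'] at e1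
    have e2 := Wt_nonneg (m := m) τ 0
    linarith
  have hBud : Bud τ m l ≤
      d * (4 * Ch d + 9 * m * (3 * (JJ m + 1) * (111 * T0 d)) + (12 * JJ m + 2)) +
      (RR d m + 2) * (2 * (160 * (d:ℝ) ^ 2 * T0 d * (11 * d / 2 ^ m))) := by
    unfold Bud bud
    rw [Finset.sum_add_distrib, ← Finset.mul_sum, Finset.sum_add_distrib]
    have : (RR d m + 2) * (∑ l' ∈ range l, Wt τ m l' + ∑ l' ∈ range l, Wt τ m (l' + 1)) ≤
        (RR d m + 2) * (2 * (160 * (d:ℝ) ^ 2 * T0 d * (11 * d / 2 ^ m))) := by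
      apply mul_le_mul_of_nonneg_left _ (by linarith)
      linarith
    linarith
  obtain ⟨X, hX⟩ : ∃ X, X = (m:ℝ) ^ 2 * T0 d * d := ⟨_, rfl⟩
  rw [← hX] at hRR h1 h2 h3
  have hX0 : 0 ≤ X := by rw [hX]; positivity
  -- the last term
  have hlast : (RR d m + 2) * (2 * (160 * (d:ℝ) ^ 2 * T0 d * (11 * d / 2 ^ m))) ≤ 43 := by
    have e1 : RR d m + 2 ≤ 2 * (600002 * X) := by linarith
    have e2 := prm_2m hG (10 ^ 8) (by norm_num) le_rfl
    have e3 : (0:ℝ) ≤ (m:ℝ) ^ 2 * (d:ℝ) ^ 4 * T0 d ^ 2 / 2 ^ m := by positivity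
    calc (RR d m + 2) * (2 * (160 * (d:ℝ) ^ 2 * T0 d * (11 * d / 2 ^ m)))
        ≤ (2 * (600002 * X)) * (2 * (160 * (d:ℝ) ^ 2 * T0 d * (11 * d / 2 ^ m))) := by gcongr
      _ = 4224014080 * ((m:ℝ) ^ 2 * (d:ℝ) ^ 4 * T0 d ^ 2 / 2 ^ m) := by rw [hX]; ring
      _ ≤ 43 * (10 ^ 8 * ((m:ℝ) ^ 2 * (d:ℝ) ^ 4 * T0 d ^ 2 / 2 ^ m)) := by nlinarith
      _ = 43 * (10 ^ 8 * ((m:ℝ) ^ 2 * (d:ℝ) ^ 4 * T0 d ^ 2) / 2 ^ m) := by ring
      _ ≤ 43 := by linarith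
  -- comparison with `X`
  have m1 : (1:ℝ) ≤ (m:ℝ) ^ 2 := one_le_pow₀ hm
  have m2 : (m:ℝ) ≤ (m:ℝ) ^ 2 := by nlinarith
  have k1 : T0 d * d ≤ X := by
    rw [hX]
    have : 0 ≤ T0 d * d := by positivity
    nlinarith
  have k2 : (m:ℝ) * (T0 d * d) ≤ X := by
    rw [hX]
    have : 0 ≤ T0 d * d := by positivity
    nlinarith
  have k3 : (m:ℝ) * d * 4 ≤ (m:ℝ) * (T0 d * d) := by
    have : 0 ≤ (m:ℝ) * d := by positivity
    nlinarith
  have k4 : (d:ℝ) * 4 ≤ T0 d * d := by nlinarith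
  have k5 : (4:ℝ) ≤ X := by linarith
  have k6 : (m:ℝ) ^ 2 * (T0 d * d) = X := by rw [hX]; ring
  have hexp : d * (4 * Ch d + 9 * m * (3 * (JJ m + 1) * (111 * T0 d)) + (12 * JJ m + 2)) + Ch d * d =
      40 * (T0 d * d) + 107892 * ((m:ℝ) ^ 2 * (T0 d * d)) + 2997 * ((m:ℝ) * (T0 d * d)) +
        432 * ((m:ℝ) * d) + 2 * d := by
    unfold Ch JJ
    ring
  rw [hRR]
  linarith

theorem prm_T0_le {d : ℕ} (hd : 1 ≤ d) : T0 d ≤ 3 + (1 + Real.log d) := by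
  unfold T0
  have h := harmonic_le_one_add_log d
  have h2 : ((harmonic d : ℚ) : ℝ) = ∑ k ∈ range d, (1:ℝ) / (k + 1) := by
    unfold harmonic
    push_cast
    refine Finset.sum_congr rfl fun k _ => ?_
    rw [one_div]
  rw [h2] at h
  linarith

theorem exists_good : ∃ C : ℝ, 0 < C ∧ ∀ d : ℕ, 1 ≤ d →
    ∃ m, Good d m ∧ RR d m ≤ C * √d * (1 + Real.log d) ^ (3 / 2 : ℝ) := by
  refine ⟨111000, by norm_num, ?_⟩
  intro d hd
  have hd1 : (1:ℝ) ≤ d := by exact_mod_cast hd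
  have hlog : 0 ≤ Real.log d := Real.log_nonneg hd1
  obtain ⟨u, hu⟩ : ∃ u : ℝ, u = 1 + Real.log d := ⟨_, rfl⟩
  have hu1 : 1 ≤ u := by linarith
  have hT := prm_T0_le hd
  rw [← hu] at hT ⊢
  have hT4 : T0 d ≤ 4 * u := by linarith
  have hT0 := prm_T0_pos d
  obtain ⟨m, hm⟩ : ∃ m : ℕ, m = ⌈100 * u⌉₊ := ⟨_, rfl⟩
  have hm1 : 100 * u ≤ m := by rw [hm]; exact Nat.le_ceil _
  have hm2 : (m:ℝ) ≤ 101 * u := by
    have := Nat.ceil_lt_add_one (show 0 ≤ 100 * u by linarith)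
    rw [hm]; linarith
  refine ⟨m, ⟨hd, ?_, ?_⟩, ?_⟩
  · have : (1:ℝ) ≤ m := by linarith
    exact_mod_cast this
  · -- the size condition
    have hexpd : (d:ℝ) ≤ Real.exp u := by
      have : (d:ℝ) = Real.exp (Real.log d) := (Real.exp_log (by linarith)).symm
      rw [this]
      exact Real.exp_le_exp.2 (by linarith)
    have hexpu : u ≤ Real.exp u := by
      have := Real.add_one_le_exp u
      linarith
    have hexp2 : 2 ≤ Real.exp u := by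
      have := Real.add_one_le_exp u
      linarith
    have h2m : Real.exp u ^ 69 ≤ 2 ^ m := by
      have e1 : (2:ℝ) ^ m = Real.exp (m * Real.log 2) := by
        rw [mul_comm, Real.exp_mul, Real.exp_log (by norm_num), Real.rpow_natCast]
      rw [e1, ← Real.exp_nat_mul]
      apply Real.exp_le_exp.2
      have hl2 : 0.69 ≤ Real.log 2 := by
        have := Real.log_two_gt_d9
        linarith
      push_cast
      nlinarith
    have hE0 : 0 < Real.exp u := Real.exp_pos u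
    calc 10 ^ 8 * (m:ℝ) ^ 2 * (d:ℝ) ^ 4 * T0 d ^ 2
        ≤ 10 ^ 8 * (101 * u) ^ 2 * (Real.exp u) ^ 4 * (4 * u) ^ 2 := by gcongr
      _ = 16321600000000 * u ^ 4 * (Real.exp u) ^ 4 := by ring
      _ ≤ 2 ^ 61 * (Real.exp u) ^ 4 * (Real.exp u) ^ 4 := by
          gcongr
          norm_num
      _ ≤ (Real.exp u) ^ 61 * (Real.exp u) ^ 4 * (Real.exp u) ^ 4 := by gcongr
      _ = (Real.exp u) ^ 69 := by ring
      _ ≤ 2 ^ m := h2m
  · have hu0 : 0 ≤ u := by linarith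
    have hpow : (u ^ (3 / 2 : ℝ)) ^ 2 = u ^ 3 := by
      rw [← Real.rpow_natCast, ← Real.rpow_mul hu0, ← Real.rpow_natCast]
      norm_num
    have hs : RR d m ^ 2 ≤ (111000 * √d * u ^ (3 / 2 : ℝ)) ^ 2 := by
      unfold RR
      rw [Real.sq_sqrt (by positivity), mul_pow, mul_pow, hpow, Real.sq_sqrt (by linarith)]
      calc 300000 * (m:ℝ) ^ 2 * T0 d * d ≤ 300000 * (101 * u) ^ 2 * (4 * u) * d := by gcongr
        _ = 12241200000 * (d * u ^ 3) := by ring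
        _ ≤ 12321000000 * (d * u ^ 3) := by
            have : 0 ≤ (d:ℝ) * u ^ 3 := by positivity
            nlinarith
        _ = 111000 ^ 2 * (d:ℝ) * u ^ 3 := by ring
    exact le_of_sq_le_sq hs (by positivity)

end Vale.Agent.P262
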