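import Vale.Agent.P262.Full.Params

namespace Vale.Agent.P262

open Finset

/-! ### elementary inequalities -/

lemma po_le_of_sq {x y : ℝ} (h : x ^ 2 ≤ y ^ 2) (hy : 0 ≤ y) : x ≤ y := by
  by_contra hc
  push Not at hc
  nlinarith

lemma po_cs {κ : Type*} (s : Finset κ) (f g : κ → ℝ) {A B : ℝ} (hA : 0 ≤ A) (hB : 0 ≤ B)
    (hf : ∑ k ∈ s, f k ^ 2 ≤ A ^ 2) (hg : ∑ k ∈ s, g k ^ 2 ≤ B ^ 2) :
    ∑ k ∈ s, f k * g k ≤ A * B := by
  apply po_le_of_sq _ (mul_nonneg hA hB)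
  calc (∑ k ∈ s, f k * g k) ^ 2 ≤ (∑ k ∈ s, f k ^ 2) * ∑ k ∈ s, g k ^ 2 :=
        Finset.sum_mul_sq_le_sq_mul_sq _ _ _
    _ ≤ A ^ 2 * B ^ 2 := mul_le_mul hf hg (Finset.sum_nonneg fun _ _ => sq_nonneg _)
        (sq_nonneg _)
    _ = (A * B) ^ 2 := by ring

lemma po_add {κ : Type*} (s : Finset κ) (f g : κ → ℝ) {A B : ℝ} (hA : 0 ≤ A) (hB : 0 ≤ B)
    (hf : ∑ k ∈ s, f k ^ 2 ≤ A ^ 2) (hg : ∑ k ∈ s, g k ^ 2 ≤ B ^ 2) :
    ∑ k ∈ s, (f k + g k) ^ 2 ≤ (A + B) ^ 2 := by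
  have h := po_cs s f g hA hB hf hg
  have e : ∑ k ∈ s, (f k + g k) ^ 2 = ∑ k ∈ s, f k ^ 2 + 2 * ∑ k ∈ s, f k * g k +
      ∑ k ∈ s, g k ^ 2 := by
    rw [Finset.mul_sum, ← Finset.sum_add_distrib, ← Finset.sum_add_distrib]
    exact Finset.sum_congr rfl fun k _ => by ring
  rw [e]
  nlinarith

lemma po_sub {κ : Type*} (s : Finset κ) (f g : κ → ℝ) {A B : ℝ} (hA : 0 ≤ A) (hB : 0 ≤ B)
    (hf : ∑ k ∈ s, f k ^ 2 ≤ A ^ 2) (hg : ∑ k ∈ s, g k ^ 2 ≤ B ^ 2) :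
    ∑ k ∈ s, (f k - g k) ^ 2 ≤ (A + B) ^ 2 := by
  have h := po_add s f (fun k => - g k) hA hB hf (by simpa using hg)
  simpa [sub_eq_add_neg] using h

/-! ### level sets -/

section
variable {d : ℕ} (τ : Fin d → ℕ) (m : ℕ)

/-- crossing directions -/
def poCr (l : ℕ) : Finset (Fin d) := univ.filter fun k => τ k = l + 1

/-- new old directions -/
def poNew (l : ℕ) : Finset (Fin d) := univ.filter fun k => τ k + 9 * m = l + 1

lemma po_poor (l : ℕ) (f : Fin d → ℝ) :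
    ∑ k ∈ poor τ l, f k = ∑ k ∈ zone τ m l, f k + ∑ k ∈ old τ m l, f k := by
  have : poor τ l = zone τ m l ∪ old τ m l := by
    ext k; simp only [poor, zone, old, mem_union, mem_filter, mem_univ, true_and]; omega
  rw [this, Finset.sum_union]
  rw [Finset.disjoint_left]
  intro k; simp only [zone, old, mem_filter, mem_univ, true_and]; omega

lemma po_poor_succ (l : ℕ) (f : Fin d → ℝ) :
    ∑ k ∈ poor τ (l + 1), f k = ∑ k ∈ poor τ l, f k + ∑ k ∈ poCr τ l, f k := by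
  have : poor τ (l + 1) = poor τ l ∪ poCr τ l := by
    ext k; simp only [poor, poCr, mem_union, mem_filter, mem_univ, true_and]; omega
  rw [this, Finset.sum_union]
  rw [Finset.disjoint_left]
  intro k; simp only [poor, poCr, mem_filter, mem_univ, true_and]; omega

lemma po_old_succ (hm : 1 ≤ m) (l : ℕ) (f : Fin d → ℝ) :
    ∑ k ∈ old τ m (l + 1), f k = ∑ k ∈ old τ m l, f k + ∑ k ∈ poNew τ m l, f k := by
  have : old τ m (l + 1) = old τ m l ∪ poNew τ m l := by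
    ext k; simp only [old, poNew, mem_union, mem_filter, mem_univ, true_and]; omega
  rw [this, Finset.sum_union]
  rw [Finset.disjoint_left]
  intro k; simp only [old, poNew, mem_filter, mem_univ, true_and]; omega

lemma po_New_sub (hm : 1 ≤ m) (l : ℕ) : poNew τ m l ⊆ zone τ m l := by
  intro k; simp only [poNew, zone, mem_filter, mem_univ, true_and]; omega

lemma po_rich_poor (l : ℕ) (f : Fin d → ℝ) :
    ∑ k, f k = ∑ k ∈ poor τ l, f k + ∑ k ∈ rich τ l, f k := by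
  have h1 : poor τ l ∪ rich τ l = (univ : Finset (Fin d)) := by
    ext k
    simp only [poor, rich, mem_union, mem_filter, mem_univ, true_and, iff_true]
    omega
  have h2 : Disjoint (poor τ l) (rich τ l) := by
    rw [Finset.disjoint_left]
    intro k; simp only [poor, rich, mem_filter, mem_univ, true_and]; omega
  rw [← h1, Finset.sum_union h2]

lemma po_gam {m : ℕ} (hm : 1 ≤ m) : 0 ≤ gam m ∧ gam m ≤ 1 ∧ gam m = 1 - 2 / JJ m := by
  have h : (1 : ℝ) ≤ m := by exact_mod_cast hm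
  unfold gam JJ
  refine ⟨?_, ?_, ?_⟩
  · have : 1 / (18 * (m : ℝ)) ≤ 1 := by
      rw [div_le_one (by positivity)]; linarith
    linarith
  · have : 0 ≤ 1 / (18 * (m : ℝ)) := by positivity
    linarith
  · have : (m : ℝ) ≠ 0 := by positivity
    field_simp
    ring

lemma po_gam_pow {m : ℕ} (hm : 1 ≤ m) : 1 / 2 ≤ gam m ^ (9 * m) := by
  have h : (1 : ℝ) ≤ m := by exact_mod_cast hm
  have h0 : (m : ℝ) ≠ 0 := by positivity
  have hle : 1 / (18 * (m : ℝ)) ≤ 1 := by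
    rw [div_le_one (by positivity)]; linarith
  have hb := one_add_mul_le_pow (a := -(1 / (18 * (m : ℝ)))) (by linarith) (9 * m)
  have e : (1 : ℝ) + ((9 * m : ℕ) : ℝ) * -(1 / (18 * (m : ℝ))) = 1 / 2 := by
    push_cast
    field_simp
    norm_num
  rw [e] at hb
  have e2 : gam m = 1 + -(1 / (18 * (m : ℝ))) := by unfold gam; ring
  rw [e2]
  exact hb

lemma po_zone_Psi {m : ℕ} (hm : 1 ≤ m) (l : ℕ) (f : Fin d → ℝ) :
    ∑ k ∈ zone τ m l, f k ^ 2 ≤ 2 * Psi τ m l f := by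
  obtain ⟨g0, g1, _⟩ := po_gam hm
  unfold Psi
  rw [Finset.mul_sum]
  refine Finset.sum_le_sum fun k hk => ?_
  simp only [zone, mem_filter, mem_univ, true_and] at hk
  have h1 : gam m ^ (9 * m) ≤ gam m ^ (l - τ k) := pow_le_pow_of_le_one g0 g1 (by omega)
  have h2 := po_gam_pow hm
  have : 1 ≤ 2 * gam m ^ (l - τ k) := by linarith
  nlinarith [sq_nonneg (f k)]

lemma po_Psi_le {m : ℕ} (hm : 1 ≤ m) (l : ℕ) (f : Fin d → ℝ) :
    Psi τ m l f ≤ ∑ k ∈ zone τ m l, f k ^ 2 := by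
  obtain ⟨g0, g1, _⟩ := po_gam hm
  unfold Psi
  refine Finset.sum_le_sum fun k hk => ?_
  have : gam m ^ (l - τ k) ≤ 1 := pow_le_one₀ g0 g1
  nlinarith [sq_nonneg (f k)]

lemma po_Psi_nonneg {m : ℕ} (hm : 1 ≤ m) (l : ℕ) (f : Fin d → ℝ) : 0 ≤ Psi τ m l f := by
  obtain ⟨g0, g1, _⟩ := po_gam hm
  exact Finset.sum_nonneg fun k _ => mul_nonneg (pow_nonneg g0 _) (sq_nonneg _)

/-- pointwise comparison for `Psi` -/
lemma po_Psi_comb {m : ℕ} (hm : 1 ≤ m) (l : ℕ) (f g h : Fin d → ℝ) (α β : ℝ)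
    (hh : ∀ k, h k ^ 2 ≤ α * f k ^ 2 + β * g k ^ 2) :
    Psi τ m l h ≤ α * Psi τ m l f + β * Psi τ m l g := by
  obtain ⟨g0, g1, _⟩ := po_gam hm
  unfold Psi
  rw [Finset.mul_sum, Finset.mul_sum, ← Finset.sum_add_distrib]
  refine Finset.sum_le_sum fun k _ => ?_
  have := mul_le_mul_of_nonneg_left (hh k) (pow_nonneg g0 (l - τ k))
  linarith

lemma po_Psi_succ {m : ℕ} (hm : 1 ≤ m) (l : ℕ) (f : Fin d → ℝ) :
    Psi τ m (l + 1) f ≤ gam m * Psi τ m l f + ∑ k ∈ poCr τ l, f k ^ 2 := by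
  obtain ⟨g0, g1, _⟩ := po_gam hm
  have hz : zone τ m (l + 1) = (zone τ m l \ poNew τ m l) ∪ poCr τ l := by
    ext k
    simp only [zone, poNew, poCr, mem_union, mem_sdiff, mem_filter, mem_univ, true_and]; omega
  unfold Psi
  rw [hz, Finset.sum_union (by
    rw [Finset.disjoint_left]
    intro k; simp only [zone, poNew, poCr, mem_sdiff, mem_filter, mem_univ, true_and]; omega)]
  refine add_le_add ?_ ?_
  · rw [Finset.mul_sum]
    calc ∑ k ∈ zone τ m l \ poNew τ m l, gam m ^ (l + 1 - τ k) * f k ^ 2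
        = ∑ k ∈ zone τ m l \ poNew τ m l, gam m * (gam m ^ (l - τ k) * f k ^ 2) := by
          refine Finset.sum_congr rfl fun k hk => ?_
          simp only [zone, mem_sdiff, mem_filter, mem_univ, true_and] at hk
          have : l + 1 - τ k = (l - τ k) + 1 := by omega
          rw [this, pow_succ]; ring
      _ ≤ ∑ k ∈ zone τ m l, gam m * (gam m ^ (l - τ k) * f k ^ 2) :=
          Finset.sum_le_sum_of_subset_of_nonneg Finset.sdiff_subset
            (fun k _ _ => mul_nonneg g0 (mul_nonneg (pow_nonneg g0 _) (sq_nonneg _)))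
  · refine Finset.sum_le_sum fun k hk => ?_
    have : gam m ^ (l + 1 - τ k) ≤ 1 := pow_le_one₀ g0 g1
    nlinarith [sq_nonneg (f k)]

/-- crossing directions are an initial segment of the rich ones -/
lemma po_rich_step {τ : Fin d → ℕ} (hτ : Monotone τ) (l : ℕ) (f : Fin d → ℝ) {ξ : ℝ}
    (hξ : 0 ≤ ξ) (hf : RichOK τ l f ξ) :
    0 ≤ ξ + Ch d * (poCr τ l).card - ∑ k ∈ poCr τ l, f k ^ 2 ∧
      RichOK τ (l + 1) f (ξ + Ch d * (poCr τ l).card - ∑ k ∈ poCr τ l, f k ^ 2) := by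
  have h0 : 0 ≤ ξ + Ch d * (poCr τ l).card - ∑ k ∈ poCr τ l, f k ^ 2 := by
    by_cases hne : (poCr τ l).Nonempty
    · set j := (poCr τ l).max' hne with hj
      have hjm : j ∈ poCr τ l := Finset.max'_mem _ _
      have hjτ : τ j = l + 1 := by
        simpa only [poCr, mem_filter, mem_univ, true_and] using hjm
      have heq : (rich τ l).filter (· ≤ j) = poCr τ l := by
        ext k
        simp only [rich, mem_filter, mem_univ, true_and]
        constructor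
        · rintro ⟨h1, h2⟩
          have := hτ h2
          simp only [poCr, mem_filter, mem_univ, true_and]
          omega
        · intro hk
          refine ⟨?_, Finset.le_max' _ _ hk⟩
          simp only [poCr, mem_filter, mem_univ, true_and] at hk
          omega
      have := hf j
      rw [heq] at this
      linarith
    · rw [Finset.not_nonempty_iff_eq_empty] at hne
      rw [hne]; simpa using hξ
  refine ⟨h0, ?_⟩
  intro j
  by_cases hne : ((rich τ (l + 1)).filter (· ≤ j)).Nonempty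
  · obtain ⟨k0, hk0⟩ := hne
    simp only [rich, mem_filter, mem_univ, true_and] at hk0
    have heq : (rich τ l).filter (· ≤ j) = poCr τ l ∪ (rich τ (l + 1)).filter (· ≤ j) := by
      ext k
      simp only [rich, poCr, mem_union, mem_filter, mem_univ, true_and]
      constructor
      · rintro ⟨h1, h2⟩
        by_cases h3 : τ k = l + 1
        · left; exact h3
        · right; exact ⟨by omega, h2⟩
      · rintro (h1 | ⟨h1, h2⟩)
        · refine ⟨by omega, ?_⟩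
          have : k < k0 := by
            by_contra hcon
            push Not at hcon
            have := hτ hcon
            omega
          exact this.le.trans hk0.2
        · exact ⟨by omega, h2⟩
    have hdisj : Disjoint (poCr τ l) ((rich τ (l + 1)).filter (· ≤ j)) := by
      rw [Finset.disjoint_left]
      intro k
      simp only [rich, poCr, mem_filter, mem_univ, true_and]
      omega
    have := hf j
    rw [heq, Finset.sum_union hdisj, Finset.card_union_of_disjoint hdisj] at this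
    push_cast at this
    linarith
  · rw [Finset.not_nonempty_iff_eq_empty] at hne
    rw [hne]
    simpa using h0

end

lemma po_Ch_nonneg (d : ℕ) : 0 ≤ Ch d := by
  unfold Ch T0
  have : 0 ≤ ∑ k ∈ range d, (1:ℝ) / (k + 1) := Finset.sum_nonneg fun k _ => by positivity
  linarith

/-- bound of the new endpoint in the zone -/
lemma po_Psi_c {d m : ℕ} (hm : 1 ≤ m) {τ : Fin d → ℕ} {l : ℕ} {a b D : Fin d → ℝ} {ψ : ℝ}
    (ha : Psi τ m l a ≤ ψ) (hb : Psi τ m l b ≤ ψ) :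
    Psi τ m l (fun k => (a k + b k) / 2 + D k / 2) ≤
      (1 + 1 / JJ m) * ψ + (1 + JJ m) / 4 * ∑ k ∈ zone τ m l, D k ^ 2 := by
  have hmr : (1 : ℝ) ≤ m := by exact_mod_cast hm
  have hJ : 0 < JJ m := by unfold JJ; positivity
  have h1 : Psi τ m l (fun k => (a k + b k) / 2) ≤ ψ := by
    have := po_Psi_comb τ hm l a b (fun k => (a k + b k) / 2) (1 / 2) (1 / 2) (fun k => by
      nlinarith [sq_nonneg (a k - b k)])
    linarith
  have h2 := po_Psi_comb τ hm l (fun k => (a k + b k) / 2) D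
    (fun k => (a k + b k) / 2 + D k / 2) (1 + 1 / JJ m) ((1 + JJ m) / 4) (fun k => by
      have e : (1 + 1 / JJ m) * ((a k + b k) / 2) ^ 2 + (1 + JJ m) / 4 * D k ^ 2 -
          ((a k + b k) / 2 + D k / 2) ^ 2 =
          (((a k + b k) / 2) - JJ m * (D k / 2)) ^ 2 / JJ m := by
        field_simp
        ring
      have : 0 ≤ (((a k + b k) / 2) - JJ m * (D k / 2)) ^ 2 / JJ m := by positivity
      linarith)
  have h3 := po_Psi_le τ hm l D
  have h4 : 0 ≤ 1 + 1 / JJ m := by positivity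
  have h5 : 0 ≤ (1 + JJ m) / 4 := by positivity
  nlinarith [mul_le_mul_of_nonneg_left h1 h4, mul_le_mul_of_nonneg_left h3 h5]

/-- AM-GM for the new old directions -/
lemma po_amgm {J ψ E : ℝ} (hJ : 36 ≤ J) (hψ : 0 ≤ ψ) (hE : 0 ≤ E) :
    √(2 * ((1 + 1 / J) * ψ + (1 + J) / 4 * E)) + √(2 * ψ) + 1 ≤
      ψ / (4 * J) + 12 * J + (1 + J) * E / 2 + 2 := by
  have hJ0 : 0 < J := by linarith
  have h1 : √(2 * ψ) ≤ ψ / (8 * J) + 4 * J := by
    rw [show ψ / (8 * J) + 4 * J = √((ψ / (8 * J) + 4 * J) ^ 2) from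
      (Real.sqrt_sq (by positivity)).symm]
    apply Real.sqrt_le_sqrt
    have e : (ψ / (8 * J) + 4 * J) ^ 2 - 2 * ψ = (ψ / (8 * J) - 4 * J) ^ 2 := by
      field_simp
      ring
    nlinarith [sq_nonneg (ψ / (8 * J) - 4 * J)]
  have h2 : √(2 * ((1 + 1 / J) * ψ + (1 + J) / 4 * E)) ≤
      ψ / (8 * J) + 8 * J + (1 + (1 + J) / 2 * E) / 2 := by
    have hb0 : 0 ≤ ψ / (8 * J) + 8 * J + (1 + (1 + J) / 2 * E) / 2 := by positivity
    rw [show ψ / (8 * J) + 8 * J + (1 + (1 + J) / 2 * E) / 2 =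
      √((ψ / (8 * J) + 8 * J + (1 + (1 + J) / 2 * E) / 2) ^ 2) from (Real.sqrt_sq hb0).symm]
    apply Real.sqrt_le_sqrt
    set X := ψ / (8 * J) with hX
    have hX0 : 0 ≤ X := by positivity
    have hψX : ψ = 8 * J * X := by rw [hX]; field_simp
    have e1 : 2 * ((1 + 1 / J) * ψ) = 16 * J * X + 16 * X := by
      rw [hψX]; field_simp; ring
    set Y := (1 + (1 + J) / 2 * E) / 2 with hY
    have hY0 : 0 ≤ Y := by positivity
    have e2 : (1 + J) / 2 * E = 2 * Y - 1 := by rw [hY]; ring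
    have e3 : 2 * ((1 + 1 / J) * ψ + (1 + J) / 4 * E) = 16 * J * X + 16 * X + (2 * Y - 1) := by
      rw [mul_add, e1, ← e2]; ring
    rw [e3]
    nlinarith [mul_nonneg hX0 hY0, mul_nonneg hX0 (sub_nonneg.mpr hJ), sq_nonneg (X - 8 * J),
      mul_nonneg hJ0.le hY0, sq_nonneg (Y - 1), mul_nonneg hX0 hJ0.le, sq_nonneg X, sq_nonneg J]
  have e4 : ψ / (4 * J) = ψ / (8 * J) + ψ / (8 * J) := by field_simp; ring
  rw [e4]
  have e5 : (1 + J) * E / 2 = 2 * ((1 + J) / 2 * E) / 2 := by ring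
  have h6 : 0 ≤ (1 + J) / 2 * E := by positivity
  nlinarith

/-- zone part of the new potential -/
lemma po_zonec {d m : ℕ} (hm : 1 ≤ m) {τ : Fin d → ℕ} {l : ℕ} {a b D : Fin d → ℝ} {ψ E : ℝ}
    (ha : Psi τ m l a ≤ ψ) (hb : Psi τ m l b ≤ ψ) (hE : ∑ k ∈ zone τ m l, D k ^ 2 = E) :
    ∑ k ∈ zone τ m l, ((a k + b k) / 2 + D k / 2) ^ 2 ≤ (1 / 2) * ∑ k ∈ zone τ m l, a k ^ 2 +
        (1 / 2) * ∑ k ∈ zone τ m l, b k ^ 2 + ψ / (2 * JJ m) + JJ m * E + E / 4 := by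
  have hmr : (1 : ℝ) ≤ m := by exact_mod_cast hm
  have hJ : 0 < JJ m := by unfold JJ; positivity
  have hmz : ∑ k ∈ zone τ m l, ((a k + b k) / 2) ^ 2 ≤ 2 * ψ := by
    have h1 := po_zone_Psi τ hm l (fun k => (a k + b k) / 2)
    have h2 := po_Psi_comb τ hm l a b (fun k => (a k + b k) / 2) (1 / 2) (1 / 2) (fun k => by
      nlinarith [sq_nonneg (a k - b k)])
    linarith
  generalize JJ m = J at *
  have h1 : ∀ k ∈ zone τ m l, ((a k + b k) / 2 + D k / 2) ^ 2 ≤ (1 / 2) * a k ^ 2 +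
      (1 / 2) * b k ^ 2 + (1 / (4 * J)) * ((a k + b k) / 2) ^ 2 + (J + 1 / 4) * D k ^ 2 := by
    intro k _
    have e : (1 / (4 * J)) * ((a k + b k) / 2) ^ 2 + J * D k ^ 2 -
        ((a k + b k) / 2) * D k = (((a k + b k) / 2) - 2 * J * D k) ^ 2 / (4 * J) := by
      field_simp
      ring
    have h2 : 0 ≤ (((a k + b k) / 2) - 2 * J * D k) ^ 2 / (4 * J) := by positivity
    have h3 := sq_nonneg (a k - b k)
    have e2 : ((a k + b k) / 2 + D k / 2) ^ 2 = (1 / 2) * a k ^ 2 + (1 / 2) * b k ^ 2 -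
      (1 / 4) * (a k - b k) ^ 2 + ((a k + b k) / 2) * D k + (1 / 4) * D k ^ 2 := by ring
    rw [e2]
    linarith
  have h3 := Finset.sum_le_sum h1
  rw [Finset.sum_add_distrib, Finset.sum_add_distrib, Finset.sum_add_distrib,
    ← Finset.mul_sum, ← Finset.mul_sum, ← Finset.mul_sum, ← Finset.mul_sum, hE] at h3
  have h4 : (1 / (4 * J)) * ∑ k ∈ zone τ m l, ((a k + b k) / 2) ^ 2 ≤ ψ / (2 * J) := by
    have : (1 / (4 * J)) * ∑ k ∈ zone τ m l, ((a k + b k) / 2) ^ 2 ≤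
      (1 / (4 * J)) * (2 * ψ) := mul_le_mul_of_nonneg_left hmz (by positivity)
    have e : (1 / (4 * J)) * (2 * ψ) = ψ / (2 * J) := by field_simp; ring
    linarith
  linarith

/-- old part of the new potential -/
lemma po_oldc {κ : Type*} (s : Finset κ) (a b D x1 : κ → ℝ) {τ1 R σ W : ℝ}
    (hτ2 : τ1 ^ 2 = 1) (hR : 0 ≤ R) (hσ : 0 ≤ σ) (hW0 : 0 ≤ W) (hW1 : W ≤ 1)
    (ha : ∑ k ∈ s, a k ^ 2 ≤ R ^ 2) (hb : ∑ k ∈ s, b k ^ 2 ≤ R ^ 2)
    (hx : ∑ k ∈ s, x1 k ^ 2 ≤ 1 ^ 2)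
    (hold : ∑ k ∈ s, (b k - a k - x1 k) ^ 2 ≤ σ ^ 2)
    (hW : ∑ k ∈ s, (D k - τ1 * x1 k) ^ 2 ≤ W ^ 2)
    (hsign : τ1 * ∑ k ∈ s, ((a k + b k) / 2) * x1 k ≤ 0) :
    ∑ k ∈ s, ((a k + b k) / 2 + D k / 2) ^ 2 ≤ (1 / 2) * ∑ k ∈ s, a k ^ 2 +
        (1 / 2) * ∑ k ∈ s, b k ^ 2 + σ / 2 + (R + 1) * W := by
  have hxs : ∑ k ∈ s, (-x1 k) * (b k - a k - x1 k) ≤ 1 * σ :=
    po_cs _ (fun k => -x1 k) (fun k => b k - a k - x1 k) zero_le_one hσ
      (by simpa using hx) hold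
  have hmm : ∑ k ∈ s, ((a k + b k) / 2) ^ 2 ≤ R ^ 2 := by
    have h1 : ∀ k ∈ s, ((a k + b k) / 2) ^ 2 ≤ (1 / 2) * a k ^ 2 + (1 / 2) * b k ^ 2 :=
      fun k _ => by nlinarith [sq_nonneg (a k - b k)]
    have h2 := Finset.sum_le_sum h1
    rw [Finset.sum_add_distrib, ← Finset.mul_sum, ← Finset.mul_sum] at h2
    linarith
  have hx2 : ∑ k ∈ s, (τ1 * x1 k / 2) ^ 2 ≤ (1 / 2) ^ 2 := by
    have : ∀ k ∈ s, (τ1 * x1 k / 2) ^ 2 = (1 / 4) * x1 k ^ 2 := fun k _ => by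
      rw [div_pow, mul_pow, hτ2]; ring
    rw [Finset.sum_congr rfl this, ← Finset.mul_sum]
    norm_num at hx ⊢
    linarith
  have hm' := po_add s (fun k => (a k + b k) / 2) (fun k => τ1 * x1 k / 2) hR
    (by norm_num : (0:ℝ) ≤ 1 / 2) hmm hx2
  have hmw := po_cs s (fun k => (a k + b k) / 2 + τ1 * x1 k / 2)
    (fun k => D k - τ1 * x1 k) (by linarith : 0 ≤ R + 1 / 2) hW0 hm' hW
  have hid : ∑ k ∈ s, ((a k + b k) / 2 + D k / 2) ^ 2 = (1 / 2) * ∑ k ∈ s, a k ^ 2 +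
      (1 / 2) * ∑ k ∈ s, b k ^ 2 +
      (1 / 2) * ∑ k ∈ s, (-x1 k) * (b k - a k - x1 k) -
      (1 / 4) * ∑ k ∈ s, (b k - a k - x1 k) ^ 2 +
      τ1 * ∑ k ∈ s, ((a k + b k) / 2) * x1 k +
      ∑ k ∈ s, ((a k + b k) / 2 + τ1 * x1 k / 2) * (D k - τ1 * x1 k) +
      (1 / 4) * ∑ k ∈ s, (D k - τ1 * x1 k) ^ 2 := by
    simp only [Finset.mul_sum]
    rw [← Finset.sum_add_distrib, ← Finset.sum_add_distrib, ← Finset.sum_sub_distrib,
      ← Finset.sum_add_distrib, ← Finset.sum_add_distrib, ← Finset.sum_add_distrib]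
    refine Finset.sum_congr rfl fun k _ => ?_
    linear_combination (x1 k ^ 2 / 4) * hτ2
  have h8 : 0 ≤ ∑ k ∈ s, (b k - a k - x1 k) ^ 2 :=
    Finset.sum_nonneg fun _ _ => sq_nonneg _
  have h9 : W ^ 2 ≤ W * 1 := by rw [sq]; exact mul_le_mul_of_nonneg_left hW1 hW0
  have h10 : (R + 1 / 2) * W + W / 4 ≤ (R + 1) * W := by nlinarith
  have hmw' : ∑ k ∈ s, ((a k + b k) / 2 + τ1 * x1 k / 2) * (D k - τ1 * x1 k) ≤
    (R + 1 / 2) * W := hmw
  rw [hid]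
  linarith

/-- the new deviation on the old directions -/
lemma po_s1 {κ : Type*} (s : Finset κ) (a b D x1 tp : κ → ℝ) {τ1 σ W W' : ℝ}
    (hσ : 0 ≤ σ) (hW0 : 0 ≤ W) (hW'0 : 0 ≤ W')
    (hold : ∑ k ∈ s, (b k - a k - x1 k) ^ 2 ≤ σ ^ 2)
    (hW : ∑ k ∈ s, (D k - τ1 * x1 k) ^ 2 ≤ W ^ 2)
    (htp : (τ1 = 1 ∧ tp = x1) ∨ (τ1 = -1 ∧ ∑ k ∈ s, tp k ^ 2 ≤ W' ^ 2)) :
    ∑ k ∈ s, ((a k + b k) / 2 + D k / 2 - a k - tp k) ^ 2 ≤ ((σ + W) / 2 + W') ^ 2 := by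
  have hbase := po_add s (fun k => b k - a k - x1 k) (fun k => D k - τ1 * x1 k)
    hσ hW0 hold hW
  have hhalf : ∑ k ∈ s, (((b k - a k - x1 k) + (D k - τ1 * x1 k)) / 2) ^ 2 ≤
      ((σ + W) / 2) ^ 2 := by
    have : ∀ k ∈ s, (((b k - a k - x1 k) + (D k - τ1 * x1 k)) / 2) ^ 2 =
      (1 / 4) * ((b k - a k - x1 k) + (D k - τ1 * x1 k)) ^ 2 := fun k _ => by ring
    rw [Finset.sum_congr rfl this, ← Finset.mul_sum]
    have e : ((σ + W) / 2) ^ 2 = (1 / 4) * (σ + W) ^ 2 := by ring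
    rw [e]
    linarith
  rcases htp with ⟨h1, h2⟩ | ⟨h1, h4⟩
  · have : ∀ k ∈ s, ((a k + b k) / 2 + D k / 2 - a k - tp k) ^ 2 =
        (((b k - a k - x1 k) + (D k - τ1 * x1 k)) / 2) ^ 2 := fun k _ => by
      rw [h1, h2]; ring
    rw [Finset.sum_congr rfl this]
    refine hhalf.trans ?_
    apply pow_le_pow_left₀ (by positivity)
    linarith
  · have h5 := po_sub s (fun k => ((b k - a k - x1 k) + (D k - τ1 * x1 k)) / 2)
      tp (by positivity : 0 ≤ (σ + W) / 2) hW'0 hhalf h4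
    have : ∀ k ∈ s, ((a k + b k) / 2 + D k / 2 - a k - tp k) ^ 2 =
        ((((b k - a k - x1 k) + (D k - τ1 * x1 k)) / 2) - tp k) ^ 2 := fun k _ => by
      rw [h1]; ring
    rw [Finset.sum_congr rfl this]
    exact h5

/-- the new deviation on the directions becoming old -/
lemma po_s2 {d m : ℕ} (hm : 1 ≤ m) {τ : Fin d → ℕ} {l : ℕ} {a c tp : Fin d → ℝ} {ψ E : ℝ}
    (hψ : 0 ≤ ψ) (hE0 : 0 ≤ E) (ha : Psi τ m l a ≤ ψ)
    (hc : Psi τ m l c ≤ (1 + 1 / JJ m) * ψ + (1 + JJ m) / 4 * E)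
    (htp : ∑ k, tp k ^ 2 ≤ 1) (hne : (poNew τ m l).Nonempty) :
    ∑ k ∈ poNew τ m l, (c k - a k - tp k) ^ 2 ≤
      (ψ / (4 * JJ m) + 12 * JJ m + (1 + JJ m) * E / 2 + 2) ^ 2 := by
  have hmr : (1 : ℝ) ≤ m := by exact_mod_cast hm
  have hJ36 : 36 ≤ JJ m := by unfold JJ; linarith
  have hJ : 0 < JJ m := by linarith
  have hsubz : ∀ f : Fin d → ℝ, ∑ k ∈ poNew τ m l, f k ^ 2 ≤ ∑ k ∈ zone τ m l, f k ^ 2 :=
    fun f => Finset.sum_le_sum_of_subset_of_nonneg (po_New_sub τ m hm l)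
      (fun _ _ _ => sq_nonneg _)
  have ht1 : ∑ k ∈ poNew τ m l, tp k ^ 2 ≤ 1 ^ 2 := by
    rw [one_pow]
    exact (Finset.sum_le_sum_of_subset_of_nonneg (Finset.subset_univ _)
      (fun _ _ _ => sq_nonneg _)).trans htp
  have hc' := (hsubz c).trans (po_zone_Psi τ hm l c)
  have ha' := (hsubz a).trans (po_zone_Psi τ hm l a)
  generalize JJ m = J at *
  set Q := (1 + 1 / J) * ψ + (1 + J) / 4 * E with hQ
  have hQ0 : 0 ≤ Q := by positivity
  have hc1 : ∑ k ∈ poNew τ m l, c k ^ 2 ≤ (√(2 * Q)) ^ 2 := by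
    rw [Real.sq_sqrt (by positivity)]
    linarith
  have ha1 : ∑ k ∈ poNew τ m l, a k ^ 2 ≤ (√(2 * ψ)) ^ 2 := by
    rw [Real.sq_sqrt (by positivity)]
    linarith
  have h1 := po_sub (poNew τ m l) c a (Real.sqrt_nonneg _) (Real.sqrt_nonneg _) hc1 ha1
  have h2 := po_sub (poNew τ m l) (fun k => c k - a k) tp
    (by positivity : 0 ≤ √(2 * Q) + √(2 * ψ)) zero_le_one h1 ht1
  refine h2.trans ?_
  apply pow_le_pow_left₀ (by positivity)
  exact po_amgm hJ36 hψ hE0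

lemma po_N {J ψ E nc : ℝ} (hJ : 36 ≤ J) (hψ : 0 ≤ ψ) (hE : 0 ≤ E) (hnc : 0 ≤ nc) :
    0 ≤ ψ / (4 * J) + (1 + J) * E / 2 + (12 * J + 2) * nc := by
  have : 0 < J := by linarith
  positivity

/-- final arithmetic -/
lemma po_final {J ψ E σ W W' R T ch cr zc nc ξa ξb u P ea ec N : ℝ} (hJ : 36 ≤ J) (hψ : 0 ≤ ψ)
    (hE0 : 0 ≤ E) (hW0 : 0 ≤ W) (hW'0 : 0 ≤ W') (hR : 0 ≤ R) (hξb : 0 ≤ ξb)
    (hZ : E ≤ 111 * T * zc)
    (hN : N ≤ ψ / (4 * J) + (1 + J) * E / 2 + (12 * J + 2) * nc)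
    (hsum : u + ψ + 2 * (ξa + ξb) + σ ≤ P) :
    (u + (ψ / (2 * J) + J * E + E / 4 + σ / 2 + (R + 1) * W) + ea + ec) +
      ((1 - 1 / J) * ψ + (1 + J) / 4 * E + ea + ec) +
      2 * ((ξa + ch * cr - ea) + (ch * cr - ec)) + ((σ + W) / 2 + W' + N) ≤
      P + (4 * ch * cr + 3 * (J + 1) * (111 * T) * zc +
        (12 * J + 2) * nc + (R + 2) * (W + W')) := by
  have hJ0 : 0 < J := by linarith
  have h1 : 3 * (J + 1) * E ≤ 3 * (J + 1) * (111 * T) * zc := by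
    have := mul_le_mul_of_nonneg_left hZ (by positivity : 0 ≤ 3 * (J + 1))
    linarith
  have h3 : ψ / (2 * J) + ψ / (4 * J) ≤ 1 / J * ψ := by
    have e : 1 / J * ψ - (ψ / (2 * J) + ψ / (4 * J)) = ψ / (4 * J) := by
      field_simp; ring
    have : 0 ≤ ψ / (4 * J) := by positivity
    linarith
  have h4 : J * E + E / 4 + (1 + J) / 4 * E + (1 + J) * E / 2 ≤
      3 * (J + 1) * E := by nlinarith [mul_nonneg hJ0.le hE0]
  have h5 : (R + 1) * W + W / 2 + W' ≤ (R + 2) * (W + W') := by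
    nlinarith [mul_nonneg hR hW0, mul_nonneg hR hW'0]
  have h6 : (1 - 1 / J) * ψ = ψ - 1 / J * ψ := by ring
  rw [h6]
  linarith

lemma po_bud {d : ℕ} (τ : Fin d → ℕ) (m l : ℕ) :
    bud τ m l = 4 * Ch d * (poCr τ l).card + 3 * (JJ m + 1) * (111 * T0 d) * (zone τ m l).card +
        (12 * JJ m + 2) * (poNew τ m l).card + (RR d m + 2) * (Wt τ m l + Wt τ m (l + 1)) := by
  unfold bud
  rw [Finset.sum_add_distrib, Finset.sum_add_distrib]
  congr 1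
  rw [← Finset.sum_filter, ← Finset.sum_filter, ← Finset.sum_filter]
  simp only [Finset.sum_const, nsmul_eq_mul]
  unfold poCr zone poNew
  ring

/-- the new zone potential -/
lemma po_Psi_new {J g ψ E X e : ℝ} (hJ : 36 ≤ J) (hg0 : 0 ≤ g) (hg1 : g ≤ 1)
    (hg : g = 1 - 2 / J) (hψ : 0 ≤ ψ) (hE : 0 ≤ E)
    (hX : X ≤ (1 + 1 / J) * ψ + (1 + J) / 4 * E) :
    g * X + e ≤ (1 - 1 / J) * ψ + (1 + J) / 4 * E + e := by
  have hJ0 : 0 < J := by linarith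
  have h3 : g * (1 + 1 / J) ≤ 1 - 1 / J := by
    rw [hg]
    have e : (1 - 2 / J) * (1 + 1 / J) = 1 - 1 / J - 2 * (1 / J) ^ 2 := by
      field_simp; ring
    rw [e]
    have := sq_nonneg (1 / J)
    linarith
  have : g * X ≤ (1 - 1 / J) * ψ + (1 + J) / 4 * E := by
    calc g * X ≤ g * ((1 + 1 / J) * ψ + (1 + J) / 4 * E) :=
          mul_le_mul_of_nonneg_left hX hg0
      _ = g * (1 + 1 / J) * ψ + g * ((1 + J) / 4 * E) := by ring
      _ ≤ (1 - 1 / J) * ψ + 1 * ((1 + J) / 4 * E) :=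
          add_le_add (mul_le_mul_of_nonneg_right h3 hψ)
            (mul_le_mul_of_nonneg_right hg1 (by positivity))
      _ = _ := by ring
  linarith

/-- update of the potential, for the child on the side of the endpoint `a` -/
theorem pos_update {d m : ℕ} (hG : Good d m) {τ : Fin d → ℕ} (hτ : Monotone τ) {l : ℕ}
    {a b x1 D tp : Fin d → ℝ} {P : ℝ} {τ1 : ℝ} (hτ1 : τ1 = 1 ∨ τ1 = -1)
    (hP : Pos τ m l a b x1 P)
    (hW : ∑ k ∈ old τ m l, (D k - τ1 * x1 k) ^ 2 ≤ Wt τ m l ^ 2)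
    (hsign : τ1 * ∑ k ∈ old τ m l, ((a k + b k) / 2) * x1 k ≤ 0)
    (hZ : ∑ k ∈ zone τ m l, D k ^ 2 ≤ 111 * T0 d * (zone τ m l).card)
    (hR : ∀ j, ∑ k ∈ (rich τ l).filter (· ≤ j), ((a k + b k) / 2 + D k / 2) ^ 2
      ≤ Ch d * ((rich τ l).filter (· ≤ j)).card)
    (ha : ∑ k, a k ^ 2 ≤ RR d m ^ 2) (hb : ∑ k, b k ^ 2 ≤ RR d m ^ 2) (hx1 : ∑ k, x1 k ^ 2 ≤ 1)
    (htp : (τ1 = 1 ∧ tp = x1) ∨
      (τ1 = -1 ∧ ∑ k, tp k ^ 2 ≤ 1 ∧ ∑ k ∈ old τ m (l + 1), tp k ^ 2 ≤ Wt τ m (l + 1) ^ 2)) :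
    Pos τ m (l + 1) a (fun k => (a k + b k) / 2 + D k / 2) tp (P + bud τ m l) := by
  have hm := hG.hm
  have hmr : (1 : ℝ) ≤ m := by exact_mod_cast hm
  have hJ36 : 36 ≤ JJ m := by unfold JJ; linarith
  have hJ : 0 < JJ m := by linarith
  obtain ⟨g0, g1, g2⟩ := po_gam hm
  obtain ⟨ξa, ξb, u, ψ, σ, hξa, hξb, hψ, hσ, hRa, hRb, hUa, hUb, hPa, hPb, hold, hsum⟩ := hP
  have hW0 : 0 ≤ Wt τ m l := Wt_nonneg τ l
  have hW1 : Wt τ m l ≤ 1 := Wt_le hG τ l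
  have hW'0 : 0 ≤ Wt τ m (l + 1) := Wt_nonneg τ (l + 1)
  have hRR := RR_nonneg d m
  have hsub1 : ∀ (s : Finset (Fin d)) (f : Fin d → ℝ), ∑ k ∈ s, f k ^ 2 ≤ ∑ k, f k ^ 2 :=
    fun s f => Finset.sum_le_sum_of_subset_of_nonneg (Finset.subset_univ _)
      (fun _ _ _ => sq_nonneg _)
  obtain ⟨E, hE⟩ : ∃ E, ∑ k ∈ zone τ m l, D k ^ 2 = E := ⟨_, rfl⟩
  have hE0 : 0 ≤ E := by rw [← hE]; exact Finset.sum_nonneg fun _ _ => sq_nonneg _
  have hPc := po_Psi_c (D := D) hm hPa hPb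
  rw [hE] at hPc hZ
  have hzone := po_zonec hm hPa hPb hE
  have hτ2 : τ1 ^ 2 = 1 := by rcases hτ1 with h | h <;> rw [h] <;> norm_num
  have hoc := po_oldc (old τ m l) a b D x1 hτ2 hRR hσ hW0 hW1 ((hsub1 _ a).trans ha)
    ((hsub1 _ b).trans hb) (by rw [one_pow]; exact (hsub1 _ x1).trans hx1) hold hW hsign
  have htp1 : ∑ k, tp k ^ 2 ≤ 1 := by
    rcases htp with ⟨_, h⟩ | ⟨_, h, _⟩
    · rw [h]; exact hx1
    · exact h
  have hs1 := po_s1 (W' := Wt τ m (l + 1)) (old τ m l) a b D x1 tp hσ hW0 hW'0 hold hW (by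
    rcases htp with h | ⟨h1, _, h3⟩
    · left; exact h
    · right
      refine ⟨h1, le_trans (Finset.sum_le_sum_of_subset_of_nonneg ?_
        (fun _ _ _ => sq_nonneg _)) h3⟩
      intro k
      simp only [old, mem_filter, mem_univ, true_and]
      omega)
  obtain ⟨c, hc⟩ : ∃ c : Fin d → ℝ, c = fun k => (a k + b k) / 2 + D k / 2 := ⟨_, rfl⟩
  rw [← hc] at hPc ⊢
  have hzone' : ∑ k ∈ zone τ m l, c k ^ 2 ≤ (1 / 2) * ∑ k ∈ zone τ m l, a k ^ 2 +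
      (1 / 2) * ∑ k ∈ zone τ m l, b k ^ 2 + ψ / (2 * JJ m) + JJ m * E + E / 4 := by
    rw [hc]; exact hzone
  have hoc' : ∑ k ∈ old τ m l, c k ^ 2 ≤ (1 / 2) * ∑ k ∈ old τ m l, a k ^ 2 +
        (1 / 2) * ∑ k ∈ old τ m l, b k ^ 2 + σ / 2 + (RR d m + 1) * Wt τ m l := by
    rw [hc]; exact hoc
  have hs1' : ∑ k ∈ old τ m l, (c k - a k - tp k) ^ 2 ≤
      ((σ + Wt τ m l) / 2 + Wt τ m (l + 1)) ^ 2 := by
    rw [hc]; exact hs1
  have hR' : RichOK τ l c 0 := by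
    intro j
    have := hR j
    rw [hc]
    simpa using this
  clear hzone hoc hs1 hR hsign hold hW
  obtain ⟨N, hNdef⟩ : ∃ N : ℝ, N = if (poNew τ m l).Nonempty then
    ψ / (4 * JJ m) + 12 * JJ m + (1 + JJ m) * E / 2 + 2 else 0 := ⟨_, rfl⟩
  have hN0 : 0 ≤ N := by
    rw [hNdef]; split_ifs
    · positivity
    · exact le_rfl
  have hs2 : ∑ k ∈ poNew τ m l, (c k - a k - tp k) ^ 2 ≤ N ^ 2 := by
    by_cases hne : (poNew τ m l).Nonempty
    · rw [hNdef, if_pos hne]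
      exact po_s2 hm hψ hE0 hPa hPc htp1 hne
    · rw [Finset.not_nonempty_iff_eq_empty] at hne
      rw [hne, Finset.sum_empty]
      exact sq_nonneg _
  have hNle : N ≤ ψ / (4 * JJ m) + (1 + JJ m) * E / 2 +
      (12 * JJ m + 2) * (poNew τ m l).card := by
    rw [hNdef]
    split_ifs with h
    · have : (1 : ℝ) ≤ (poNew τ m l).card := by exact_mod_cast Finset.card_pos.mpr h
      have h2 : (12 * JJ m + 2) * 1 ≤ (12 * JJ m + 2) * (poNew τ m l).card :=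
        mul_le_mul_of_nonneg_left this (by positivity)
      linarith
    · exact po_N hJ36 hψ hE0 (Nat.cast_nonneg _)
  obtain ⟨hra0, hra⟩ := po_rich_step hτ l a hξa hRa
  obtain ⟨hrc0, hrc⟩ := po_rich_step hτ l c le_rfl hR'
  have hea0 : 0 ≤ ∑ k ∈ poCr τ l, a k ^ 2 := Finset.sum_nonneg fun _ _ => sq_nonneg _
  have hec0 : 0 ≤ ∑ k ∈ poCr τ l, c k ^ 2 := Finset.sum_nonneg fun _ _ => sq_nonneg _
  have ePa := po_Psi_succ τ hm l a
  have ePc := po_Psi_succ τ hm l c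
  have eUa : Upot τ (l + 1) a = Upot τ l a + ∑ k ∈ poCr τ l, a k ^ 2 := po_poor_succ τ l _
  have eUc : Upot τ (l + 1) c = Upot τ l c + ∑ k ∈ poCr τ l, c k ^ 2 := po_poor_succ τ l _
  have hza : Upot τ l a = ∑ k ∈ zone τ m l, a k ^ 2 + ∑ k ∈ old τ m l, a k ^ 2 :=
    po_poor τ m l _
  have hzb : Upot τ l b = ∑ k ∈ zone τ m l, b k ^ 2 + ∑ k ∈ old τ m l, b k ^ 2 :=
    po_poor τ m l _
  have hzc : Upot τ l c = ∑ k ∈ zone τ m l, c k ^ 2 + ∑ k ∈ old τ m l, c k ^ 2 :=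
    po_poor τ m l _
  have hUc : Upot τ l c ≤ u + (ψ / (2 * JJ m) + JJ m * E + E / 4 + σ / 2 +
      (RR d m + 1) * Wt τ m l) := by
    rw [hzc]
    rw [hza] at hUa
    rw [hzb] at hUb
    linarith
  rw [zero_add] at hrc0 hrc
  generalize hea : ∑ k ∈ poCr τ l, a k ^ 2 = ea at *
  generalize hec : ∑ k ∈ poCr τ l, c k ^ 2 = ec at *
  have hJ1 : 0 ≤ 1 - 1 / JJ m := by
    have : 1 / JJ m ≤ 1 := by rw [div_le_one hJ]; linarith
    linarith
  have hG0 : 0 ≤ ψ / (2 * JJ m) + JJ m * E + E / 4 + σ / 2 + (RR d m + 1) * Wt τ m l := by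
    positivity
  refine ⟨ξa + Ch d * (poCr τ l).card - ea, Ch d * (poCr τ l).card - ec,
    u + (ψ / (2 * JJ m) + JJ m * E + E / 4 + σ / 2 + (RR d m + 1) * Wt τ m l) + ea + ec,
    (1 - 1 / JJ m) * ψ + (1 + JJ m) / 4 * E + ea + ec,
    (σ + Wt τ m l) / 2 + Wt τ m (l + 1) + N,
    hra0, hrc0, by positivity, by positivity, hra, hrc, ?_, ?_, ?_, ?_, ?_, ?_⟩
  · rw [eUa]; linarith
  · rw [eUc]; linarith
  · refine ePa.trans ?_
    have hX : Psi τ m l a ≤ (1 + 1 / JJ m) * ψ + (1 + JJ m) / 4 * E := by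
      have h1 : 0 ≤ 1 / JJ m * ψ := by positivity
      have h2 : 0 ≤ (1 + JJ m) / 4 * E := by positivity
      linarith
    have := po_Psi_new (e := ea) hJ36 g0 g1 g2 hψ hE0 hX
    linarith
  · refine ePc.trans ?_
    have := po_Psi_new (e := ec) hJ36 g0 g1 g2 hψ hE0 hPc
    linarith
  · rw [po_old_succ τ m hm]
    have h1 : ((σ + Wt τ m l) / 2 + Wt τ m (l + 1)) ^ 2 + N ^ 2 ≤
        ((σ + Wt τ m l) / 2 + Wt τ m (l + 1) + N) ^ 2 := by
      have : 0 ≤ ((σ + Wt τ m l) / 2 + Wt τ m (l + 1)) * N := by positivity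
      have e : ((σ + Wt τ m l) / 2 + Wt τ m (l + 1) + N) ^ 2 =
        ((σ + Wt τ m l) / 2 + Wt τ m (l + 1)) ^ 2 + N ^ 2 +
          2 * (((σ + Wt τ m l) / 2 + Wt τ m (l + 1)) * N) := by ring
      rw [e]
      linarith
    linarith
  · rw [po_bud]
    exact po_final hJ36 hψ hE0 hW0 hW'0 hRR hξb hZ hNle hsum

/-- `Pos` is symmetric under reflection -/
theorem Pos.reflect {d m : ℕ} {τ : Fin d → ℕ} {l : ℕ} {a b tp : Fin d → ℝ} {P : ℝ}
    (hP : Pos τ m l a b tp P) :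
    Pos τ m l (fun k => - b k) (fun k => - a k) tp P := by
  obtain ⟨ξa, ξb, u, ψ, σ, hξa, hξb, hψ, hσ, hRa, hRb, hUa, hUb, hPa, hPb, hold, hsum⟩ := hP
  refine ⟨ξb, ξa, u, ψ, σ, hξb, hξa, hψ, hσ, ?_, ?_, ?_, ?_, ?_, ?_, ?_, by linarith⟩
  · intro j; simpa using hRb j
  · intro j; simpa using hRa j
  · simpa [Upot] using hUb
  · simpa [Upot] using hUa
  · simpa [Psi] using hPb
  · simpa [Psi] using hPa
  · refine le_trans (le_of_eq ?_) hold
    refine Finset.sum_congr rfl fun k _ => ?_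
    ring

/-- update of the potential, for the child on the side of the endpoint `b` -/
theorem pos_update' {d m : ℕ} (hG : Good d m) {τ : Fin d → ℕ} (hτ : Monotone τ) {l : ℕ}
    {a b x1 D tp : Fin d → ℝ} {P : ℝ} {τ1 : ℝ} (hτ1 : τ1 = 1 ∨ τ1 = -1)
    (hP : Pos τ m l a b x1 P)
    (hW : ∑ k ∈ old τ m l, (D k - τ1 * x1 k) ^ 2 ≤ Wt τ m l ^ 2)
    (hsign : τ1 * ∑ k ∈ old τ m l, ((a k + b k) / 2) * x1 k ≤ 0)
    (hZ : ∑ k ∈ zone τ m l, D k ^ 2 ≤ 111 * T0 d * (zone τ m l).card)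
    (hR : ∀ j, ∑ k ∈ (rich τ l).filter (· ≤ j), ((a k + b k) / 2 + D k / 2) ^ 2
      ≤ Ch d * ((rich τ l).filter (· ≤ j)).card)
    (ha : ∑ k, a k ^ 2 ≤ RR d m ^ 2) (hb : ∑ k, b k ^ 2 ≤ RR d m ^ 2) (hx1 : ∑ k, x1 k ^ 2 ≤ 1)
    (htp : (τ1 = -1 ∧ tp = x1) ∨
      (τ1 = 1 ∧ ∑ k, tp k ^ 2 ≤ 1 ∧ ∑ k ∈ old τ m (l + 1), tp k ^ 2 ≤ Wt τ m (l + 1) ^ 2)) :
    Pos τ m (l + 1) (fun k => (a k + b k) / 2 + D k / 2) b tp (P + bud τ m l) := by
  have h := pos_update hG hτ (a := fun k => - b k) (b := fun k => - a k) (x1 := x1)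
    (D := fun k => - D k) (tp := tp) (τ1 := -τ1) (P := P) (l := l)
    (by rcases hτ1 with h | h
        · right; rw [h]
        · left; rw [h]; norm_num) hP.reflect
    (by
      refine le_trans (le_of_eq ?_) hW
      refine Finset.sum_congr rfl fun k _ => ?_
      ring)
    (by
      refine le_trans (le_of_eq ?_) hsign
      rw [neg_mul, ← mul_neg, ← Finset.sum_neg_distrib]
      congr 1
      refine Finset.sum_congr rfl fun k _ => ?_
      ring)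
    (by simpa using hZ)
    (by
      intro j
      refine le_trans (le_of_eq ?_) (hR j)
      refine Finset.sum_congr rfl fun k _ => ?_
      ring)
    (by simpa using hb) (by simpa using ha) hx1
    (by
      rcases htp with ⟨h1, h2⟩ | ⟨h1, h2⟩
      · left; exact ⟨by rw [h1]; norm_num, h2⟩
      · right; exact ⟨by rw [h1], h2⟩)
  have h2 := h.reflect
  have e1 : (fun k => - ((- b k + - a k) / 2 + - D k / 2)) =
      fun k => (a k + b k) / 2 + D k / 2 := by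
    funext k; ring
  have e2 : (fun k => - - b k) = b := by funext k; ring
  rw [e1, e2] at h2
  exact h2

/-- the potential controls the endpoints -/
theorem Pos.bound {d m : ℕ} (hG : Good d m) {τ : Fin d → ℕ} {l : ℕ} {a b tp : Fin d → ℝ}
    (hP : Pos τ m l a b tp (Bud τ m l)) :
    ∑ k, a k ^ 2 ≤ RR d m ^ 2 ∧ ∑ k, b k ^ 2 ≤ RR d m ^ 2 := by
  obtain ⟨ξa, ξb, u, ψ, σ, hξa, hξb, hψ, hσ, hRa, hRb, hUa, hUb, hPa, hPb, hold, hsum⟩ := hP
  have hbud := Bud_le hG τ l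
  have hd := hG.hd
  have hCh := po_Ch_nonneg d
  have key : ∀ (f : Fin d → ℝ) (ξ : ℝ), RichOK τ l f ξ → ∑ k ∈ rich τ l, f k ^ 2 ≤ ξ + Ch d * d := by
    intro f ξ hf
    have h := hf ⟨d - 1, by omega⟩
    have e : (rich τ l).filter (· ≤ (⟨d - 1, by omega⟩ : Fin d)) = rich τ l := by
      apply Finset.filter_true_of_mem
      intro k _
      rw [Fin.le_def]
      have := k.isLt
      simp only
      omega
    rw [e] at h
    have h2 : ((rich τ l).card : ℝ) ≤ d := by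
      have : (rich τ l).card ≤ Fintype.card (Fin d) := Finset.card_le_univ _
      rw [Fintype.card_fin] at this
      exact_mod_cast this
    have := mul_le_mul_of_nonneg_left h2 hCh
    linarith
  constructor
  · rw [po_rich_poor τ l (fun k => a k ^ 2)]
    have h1 := key a ξa hRa
    have h2 : ∑ k ∈ poor τ l, a k ^ 2 ≤ u := hUa
    linarith
  · rw [po_rich_poor τ l (fun k => b k ^ 2)]
    have h1 := key b ξb hRb
    have h2 : ∑ k ∈ poor τ l, b k ^ 2 ≤ u := hUb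
    linarith

end Vale.Agent.P262
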