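import Vale.Agent.P262.Full.Defs
import Vale.Agent.P262.Full.Gs

namespace Vale.Agent.P262

open Finset

/-- harmonic sum over ranks -/
lemma rd_rank {d : ℕ} (Rs : Finset (Fin d)) :
    ∑ k ∈ Rs, (1:ℝ) / (Rs.filter (· ≤ k)).card ≤ ∑ k ∈ range d, (1:ℝ) / (k + 1) := by
  classical
  have hpos : ∀ k ∈ Rs, 0 < (Rs.filter (· ≤ k)).card := fun k hk =>
    card_pos.mpr ⟨k, mem_filter.mpr ⟨hk, le_rfl⟩⟩
  have hlt : ∀ a ∈ Rs, ∀ b ∈ Rs, a < b →
      (Rs.filter (· ≤ a)).card < (Rs.filter (· ≤ b)).card := by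
    intro a _ b hb hab
    apply card_lt_card
    rw [Finset.ssubset_iff_of_subset]
    · exact ⟨b, mem_filter.mpr ⟨hb, le_rfl⟩, fun h => absurd (mem_filter.mp h).2 (not_le.mpr hab)⟩
    · intro k hk
      rw [mem_filter] at hk ⊢
      exact ⟨hk.1, hk.2.trans hab.le⟩
  have hinj : Set.InjOn (fun k => (Rs.filter (· ≤ k)).card - 1) (Rs : Set (Fin d)) := by
    intro a ha b hb hab
    have ha' := hpos a ha
    have hb' := hpos b hb
    have hab' : (Rs.filter (· ≤ a)).card - 1 = (Rs.filter (· ≤ b)).card - 1 := hab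
    by_contra hne
    rcases lt_or_gt_of_ne hne with h | h
    · have := hlt a ha b hb h
      omega
    · have := hlt b hb a ha h
      omega
  have h1 : ∑ k ∈ Rs, (1:ℝ) / (Rs.filter (· ≤ k)).card =
      ∑ r ∈ Rs.image (fun k => (Rs.filter (· ≤ k)).card - 1), (1:ℝ) / (r + 1) := by
    rw [sum_image hinj]
    refine sum_congr rfl fun k hk => ?_
    have h2 := hpos k hk
    congr 1
    rw [Nat.cast_sub (by omega)]
    push_cast
    ring
  rw [h1]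
  refine sum_le_sum_of_subset_of_nonneg ?_ fun r _ _ => by positivity
  intro r hr
  rw [mem_image] at hr
  obtain ⟨k, hk, rfl⟩ := hr
  rw [mem_range]
  have h2 := hpos k hk
  have h3 : (Rs.filter (· ≤ k)).card ≤ d := by
    calc (Rs.filter (· ≤ k)).card ≤ (univ : Finset (Fin d)).card := card_le_card (subset_univ _)
      _ = d := by simp
  omega

lemma rd_T0 (d : ℕ) : 3 ≤ T0 d := by
  unfold T0
  have : (0:ℝ) ≤ ∑ k ∈ range d, (1:ℝ) / (k + 1) := sum_nonneg fun k _ => by positivity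
  linarith

/-- splitting a sum over `F` -/
lemma rd_split {ι : Type} [DecidableEq ι] {F : Finset ι} {top : ι} (P : Pairing F top)
    (g : ι → ℝ) : ∑ i ∈ F, g i = ∑ j, g (P.p j) + ∑ j, g (P.q j) + ∑ i ∈ P.Fr, g i := by
  have hsub : univ.image P.p ∪ univ.image P.q ⊆ F := by
    intro i hi
    rw [mem_union, mem_image, mem_image] at hi
    rcases hi with ⟨j, _, rfl⟩ | ⟨j, _, rfl⟩
    · exact P.mem_p j
    · exact P.mem_q j
  have hdis : Disjoint (univ.image P.p) (univ.image P.q) := by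
    rw [Finset.disjoint_left]
    intro i hi hi'
    rw [mem_image] at hi hi'
    obtain ⟨j, _, rfl⟩ := hi
    obtain ⟨j', _, h⟩ := hi'
    exact P.disj j j' h.symm
  rw [← sum_sdiff hsub, sum_union hdis, sum_image (fun a _ b _ h => P.inj_p h),
    sum_image (fun a _ b _ h => P.inj_q h)]
  unfold Pairing.Fr
  ring

/-- the rounding error functional in terms of the walk -/
def rdR {ι : Type} [DecidableEq ι] {F : Finset ι} {top : ι} (P : Pairing F top)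
    (ε : Fin (P.n + 1) ⊕ ι → ℝ) (x f : ι → ℝ) : ℝ :=
  ∑ j ∈ univ.erase 0, ε (Sum.inl j) * (f (P.p j) - f (P.q j)) +
    ∑ i ∈ P.Fr, (ε (Sum.inr i) - x i) * f i

open Classical in
/-- the signs -/
noncomputable def rdS {ι : Type} [DecidableEq ι] {F : Finset ι} {top : ι} (P : Pairing F top)
    (ε : Fin (P.n + 1) ⊕ ι → ℝ) (τ1 : ℝ) (i : ι) : ℝ :=
  if h : ∃ j, P.p j = i then (if h.choose = 0 then τ1 else ε (Sum.inl h.choose))
  else if h : ∃ j, P.q j = i then -(if h.choose = 0 then τ1 else ε (Sum.inl h.choose))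
  else ε (Sum.inr i)

section
variable {ι : Type} [DecidableEq ι] {F : Finset ι} {top : ι} (P : Pairing F top)
    (ε : Fin (P.n + 1) ⊕ ι → ℝ) (τ1 : ℝ)

lemma rdS_p (j : Fin (P.n + 1)) :
    rdS P ε τ1 (P.p j) = if j = 0 then τ1 else ε (Sum.inl j) := by
  have h : ∃ j', P.p j' = P.p j := ⟨j, rfl⟩
  unfold rdS
  rw [dif_pos h, P.inj_p h.choose_spec]

lemma rdS_q (j : Fin (P.n + 1)) :
    rdS P ε τ1 (P.q j) = -(if j = 0 then τ1 else ε (Sum.inl j)) := by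
  have h : ∃ j', P.q j' = P.q j := ⟨j, rfl⟩
  have h' : ¬ ∃ j', P.p j' = P.q j := fun ⟨j', h⟩ => P.disj j' j h
  unfold rdS
  rw [dif_neg h', dif_pos h, P.inj_q h.choose_spec]

lemma rdS_Fr (i : ι) (hi : i ∈ P.Fr) : rdS P ε τ1 i = ε (Sum.inr i) := by
  unfold Pairing.Fr at hi
  rw [mem_sdiff, mem_union, mem_image, mem_image] at hi
  have h1 : ¬ ∃ j, P.p j = i := fun ⟨j, h⟩ => hi.2 (Or.inl ⟨j, mem_univ _, h⟩)
  have h2 : ¬ ∃ j, P.q j = i := fun ⟨j, h⟩ => hi.2 (Or.inr ⟨j, mem_univ _, h⟩)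
  unfold rdS
  rw [dif_neg h1, dif_neg h2]

lemma rdS_sign (hε : ∀ z, ε z = 1 ∨ ε z = -1) (hτ1 : τ1 = 1 ∨ τ1 = -1) (i : ι) :
    rdS P ε τ1 i = 1 ∨ rdS P ε τ1 i = -1 := by
  have h0 : ∀ j : Fin (P.n + 1), (if j = 0 then τ1 else ε (Sum.inl j)) = 1 ∨
      (if j = 0 then τ1 else ε (Sum.inl j)) = -1 := by
    intro j
    split_ifs
    · exact hτ1
    · exact hε _
  unfold rdS
  split_ifs with h1 h2 h3 h4
  · exact hτ1
  · exact hε _
  · rcases hτ1 with h | h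
    · right; rw [h]
    · left; rw [h]; norm_num
  · rcases hε (Sum.inl h3.choose) with h | h
    · right; rw [h]
    · left; rw [h]; norm_num
  · exact hε _

lemma rdS_top : rdS P ε τ1 top = τ1 := by
  have h := congrArg (rdS P ε τ1) P.p_zero
  rw [← h, rdS_p, if_pos rfl]

lemma rf_eq (x f : ι → ℝ) : rf P (rdS P ε τ1) x f = rdR P ε x f := by
  unfold rf rdR
  rw [rd_split P (fun i => rdS P ε τ1 i * f i)]
  have hp : ∑ j, rdS P ε τ1 (P.p j) * f (P.p j) =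
      τ1 * f (P.p 0) + ∑ j ∈ univ.erase 0, ε (Sum.inl j) * f (P.p j) := by
    rw [← add_sum_erase univ _ (mem_univ (0 : Fin (P.n + 1)))]
    congr 1
    · rw [rdS_p, if_pos rfl]
    · refine sum_congr rfl fun j hj => ?_
      rw [rdS_p, if_neg (ne_of_mem_erase hj)]
  have hq : ∑ j, rdS P ε τ1 (P.q j) * f (P.q j) =
      -(τ1 * f (P.q 0)) + ∑ j ∈ univ.erase 0, -(ε (Sum.inl j) * f (P.q j)) := by
    rw [← add_sum_erase univ _ (mem_univ (0 : Fin (P.n + 1)))]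
    congr 1
    · rw [rdS_q, if_pos rfl]; ring
    · refine sum_congr rfl fun j hj => ?_
      rw [rdS_q, if_neg (ne_of_mem_erase hj)]; ring
  have hF : ∑ i ∈ P.Fr, rdS P ε τ1 i * f i = ∑ i ∈ P.Fr, ε (Sum.inr i) * f i :=
    sum_congr rfl fun i hi => by rw [rdS_Fr P ε τ1 i hi]
  have htop : rdS P ε τ1 top = τ1 := rdS_top P ε τ1
  rw [hp, hq, hF, htop, sum_neg_distrib]
  simp only [mul_sub, sub_mul, sum_sub_distrib]
  rw [P.p_zero]
  ring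

lemma rdR_sum {κ : Type*} (s : Finset κ) (x : ι → ℝ) (g : κ → ι → ℝ) (c : κ → ℝ) :
    rdR P ε x (fun i => ∑ k ∈ s, c k * g k i) = ∑ k ∈ s, c k * rdR P ε x (g k) := by
  unfold rdR
  simp only [mul_add, mul_sum, sum_add_distrib]
  congr 1
  · rw [sum_comm]
    refine sum_congr rfl fun j _ => ?_
    rw [← sum_sub_distrib, mul_sum]
    exact sum_congr rfl fun k _ => by ring
  · rw [sum_comm]
    refine sum_congr rfl fun j _ => ?_
    exact sum_congr rfl fun k _ => by ring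

end

/-- the coordinates -/
noncomputable def rdC {d : ℕ} (om : Fin d → ℝ) (B : ℝ) :
    Fin d ⊕ ((Fin d × Fin d) ⊕ Fin d) → (Fin d → ℝ) → ℝ :=
  Sum.elim (fun k a => a k / 4) (Sum.elim (fun kk a => a kk.1 * a kk.2 / 4)
      (fun k a => Real.sqrt (om k) * a k / (4 * Real.sqrt B)))

lemma rd_cn {d : ℕ} (om : Fin d → ℝ) (hom : ∀ k, 0 ≤ om k) (B : ℝ) (hB : 0 < B)
    (a b : Fin d → ℝ) (ha : ∑ k, a k ^ 2 ≤ 1) (hb : ∑ k, b k ^ 2 ≤ 1)
    (hta : ∑ k, om k * a k ^ 2 ≤ B) (htb : ∑ k, om k * b k ^ 2 ≤ B) :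
    ∑ κ, (rdC om B κ a - rdC om B κ b) ^ 2 ≤ 3 / 4 := by
  rw [Fintype.sum_sum_type, Fintype.sum_sum_type]
  have b1 : ∑ k, (rdC om B (Sum.inl k) a - rdC om B (Sum.inl k) b) ^ 2 ≤ 1 / 4 := by
    have e : ∀ k, (rdC om B (Sum.inl k) a - rdC om B (Sum.inl k) b) ^ 2 ≤
        (1 / 8) * a k ^ 2 + (1 / 8) * b k ^ 2 := by
      intro k
      show (a k / 4 - b k / 4) ^ 2 ≤ _
      nlinarith [sq_nonneg (a k + b k)]
    refine (sum_le_sum fun k _ => e k).trans ?_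
    rw [sum_add_distrib, ← mul_sum, ← mul_sum]
    linarith
  have b2 : ∑ kk, (rdC om B (Sum.inr (Sum.inl kk)) a - rdC om B (Sum.inr (Sum.inl kk)) b) ^ 2 ≤
      1 / 4 := by
    have e : ∀ kk : Fin d × Fin d, (rdC om B (Sum.inr (Sum.inl kk)) a -
        rdC om B (Sum.inr (Sum.inl kk)) b) ^ 2 ≤
        (1 / 8) * (a kk.1 ^ 2 * a kk.2 ^ 2) + (1 / 8) * (b kk.1 ^ 2 * b kk.2 ^ 2) := by
      intro kk
      show (a kk.1 * a kk.2 / 4 - b kk.1 * b kk.2 / 4) ^ 2 ≤ _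
      nlinarith [sq_nonneg (a kk.1 * a kk.2 + b kk.1 * b kk.2)]
    refine (sum_le_sum fun k _ => e k).trans ?_
    rw [sum_add_distrib, ← mul_sum, ← mul_sum, Fintype.sum_prod_type, Fintype.sum_prod_type]
    simp only [← mul_sum, ← sum_mul]
    have n1 : 0 ≤ ∑ k, a k ^ 2 := sum_nonneg fun k _ => sq_nonneg _
    have n2 : 0 ≤ ∑ k, b k ^ 2 := sum_nonneg fun k _ => sq_nonneg _
    have m1 := mul_le_mul ha ha n1 zero_le_one
    have m2 := mul_le_mul hb hb n2 zero_le_one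
    linarith
  have b3 : ∑ k, (rdC om B (Sum.inr (Sum.inr k)) a - rdC om B (Sum.inr (Sum.inr k)) b) ^ 2 ≤
      1 / 4 := by
    have hsB : Real.sqrt B ^ 2 = B := Real.sq_sqrt hB.le
    have hsB0 : 0 < Real.sqrt B := Real.sqrt_pos.mpr hB
    have e : ∀ k, (rdC om B (Sum.inr (Sum.inr k)) a - rdC om B (Sum.inr (Sum.inr k)) b) ^ 2 ≤
        (1 / (8 * B)) * (om k * a k ^ 2) + (1 / (8 * B)) * (om k * b k ^ 2) := by
      intro k
      have hso : Real.sqrt (om k) ^ 2 = om k := Real.sq_sqrt (hom k)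
      have e0 : (rdC om B (Sum.inr (Sum.inr k)) a - rdC om B (Sum.inr (Sum.inr k)) b) ^ 2 =
          (om k * (a k - b k) ^ 2) / (16 * B) := by
        show (Real.sqrt (om k) * a k / (4 * Real.sqrt B) -
          Real.sqrt (om k) * b k / (4 * Real.sqrt B)) ^ 2 = _
        rw [← sub_div, ← mul_sub, div_pow, mul_pow, mul_pow, hso, hsB]
        norm_num
      rw [e0, div_le_iff₀ (by positivity)]
      have e1 : ((1 / (8 * B)) * (om k * a k ^ 2) + (1 / (8 * B)) * (om k * b k ^ 2)) *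
          (16 * B) = om k * (2 * a k ^ 2 + 2 * b k ^ 2) := by
        field_simp
        ring
      rw [e1]
      exact mul_le_mul_of_nonneg_left (by nlinarith [sq_nonneg (a k + b k)]) (hom k)
    refine (sum_le_sum fun k _ => e k).trans ?_
    rw [sum_add_distrib, ← mul_sum, ← mul_sum, ← mul_add, one_div_mul_eq_div,
      div_le_iff₀ (by positivity)]
    linarith
  linarith

lemma rd_cn1 {d : ℕ} (om : Fin d → ℝ) (hom : ∀ k, 0 ≤ om k) (B : ℝ) (hB : 0 < B)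
    (a : Fin d → ℝ) (ha : ∑ k, a k ^ 2 ≤ 1)
    (hta : ∑ k, om k * a k ^ 2 ≤ B) :
    ∑ κ, (rdC om B κ a) ^ 2 ≤ 3 / 16 := by
  rw [Fintype.sum_sum_type, Fintype.sum_sum_type]
  have b1 : ∑ k, (rdC om B (Sum.inl k) a) ^ 2 ≤ 1 / 16 := by
    have e : ∀ k, (rdC om B (Sum.inl k) a) ^ 2 = (1 / 16) * a k ^ 2 := by
      intro k
      show (a k / 4) ^ 2 = _
      ring
    rw [sum_congr rfl (fun k _ => e k), ← mul_sum]
    linarith
  have b2 : ∑ kk, (rdC om B (Sum.inr (Sum.inl kk)) a) ^ 2 ≤ 1 / 16 := by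
    have e : ∀ kk : Fin d × Fin d, (rdC om B (Sum.inr (Sum.inl kk)) a) ^ 2 =
        (1 / 16) * (a kk.1 ^ 2 * a kk.2 ^ 2) := by
      intro kk
      show (a kk.1 * a kk.2 / 4) ^ 2 = _
      ring
    rw [sum_congr rfl (fun k _ => e k), ← mul_sum, Fintype.sum_prod_type]
    simp only [← mul_sum, ← sum_mul]
    have n1 : 0 ≤ ∑ k, a k ^ 2 := sum_nonneg fun k _ => sq_nonneg _
    have m1 := mul_le_mul ha ha n1 zero_le_one
    linarith
  have b3 : ∑ k, (rdC om B (Sum.inr (Sum.inr k)) a) ^ 2 ≤ 1 / 16 := by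
    have hsB : Real.sqrt B ^ 2 = B := Real.sq_sqrt hB.le
    have e : ∀ k, (rdC om B (Sum.inr (Sum.inr k)) a) ^ 2 = (1 / (16 * B)) * (om k * a k ^ 2) := by
      intro k
      have hso : Real.sqrt (om k) ^ 2 = om k := Real.sq_sqrt (hom k)
      show (Real.sqrt (om k) * a k / (4 * Real.sqrt B)) ^ 2 = _
      rw [div_pow, mul_pow, mul_pow, hso, hsB]
      ring
    rw [sum_congr rfl (fun k _ => e k), ← mul_sum, one_div_mul_eq_div,
      div_le_iff₀ (by positivity)]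
    linarith
  linarith

/-- the weights of the first block -/
noncomputable def rdW {d : ℕ} (Zs Rs : Finset (Fin d)) (k : Fin d) : ℝ :=
  (if k ∈ Zs then 1 / (Zs.card : ℝ) else 0) +
    (if k ∈ Rs then 1 / ((Rs.filter (· ≤ k)).card : ℝ) else 0)

lemma rdW_nonneg {d : ℕ} (Zs Rs : Finset (Fin d)) (k : Fin d) : 0 ≤ rdW Zs Rs k := by
  unfold rdW
  have a1 : (0:ℝ) ≤ (if k ∈ Zs then 1 / (Zs.card : ℝ) else 0) := by
    split_ifs <;> positivity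
  have a2 : (0:ℝ) ≤ (if k ∈ Rs then 1 / ((Rs.filter (· ≤ k)).card : ℝ) else 0) := by
    split_ifs <;> positivity
  linarith

lemma rdW_sum {d : ℕ} (Zs Rs : Finset (Fin d)) : ∑ k, rdW Zs Rs k ≤ 1 + (T0 d - 3) := by
  have e : ∑ k, rdW Zs Rs k = ∑ k ∈ Zs, 1 / (Zs.card : ℝ) +
      ∑ k ∈ Rs, 1 / ((Rs.filter (· ≤ k)).card : ℝ) := by
    unfold rdW
    rw [sum_add_distrib, sum_ite_mem, univ_inter, sum_ite_mem, univ_inter]
  rw [e]
  have h1 : ∑ k ∈ Zs, 1 / (Zs.card : ℝ) ≤ 1 := by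
    rw [sum_const, nsmul_eq_mul]
    rcases Nat.eq_zero_or_pos Zs.card with h | h
    · rw [h]; simp
    · have : (0:ℝ) < Zs.card := by exact_mod_cast h
      rw [mul_one_div, div_self this.ne']
  have h2 := rd_rank Rs
  unfold T0
  linarith

lemma rd_prefix {d : ℕ} (Zs Rs : Finset (Fin d)) (R : Fin d → ℝ) (T : ℝ)
    (h : ∑ k, rdW Zs Rs k * R k ^ 2 ≤ T) (j : Fin d) :
    ∑ k ∈ Rs.filter (· ≤ j), R k ^ 2 ≤ T * (Rs.filter (· ≤ j)).card := by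
  rcases Nat.eq_zero_or_pos (Rs.filter (· ≤ j)).card with h0 | h0
  · rw [card_eq_zero] at h0
    rw [h0]
    simp
  · have hc : (0:ℝ) < (Rs.filter (· ≤ j)).card := by exact_mod_cast h0
    have h1 : ∑ k ∈ Rs.filter (· ≤ j), (1 / ((Rs.filter (· ≤ j)).card : ℝ)) * R k ^ 2 ≤ T := by
      refine le_trans (le_trans (sum_le_sum fun k hk => ?_)
        (sum_le_sum_of_subset_of_nonneg (subset_univ (Rs.filter (· ≤ j)))
          fun k _ _ => mul_nonneg (rdW_nonneg Zs Rs k) (sq_nonneg _))) h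
      refine mul_le_mul_of_nonneg_right ?_ (sq_nonneg _)
      rw [mem_filter] at hk
      unfold rdW
      rw [if_pos hk.1]
      have h2 : (Rs.filter (· ≤ k)).card ≤ (Rs.filter (· ≤ j)).card := by
        apply card_le_card
        intro k' hk'
        rw [mem_filter] at hk' ⊢
        exact ⟨hk'.1, hk'.2.trans hk.2⟩
      have h3 : 0 < (Rs.filter (· ≤ k)).card :=
        card_pos.mpr ⟨k, mem_filter.mpr ⟨hk.1, le_rfl⟩⟩
      have h4 : 1 / ((Rs.filter (· ≤ j)).card : ℝ) ≤ 1 / ((Rs.filter (· ≤ k)).card : ℝ) :=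
        one_div_le_one_div_of_le (by exact_mod_cast h3) (by exact_mod_cast h2)
      have h5 : (0:ℝ) ≤ (if k ∈ Zs then 1 / (Zs.card : ℝ) else 0) := by
        split_ifs <;> positivity
      linarith
    rw [← mul_sum, one_div_mul_eq_div, div_le_iff₀ hc] at h1
    exact h1

lemma rd_zone {d : ℕ} (Zs Rs : Finset (Fin d)) (R : Fin d → ℝ) (T : ℝ)
    (h : ∑ k, rdW Zs Rs k * R k ^ 2 ≤ T) :
    ∑ k ∈ Zs, R k ^ 2 ≤ T * Zs.card := by
  rcases Nat.eq_zero_or_pos Zs.card with h0 | h0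
  · rw [card_eq_zero] at h0
    rw [h0]
    simp
  · have hc : (0:ℝ) < Zs.card := by exact_mod_cast h0
    have h1 : ∑ k ∈ Zs, (1 / (Zs.card : ℝ)) * R k ^ 2 ≤ T := by
      refine le_trans (le_trans (sum_le_sum fun k hk => ?_)
        (sum_le_sum_of_subset_of_nonneg (subset_univ Zs)
          fun k _ _ => mul_nonneg (rdW_nonneg Zs Rs k) (sq_nonneg _))) h
      refine mul_le_mul_of_nonneg_right ?_ (sq_nonneg _)
      unfold rdW
      rw [if_pos hk]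
      have h5 : (0:ℝ) ≤ (if k ∈ Rs then 1 / ((Rs.filter (· ≤ k)).card : ℝ) else 0) := by
        split_ifs <;> positivity
      linarith
    rw [← mul_sum, one_div_mul_eq_div, div_le_iff₀ hc] at h1
    exact h1

lemma rd_quad {d : ℕ} (u : Fin d → ℝ) (Q : Fin d × Fin d → ℝ) (T : ℝ) (hT : 3 ≤ T)
    (hQ : ∑ kk, Q kk ^ 2 ≤ 32 * T * (d:ℝ) ^ 2) :
    |∑ kk : Fin d × Fin d, (u kk.1 * u kk.2) * Q kk| ≤ 6 * d * T * ∑ k, u k ^ 2 := by
  have hCS := sum_mul_sq_le_sq_mul_sq (univ : Finset (Fin d × Fin d))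
    (fun kk => u kk.1 * u kk.2) Q
  have e2 : ∑ kk : Fin d × Fin d, (u kk.1 * u kk.2) ^ 2 = (∑ k, u k ^ 2) ^ 2 := by
    rw [sq (∑ k, u k ^ 2), sum_mul_sum, Fintype.sum_prod_type]
    exact sum_congr rfl fun k _ => sum_congr rfl fun k' _ => by ring
  rw [e2] at hCS
  have hu0 : 0 ≤ ∑ k, u k ^ 2 := sum_nonneg fun k _ => sq_nonneg _
  refine abs_le_of_sq_le_sq ?_ (by positivity)
  refine hCS.trans ?_
  have h3 := mul_le_mul_of_nonneg_left hQ (sq_nonneg (∑ k, u k ^ 2))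
  refine h3.trans ?_
  have h4 : (6 * d * T * ∑ k, u k ^ 2) ^ 2 =
      (∑ k, u k ^ 2) ^ 2 * ((d:ℝ) ^ 2 * (36 * T ^ 2)) := by ring
  rw [h4]
  refine mul_le_mul_of_nonneg_left ?_ (sq_nonneg _)
  have h5 : 32 * T ≤ 36 * T ^ 2 := by nlinarith
  have h6 := mul_le_mul_of_nonneg_right h5 (sq_nonneg (d:ℝ))
  linarith

section
variable {ι : Type} [DecidableEq ι] {F : Finset ι} {top : ι} (P : Pairing F top)

lemma rd_Fr_mem (i : ι) (hi : i ∈ P.Fr) : i ∈ F.erase top := by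
  unfold Pairing.Fr at hi
  rw [mem_sdiff, mem_union, mem_image, mem_image] at hi
  refine mem_erase.mpr ⟨fun h => hi.2 (Or.inl ⟨0, mem_univ _, ?_⟩), hi.1⟩
  rw [P.p_zero, h]

lemma rd_p_mem (j : Fin (P.n + 1)) (hj : j ≠ 0) : P.p j ∈ F.erase top :=
  mem_erase.mpr ⟨fun h => hj (P.inj_p (by rw [h, P.p_zero])), P.mem_p j⟩

lemma rd_q_mem (j : Fin (P.n + 1)) : P.q j ∈ F.erase top :=
  mem_erase.mpr ⟨fun h => P.disj 0 j (by rw [h, P.p_zero]), P.mem_q j⟩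

/-- the vectors of the walk -/
noncomputable def rdU {d : ℕ} (v : ι → Fin d → ℝ) (om : Fin d → ℝ) (B tst : ℝ) :
    Fin (P.n + 1) ⊕ ι → (Fin d ⊕ ((Fin d × Fin d) ⊕ Fin d)) ⊕ Unit → ℝ :=
  Sum.elim
    (fun j => Sum.elim (fun κ => rdC om B κ (v (P.p j)) - rdC om B κ (v (P.q j))) (fun _ => 0))
    (fun i => Sum.elim (fun κ => rdC om B κ (v i))
      (fun _ => (∑ k, om k * v i k ^ 2) / (2 * tst)))

/-- the weights of the walk -/
noncomputable def rdWW {d : ℕ} (Zs Rs : Finset (Fin d)) :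
    (Fin d ⊕ ((Fin d × Fin d) ⊕ Fin d)) ⊕ Unit → ℝ :=
  Sum.elim (Sum.elim (rdW Zs Rs) (Sum.elim (fun _ => 1 / (d:ℝ) ^ 2) (fun _ => 1 / (d:ℝ))))
      (fun _ => T0 d)

lemma rdWW_nonneg {d : ℕ} (Zs Rs : Finset (Fin d)) (κ) : 0 ≤ rdWW Zs Rs κ := by
  rcases κ with ((k | (kk | k)) | u)
  · exact rdW_nonneg Zs Rs k
  · show (0:ℝ) ≤ 1 / (d:ℝ) ^ 2
    positivity
  · show (0:ℝ) ≤ 1 / (d:ℝ)
    positivity
  · show (0:ℝ) ≤ T0 d
    linarith [rd_T0 d]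

lemma rdWW_sum {d : ℕ} (hd : 1 ≤ d) (Zs Rs : Finset (Fin d)) :
    ∑ κ, rdWW Zs Rs κ ≤ 2 * T0 d := by
  have hd' : (0:ℝ) < d := by exact_mod_cast hd
  have hwa := rdW_sum Zs Rs
  rw [Fintype.sum_sum_type, Fintype.sum_sum_type, Fintype.sum_sum_type]
  have e1 : ∑ k, rdWW Zs Rs (Sum.inl (Sum.inl k)) = ∑ k, rdW Zs Rs k := rfl
  have e2 : ∑ kk, rdWW Zs Rs (Sum.inl (Sum.inr (Sum.inl kk))) = 1 := by
    have : ∑ kk : Fin d × Fin d, rdWW Zs Rs (Sum.inl (Sum.inr (Sum.inl kk))) =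
        ∑ _kk : Fin d × Fin d, 1 / (d:ℝ) ^ 2 := rfl
    rw [this, sum_const, nsmul_eq_mul, card_univ, Fintype.card_prod, Fintype.card_fin]
    push_cast
    field_simp
  have e3 : ∑ k, rdWW Zs Rs (Sum.inl (Sum.inr (Sum.inr k))) = 1 := by
    have : ∑ k : Fin d, rdWW Zs Rs (Sum.inl (Sum.inr (Sum.inr k))) =
      ∑ _k : Fin d, 1 / (d:ℝ) := rfl
    rw [this, sum_const, nsmul_eq_mul, card_univ, Fintype.card_fin]
    field_simp
  have e4 : ∑ k, rdWW Zs Rs (Sum.inr k) = T0 d := by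
    have : ∑ k : Unit, rdWW Zs Rs (Sum.inr k) = ∑ _k : Unit, T0 d := rfl
    rw [this]
    simp
  rw [e1, e2, e3, e4]
  linarith

lemma rdU_norm {d : ℕ} (v : ι → Fin d → ℝ)
    (hv : ∀ i ∈ F, ∑ k, v i k ^ 2 ≤ 1)
    (om : Fin d → ℝ) (hom : ∀ k, 0 ≤ om k) (B tst : ℝ) (hB : 0 < B) (htst : 0 ≤ tst)
    (htB : ∀ i ∈ F.erase top, ∑ k, om k * v i k ^ 2 ≤ B)
    (htt : ∀ i ∈ P.Fr, ∑ k, om k * v i k ^ 2 ≤ tst) :
    ∀ z ∈ (univ.erase (0 : Fin (P.n + 1))).disjSum P.Fr,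
      ∑ κ, rdU P v om B tst z κ ^ 2 ≤ 1 := by
  intro z hz
  rw [mem_disjSum] at hz
  rcases hz with ⟨j, hj, rfl⟩ | ⟨i, hi, rfl⟩
  · rw [Fintype.sum_sum_type]
    have e1 : ∑ κ, rdU P v om B tst (Sum.inl j) (Sum.inl κ) ^ 2 =
      ∑ κ, (rdC om B κ (v (P.p j)) - rdC om B κ (v (P.q j))) ^ 2 := rfl
    have e2 : ∑ κ, rdU P v om B tst (Sum.inl j) (Sum.inr κ) ^ 2 = 0 := by
      refine sum_eq_zero fun κ _ => ?_
      show (0:ℝ) ^ 2 = 0
      norm_num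
    rw [e1, e2]
    have hp := rd_p_mem P j (ne_of_mem_erase hj)
    have hq := rd_q_mem P j
    have := rd_cn om hom B hB _ _ (hv _ (mem_of_mem_erase hp)) (hv _ (mem_of_mem_erase hq))
      (htB _ hp) (htB _ hq)
    linarith
  · rw [Fintype.sum_sum_type]
    have e1 : ∑ κ, rdU P v om B tst (Sum.inr i) (Sum.inl κ) ^ 2 = ∑ κ, (rdC om B κ (v i)) ^ 2 :=
      rfl
    have hti0 : 0 ≤ ∑ k, om k * v i k ^ 2 :=
      sum_nonneg fun k _ => mul_nonneg (hom k) (sq_nonneg _)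
    have e2 : ∑ κ, rdU P v om B tst (Sum.inr i) (Sum.inr κ) ^ 2 ≤ 1 / 4 := by
      have e3 : ∑ κ : Unit, rdU P v om B tst (Sum.inr i) (Sum.inr κ) ^ 2 =
          ((∑ k, om k * v i k ^ 2) / (2 * tst)) ^ 2 := by
        rw [Fintype.sum_unique]
        rfl
      rw [e3]
      rcases htst.eq_or_lt with h0 | h0
      · rw [← h0]
        simp
      · have h1 : (∑ k, om k * v i k ^ 2) / (2 * tst) ≤ 1 / 2 := by
          rw [div_le_iff₀ (by positivity)]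
          have := htt i hi
          linarith
        have h2 : 0 ≤ (∑ k, om k * v i k ^ 2) / (2 * tst) := div_nonneg hti0 (by positivity)
        nlinarith
    rw [e1]
    have hF := rd_Fr_mem P i hi
    have := rd_cn1 om hom B hB _ (hv _ (mem_of_mem_erase hF)) (htB _ hF)
    linarith

lemma rd_lin {d : ℕ} (v : ι → Fin d → ℝ) (om : Fin d → ℝ) (B tst : ℝ)
    (ε : Fin (P.n + 1) ⊕ ι → ℝ) (x : ι → ℝ) (κ) :
    ∑ z ∈ (univ.erase (0 : Fin (P.n + 1))).disjSum P.Fr,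
      (ε z - (Sum.elim (fun _ => 0) x : Fin (P.n + 1) ⊕ ι → ℝ) z) *
        rdU P v om B tst z (Sum.inl κ) = rdR P ε x (fun i => rdC om B κ (v i)) := by
  rw [sum_disjSum]
  unfold rdR
  congr 1
  refine sum_congr rfl fun j _ => ?_
  show (ε (Sum.inl j) - 0) * (rdC om B κ (v (P.p j)) - rdC om B κ (v (P.q j))) = _
  rw [sub_zero]

lemma rd_last {d : ℕ} (v : ι → Fin d → ℝ) (om : Fin d → ℝ) (B tst : ℝ)
    (ε : Fin (P.n + 1) ⊕ ι → ℝ) (x : ι → ℝ) :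
    ∑ z ∈ (univ.erase (0 : Fin (P.n + 1))).disjSum P.Fr,
      (ε z - (Sum.elim (fun _ => 0) x : Fin (P.n + 1) ⊕ ι → ℝ) z) *
        rdU P v om B tst z (Sum.inr ()) =
      (∑ i ∈ P.Fr, (ε (Sum.inr i) - x i) * ∑ k, om k * v i k ^ 2) / (2 * tst) := by
  rw [sum_disjSum]
  have e0 : ∑ j ∈ univ.erase (0 : Fin (P.n + 1)),
      (ε (Sum.inl j) - (Sum.elim (fun _ => 0) x : Fin (P.n + 1) ⊕ ι → ℝ) (Sum.inl j)) *
      rdU P v om B tst (Sum.inl j) (Sum.inr ()) = 0 := by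
    refine sum_eq_zero fun j _ => ?_
    exact mul_zero _
  rw [e0, zero_add, sum_div]
  refine sum_congr rfl fun i _ => ?_
  show (ε (Sum.inr i) - x i) * ((∑ k, om k * v i k ^ 2) / (2 * tst)) = _
  ring

lemma rdR_smul (ε : Fin (P.n + 1) ⊕ ι → ℝ) (x f : ι → ℝ) (c : ℝ) :
    rdR P ε x (fun i => c * f i) = c * rdR P ε x f := by
  have := rdR_sum P ε (univ : Finset Unit) x (fun _ => f) (fun _ => c)
  simpa only [univ_unique, sum_singleton] using this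

lemma rd_core {d : ℕ} (hd : 1 ≤ d) (v : ι → Fin d → ℝ)
    (hv : ∀ i ∈ F, ∑ k, v i k ^ 2 ≤ 1)
    (x : ι → ℝ) (hx : ∀ i ∈ P.Fr, |x i| ≤ 1) (Zs Rs : Finset (Fin d))
    (om : Fin d → ℝ) (hom : ∀ k, 0 ≤ om k) (B tst : ℝ) (hB : 0 < B) (htst : 0 ≤ tst)
    (htB : ∀ i ∈ F.erase top, ∑ k, om k * v i k ^ 2 ≤ B)
    (htt : ∀ i ∈ P.Fr, ∑ k, om k * v i k ^ 2 ≤ tst) :
    ∃ ε : Fin (P.n + 1) ⊕ ι → ℝ, (∀ z, ε z = 1 ∨ ε z = -1) ∧
      ∑ k, rdW Zs Rs k * (rdR P ε x (fun i => v i k)) ^ 2 ≤ 32 * T0 d ∧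
      ∑ kk : Fin d × Fin d, (rdR P ε x (fun i => v i kk.1 * v i kk.2)) ^ 2 ≤
        32 * T0 d * (d:ℝ) ^ 2 ∧
      ∑ k, om k * (rdR P ε x (fun i => v i k)) ^ 2 ≤ 32 * d * B * T0 d ∧
      T0 d * ((∑ i ∈ P.Fr, (ε (Sum.inr i) - x i) * ∑ k, om k * v i k ^ 2) / (2 * tst)) ^ 2 ≤
        2 * T0 d := by
  have hT := rd_T0 d
  have hd' : (0:ℝ) < d := by exact_mod_cast hd
  have hx' : ∀ z ∈ (univ.erase (0 : Fin (P.n + 1))).disjSum P.Fr,
      |(Sum.elim (fun _ => 0) x : Fin (P.n + 1) ⊕ ι → ℝ) z| ≤ 1 := by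
    intro z hz
    rw [mem_disjSum] at hz
    rcases hz with ⟨j, hj, rfl⟩ | ⟨i, hi, rfl⟩
    · show |(0:ℝ)| ≤ 1
      simp
    · exact hx i hi
  obtain ⟨ε, hε, hsum⟩ := gs ((univ.erase (0 : Fin (P.n + 1))).disjSum P.Fr)
    (rdU P v om B tst) (rdU_norm P v hv om hom B tst hB htst htB htt) _ hx' (rdWW Zs Rs)
    (rdWW_nonneg Zs Rs)
  refine ⟨ε, hε, ?_⟩
  have hmain := hsum.trans (rdWW_sum hd Zs Rs)
  rw [Fintype.sum_sum_type, Fintype.sum_sum_type, Fintype.sum_sum_type] at hmain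
  simp only [rd_lin P v om B tst ε x] at hmain
  rw [Fintype.sum_unique (ι := Unit), show (default : Unit) = () from rfl,
    rd_last P v om B tst ε x] at hmain
  have k1 : ∑ k, rdWW Zs Rs (Sum.inl (Sum.inl k)) *
      rdR P ε x (fun i => rdC om B (Sum.inl k) (v i)) ^ 2 =
      (1 / 16) * ∑ k, rdW Zs Rs k * (rdR P ε x (fun i => v i k)) ^ 2 := by
    rw [mul_sum]
    refine sum_congr rfl fun k _ => ?_
    have e : (fun i => rdC om B (Sum.inl k) (v i)) = fun i => (1 / 4) * v i k := by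
      funext i
      show v i k / 4 = _
      ring
    rw [e, rdR_smul]
    show rdW Zs Rs k * _ = _
    ring
  have k2 : ∑ kk, rdWW Zs Rs (Sum.inl (Sum.inr (Sum.inl kk))) *
      rdR P ε x (fun i => rdC om B (Sum.inr (Sum.inl kk)) (v i)) ^ 2 =
      (1 / (16 * (d:ℝ) ^ 2)) *
        ∑ kk : Fin d × Fin d, (rdR P ε x (fun i => v i kk.1 * v i kk.2)) ^ 2 := by
    rw [mul_sum]
    refine sum_congr rfl fun kk _ => ?_
    have e : (fun i => rdC om B (Sum.inr (Sum.inl kk)) (v i)) =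
        fun i => (1 / 4) * (v i kk.1 * v i kk.2) := by
      funext i
      show v i kk.1 * v i kk.2 / 4 = _
      ring
    rw [e, rdR_smul]
    show 1 / (d:ℝ) ^ 2 * _ = _
    field_simp
    ring
  have k3 : ∑ k, rdWW Zs Rs (Sum.inl (Sum.inr (Sum.inr k))) *
      rdR P ε x (fun i => rdC om B (Sum.inr (Sum.inr k)) (v i)) ^ 2 =
      (1 / (16 * B * d)) * ∑ k, om k * (rdR P ε x (fun i => v i k)) ^ 2 := by
    rw [mul_sum]
    refine sum_congr rfl fun k _ => ?_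
    have hsB : Real.sqrt B ^ 2 = B := Real.sq_sqrt hB.le
    have hso : Real.sqrt (om k) ^ 2 = om k := Real.sq_sqrt (hom k)
    have e : (fun i => rdC om B (Sum.inr (Sum.inr k)) (v i)) =
        fun i => (Real.sqrt (om k) / (4 * Real.sqrt B)) * v i k := by
      funext i
      show Real.sqrt (om k) * v i k / (4 * Real.sqrt B) = _
      ring
    rw [e, rdR_smul, mul_pow, div_pow, mul_pow, hso, hsB]
    show 1 / (d:ℝ) * _ = _
    field_simp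
    ring
  have k4 : rdWW Zs Rs (Sum.inr ()) *
      ((∑ i ∈ P.Fr, (ε (Sum.inr i) - x i) * ∑ k, om k * v i k ^ 2) / (2 * tst)) ^ 2 =
      T0 d * ((∑ i ∈ P.Fr, (ε (Sum.inr i) - x i) * ∑ k, om k * v i k ^ 2) / (2 * tst)) ^ 2 := rfl
  rw [k1, k2, k3, k4] at hmain
  have p1 : 0 ≤ ∑ k, rdW Zs Rs k * (rdR P ε x (fun i => v i k)) ^ 2 :=
    sum_nonneg fun k _ => mul_nonneg (rdW_nonneg _ _ _) (sq_nonneg _)
  have p2 : 0 ≤ ∑ kk : Fin d × Fin d, (rdR P ε x (fun i => v i kk.1 * v i kk.2)) ^ 2 :=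
    sum_nonneg fun k _ => sq_nonneg _
  have p3 : 0 ≤ ∑ k, om k * (rdR P ε x (fun i => v i k)) ^ 2 :=
    sum_nonneg fun k _ => mul_nonneg (hom k) (sq_nonneg _)
  have p4 : 0 ≤ T0 d * ((∑ i ∈ P.Fr, (ε (Sum.inr i) - x i) * ∑ k, om k * v i k ^ 2) /
      (2 * tst)) ^ 2 := mul_nonneg (by linarith) (sq_nonneg _)
  have m2 : 0 ≤ (1 / (16 * (d:ℝ) ^ 2)) *
        ∑ kk : Fin d × Fin d, (rdR P ε x (fun i => v i kk.1 * v i kk.2)) ^ 2 :=
    mul_nonneg (by positivity) p2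
  have m3 : 0 ≤ (1 / (16 * B * d)) * ∑ k, om k * (rdR P ε x (fun i => v i k)) ^ 2 :=
    mul_nonneg (by positivity) p3
  refine ⟨by linarith, ?_, ?_, by linarith⟩
  · have h1 : (1 / (16 * (d:ℝ) ^ 2)) *
        ∑ kk : Fin d × Fin d, (rdR P ε x (fun i => v i kk.1 * v i kk.2)) ^ 2 ≤ 2 * T0 d := by
      linarith
    rw [one_div_mul_eq_div, div_le_iff₀ (by positivity)] at h1
    linarith
  · have h1 : (1 / (16 * B * d)) * ∑ k, om k * (rdR P ε x (fun i => v i k)) ^ 2 ≤ 2 * T0 d := by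
      linarith
    rw [one_div_mul_eq_div, div_le_iff₀ (by positivity)] at h1
    linarith

end

lemma rd_signs {ι : Type} [DecidableEq ι] {F : Finset ι} {top : ι} (P : Pairing F top)
    (ε : Fin (P.n + 1) ⊕ ι → ℝ) (hε : ∀ z, ε z = 1 ∨ ε z = -1) (τ1 : ℝ)
    (hτ1 : τ1 = 1 ∨ τ1 = -1) (x : ι → ℝ) :
    ∃ s : ι → ℝ, (∀ i, s i = 1 ∨ s i = -1) ∧ (∀ j, s (P.q j) = - s (P.p j)) ∧ s top = τ1 ∧
      (∀ i ∈ P.Fr, s i = ε (Sum.inr i)) ∧ ∀ f, rf P s x f = rdR P ε x f :=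
  ⟨rdS P ε τ1, rdS_sign P ε τ1 hε hτ1, fun j => by rw [rdS_p, rdS_q], rdS_top P ε τ1,
    fun i hi => rdS_Fr P ε τ1 i hi, fun f => rf_eq P ε τ1 x f⟩

lemma rd_quad' {ι : Type} [DecidableEq ι] {d : ℕ} (v : ι → Fin d → ℝ)
    {F : Finset ι} {top : ι} (P : Pairing F top)
    (ε : Fin (P.n + 1) ⊕ ι → ℝ) (x : ι → ℝ)
    (h2 : ∑ kk : Fin d × Fin d, (rdR P ε x (fun i => v i kk.1 * v i kk.2)) ^ 2 ≤
        32 * T0 d * (d:ℝ) ^ 2) (u : Fin d → ℝ) :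
    |rdR P ε x (fun i => (∑ k, u k * v i k) ^ 2)| ≤ 6 * d * T0 d * ∑ k, u k ^ 2 := by
  have e1 : (fun i => (∑ k, u k * v i k) ^ 2) =
      fun i => ∑ kk ∈ (univ : Finset (Fin d × Fin d)), (u kk.1 * u kk.2) *
        (v i kk.1 * v i kk.2) := by
    funext i
    rw [sq, sum_mul_sum, Fintype.sum_prod_type]
    exact sum_congr rfl fun k _ => sum_congr rfl fun k' _ => by ring
  have e3 := rdR_sum P ε (univ : Finset (Fin d × Fin d)) x
    (fun kk i => v i kk.1 * v i kk.2) (fun kk => u kk.1 * u kk.2)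
  beta_reduce at e3
  rw [e1, e3]
  exact rd_quad u (fun kk => rdR P ε x (fun i => v i kk.1 * v i kk.2)) (T0 d) (rd_T0 d) h2

lemma rd_dust (Y T tst : ℝ) (hT : 3 ≤ T) (h0 : 0 < tst)
    (h4 : T * (Y / (2 * tst)) ^ 2 ≤ 2 * T) : |Y| ≤ 3 * tst := by
  have hTpos : 0 < T := by linarith
  have h5 : (Y / (2 * tst)) ^ 2 ≤ 2 := by
    by_contra hcon
    push Not at hcon
    have := mul_lt_mul_of_pos_left hcon hTpos
    linarith
  rw [div_pow, div_le_iff₀ (by positivity)] at h5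
  refine abs_le_of_sq_le_sq ?_ (by positivity)
  nlinarith

lemma rd_dust' {ι : Type} [DecidableEq ι] {d : ℕ} (v : ι → Fin d → ℝ)
    {F : Finset ι} {top : ι} (P : Pairing F top)
    (ε : Fin (P.n + 1) ⊕ ι → ℝ) (x : ι → ℝ)
    (om : Fin d → ℝ) (hom : ∀ k, 0 ≤ om k) (tst : ℝ) (htst : 0 ≤ tst)
    (htt : ∀ i ∈ P.Fr, ∑ k, om k * v i k ^ 2 ≤ tst)
    (h4 : T0 d * ((∑ i ∈ P.Fr, (ε (Sum.inr i) - x i) * ∑ k, om k * v i k ^ 2) /
      (2 * tst)) ^ 2 ≤ 2 * T0 d) :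
    |∑ i ∈ P.Fr, (ε (Sum.inr i) - x i) * ∑ k, om k * v i k ^ 2| ≤ 3 * tst := by
  rcases htst.eq_or_lt with h0 | h0
  · have h5 : ∑ i ∈ P.Fr, (ε (Sum.inr i) - x i) * ∑ k, om k * v i k ^ 2 = 0 := by
      refine sum_eq_zero fun i hi => ?_
      have h6 := htt i hi
      have h7 : 0 ≤ ∑ k, om k * v i k ^ 2 :=
        sum_nonneg fun k _ => mul_nonneg (hom k) (sq_nonneg _)
      have h8 : ∑ k, om k * v i k ^ 2 = 0 := by
        apply le_antisymm _ h7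
        rw [h0]
        exact h6
      rw [h8, mul_zero]
    rw [h5, ← h0]
    simp
  · exact rd_dust _ (T0 d) tst (rd_T0 d) h0 h4

theorem round {ι : Type} [DecidableEq ι] {d : ℕ} (hd : 1 ≤ d) (v : ι → Fin d → ℝ)
    {F : Finset ι} {top : ι} (P : Pairing F top)
    (hv : ∀ i ∈ F, ∑ k, v i k ^ 2 ≤ 1) (τ1 : ℝ) (hτ1 : τ1 = 1 ∨ τ1 = -1)
    (x : ι → ℝ) (hx : ∀ i ∈ P.Fr, |x i| ≤ 1) (Zs Rs : Finset (Fin d)) (hZR : Disjoint Zs Rs)
    (om : Fin d → ℝ) (hom : ∀ k, 0 ≤ om k) (B tst : ℝ) (hB : 0 < B) (htst : 0 ≤ tst)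
    (htB : ∀ i ∈ F.erase top, ∑ k, om k * v i k ^ 2 ≤ B)
    (htt : ∀ i ∈ P.Fr, ∑ k, om k * v i k ^ 2 ≤ tst) :
    ∃ s : ι → ℝ, (∀ i, s i = 1 ∨ s i = -1) ∧ (∀ j, s (P.q j) = - s (P.p j)) ∧ s top = τ1 ∧
      (∀ j : Fin d, ∑ k ∈ Rs.filter (· ≤ j), (rf P s x (fun i => v i k)) ^ 2
        ≤ 32 * T0 d * (Rs.filter (· ≤ j)).card) ∧
      ∑ k ∈ Zs, (rf P s x (fun i => v i k)) ^ 2 ≤ 32 * T0 d * Zs.card ∧
      (∀ u : Fin d → ℝ, |rf P s x (fun i => (∑ k, u k * v i k) ^ 2)|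
        ≤ 6 * d * T0 d * ∑ k, u k ^ 2) ∧
      ∑ k, om k * (rf P s x (fun i => v i k)) ^ 2 ≤ 32 * d * B * T0 d ∧
      |∑ i ∈ P.Fr, (s i - x i) * ∑ k, om k * v i k ^ 2| ≤ 3 * tst := by
  obtain ⟨ε, hε, h1, h2, h3, h4⟩ := rd_core P hd v hv x hx Zs Rs om hom B tst hB htst htB htt
  obtain ⟨s, hs1, hs2, hs3, hsF, hrf⟩ := rd_signs P ε hε τ1 hτ1 x
  refine ⟨s, hs1, hs2, hs3, ?_, ?_, ?_, ?_, ?_⟩
  · intro j
    simp only [hrf]
    exact rd_prefix Zs Rs (fun k => rdR P ε x (fun i => v i k)) _ h1 j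
  · simp only [hrf]
    exact rd_zone Zs Rs (fun k => rdR P ε x (fun i => v i k)) _ h1
  · intro u
    rw [hrf]
    exact rd_quad' v P ε x h2 u
  · simp only [hrf]
    exact h3
  · have e1 : ∑ i ∈ P.Fr, (s i - x i) * ∑ k, om k * v i k ^ 2 =
        ∑ i ∈ P.Fr, (ε (Sum.inr i) - x i) * ∑ k, om k * v i k ^ 2 :=
      sum_congr rfl fun i hi => by rw [hsF i hi]
    rw [e1]
    exact rd_dust' v P ε x om hom tst htst htt h4

end Vale.Agent.P262
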