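import Vale.Agent.P262.Full.Defs

namespace Vale.Agent.P262

open Finset

namespace SteerAux

/-- the linear map: Gram matrix on `Rs`, identity off `Rs` -/
noncomputable def TT {ι : Type} {d : ℕ} (v : ι → Fin d → ℝ) (Fr : Finset ι)
    (Rs : Finset (Fin d)) : (Fin d → ℝ) →ₗ[ℝ] (Fin d → ℝ) where
  toFun y := fun k => if k ∈ Rs then
    ∑ i ∈ Fr, (∑ k', (if k' ∈ Rs then y k' else 0) * v i k') * v i k else y k
  map_add' := by
    intro y z
    funext k
    simp only [Pi.add_apply]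
    by_cases hk : k ∈ Rs
    · simp only [hk, if_true]
      rw [← Finset.sum_add_distrib]
      apply Finset.sum_congr rfl
      intro i _
      rw [← add_mul, ← Finset.sum_add_distrib]
      congr 1
      apply Finset.sum_congr rfl
      intro k' _
      by_cases hk' : k' ∈ Rs
      · simp only [hk', if_true]; ring
      · simp only [hk', if_false]; ring
    · simp only [hk, if_false]
  map_smul' := by
    intro c y
    funext k
    simp only [Pi.smul_apply, smul_eq_mul, RingHom.id_apply]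
    by_cases hk : k ∈ Rs
    · simp only [hk, if_true]
      rw [Finset.mul_sum]
      apply Finset.sum_congr rfl
      intro i _
      rw [← mul_assoc, Finset.mul_sum]
      congr 1
      apply Finset.sum_congr rfl
      intro k' _
      by_cases hk' : k' ∈ Rs
      · simp only [hk', if_true]; ring
      · simp only [hk', if_false]; ring
    · simp only [hk, if_false]

lemma TT_apply {ι : Type} {d : ℕ} (v : ι → Fin d → ℝ) (Fr : Finset ι)
    (Rs : Finset (Fin d)) (y : Fin d → ℝ) (k : Fin d) :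
    TT v Fr Rs y k = if k ∈ Rs then
      ∑ i ∈ Fr, (∑ k', (if k' ∈ Rs then y k' else 0) * v i k') * v i k else y k := rfl

lemma energy {ι : Type} {d : ℕ} (v : ι → Fin d → ℝ) (Fr : Finset ι) (Rs : Finset (Fin d))
    (q y : Fin d → ℝ) (h0 : ∀ k, k ∉ Rs → y k = 0)
    (h1 : ∀ k ∈ Rs, ∑ i ∈ Fr, (∑ k', y k' * v i k') * v i k = q k) :
    ∑ i ∈ Fr, (∑ k, y k * v i k) ^ 2 = ∑ k ∈ Rs, q k * y k := by
  have e1 : ∀ i ∈ Fr, (∑ k, y k * v i k) ^ 2 = ∑ k ∈ Rs, y k * ((∑ k', y k' * v i k') * v i k) := by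
    intro i _
    have : ∑ k, y k * v i k = ∑ k ∈ Rs, y k * v i k := by
      symm
      apply Finset.sum_subset (Finset.subset_univ _)
      intro k _ hk
      rw [h0 k hk, zero_mul]
    rw [pow_two]
    nth_rewrite 2 [this]
    rw [Finset.mul_sum]
    apply Finset.sum_congr rfl
    intro k _
    ring
  rw [Finset.sum_congr rfl e1, Finset.sum_comm]
  apply Finset.sum_congr rfl
  intro k hk
  rw [← Finset.mul_sum, h1 k hk]
  ring

end SteerAux

open SteerAux in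
theorem steer {ι : Type} {d : ℕ} (v : ι → Fin d → ℝ) (Fr : Finset ι) (Rs : Finset (Fin d))
    (g : Fin d → ℝ) (gm Q : ℝ) (hgm : 0 < gm) (hg : ∀ k ∈ Rs, gm ≤ g k) (hQ : 0 ≤ Q)
    (H : ∀ u : Fin d → ℝ, (∀ k, k ∉ Rs → u k = 0) →
      (1 / 2) * ∑ k ∈ Rs, g k * u k ^ 2 ≤ ∑ i ∈ Fr, (∑ k, u k * v i k) ^ 2)
    (q : Fin d → ℝ) (hq : ∑ k ∈ Rs, q k ^ 2 ≤ Q ^ 2) :
    ∃ y : Fin d → ℝ, (∀ k, k ∉ Rs → y k = 0) ∧
      (∀ k ∈ Rs, ∑ i ∈ Fr, (∑ k', y k' * v i k') * v i k = q k) ∧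
      ∑ k ∈ Rs, g k * y k ^ 2 ≤ 4 * Q ^ 2 / gm ∧
      ∑ k, y k ^ 2 ≤ 4 * Q ^ 2 / gm ^ 2 ∧
      ∑ i ∈ Fr, (∑ k, y k * v i k) ^ 2 ≤ 2 * Q ^ 2 / gm := by
  classical
  have key : ∀ (q y : Fin d → ℝ), (∀ k, k ∉ Rs → y k = 0) →
      (∀ k ∈ Rs, ∑ i ∈ Fr, (∑ k', y k' * v i k') * v i k = q k) →
      ∀ R : ℝ, ∑ k ∈ Rs, q k ^ 2 ≤ R ^ 2 →
      ∑ k ∈ Rs, g k * y k ^ 2 ≤ 4 * R ^ 2 / gm ∧
      ∑ k, y k ^ 2 ≤ 4 * R ^ 2 / gm ^ 2 ∧
      ∑ i ∈ Fr, (∑ k, y k * v i k) ^ 2 ≤ 2 * R ^ 2 / gm := by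
    intro q y h0 h1 R hR
    have hS := energy v Fr Rs q y h0 h1
    have hH := H y h0
    set S := ∑ i ∈ Fr, (∑ k, y k * v i k) ^ 2 with hSdef
    set E := ∑ k ∈ Rs, g k * y k ^ 2 with hE
    have hS0 : 0 ≤ S := Finset.sum_nonneg fun i _ => sq_nonneg _
    have hN : ∑ k, y k ^ 2 = ∑ k ∈ Rs, y k ^ 2 := by
      symm
      apply Finset.sum_subset (Finset.subset_univ _)
      intro k _ hk
      rw [h0 k hk]
      ring
    have hN0 : 0 ≤ ∑ k ∈ Rs, y k ^ 2 := Finset.sum_nonneg fun k _ => sq_nonneg _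
    have hNE : gm * ∑ k ∈ Rs, y k ^ 2 ≤ E := by
      rw [hE, Finset.mul_sum]
      apply Finset.sum_le_sum
      intro k hk
      exact mul_le_mul_of_nonneg_right (hg k hk) (sq_nonneg _)
    have hCS : S ^ 2 ≤ R ^ 2 * ∑ k ∈ Rs, y k ^ 2 := by
      rw [hS]
      calc (∑ k ∈ Rs, q k * y k) ^ 2 ≤ (∑ k ∈ Rs, q k ^ 2) * ∑ k ∈ Rs, y k ^ 2 :=
            Finset.sum_mul_sq_le_sq_mul_sq _ _ _
        _ ≤ R ^ 2 * ∑ k ∈ Rs, y k ^ 2 := mul_le_mul_of_nonneg_right hR hN0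
    have hE2 : E ≤ 2 * S := by linarith
    have h5 : gm * S ^ 2 ≤ 2 * R ^ 2 * S := by
      calc gm * S ^ 2 ≤ gm * (R ^ 2 * ∑ k ∈ Rs, y k ^ 2) := mul_le_mul_of_nonneg_left hCS hgm.le
        _ = R ^ 2 * (gm * ∑ k ∈ Rs, y k ^ 2) := by ring
        _ ≤ R ^ 2 * (2 * S) := mul_le_mul_of_nonneg_left (hNE.trans hE2) (sq_nonneg _)
        _ = 2 * R ^ 2 * S := by ring
    have h6 : S ≤ 2 * R ^ 2 / gm := by
      rw [le_div_iff₀ hgm]
      rcases hS0.lt_or_eq with h | h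
      · have : S * (S * gm) ≤ S * (2 * R ^ 2) := by nlinarith
        exact le_of_mul_le_mul_left this h
      · rw [← h, zero_mul]
        positivity
    have h7 : E ≤ 4 * R ^ 2 / gm := by
      calc E ≤ 2 * S := hE2
        _ ≤ 2 * (2 * R ^ 2 / gm) := by linarith
        _ = 4 * R ^ 2 / gm := by ring
    refine ⟨h7, ?_, h6⟩
    rw [hN, le_div_iff₀ (by positivity)]
    have h8 : gm * ∑ k ∈ Rs, y k ^ 2 ≤ 4 * R ^ 2 / gm := hNE.trans h7
    rw [le_div_iff₀ hgm] at h8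
    nlinarith
  have hinj : Function.Injective (TT v Fr Rs) := by
    rw [← LinearMap.ker_eq_bot, LinearMap.ker_eq_bot']
    intro y hy
    have h0 : ∀ k, k ∉ Rs → y k = 0 := by
      intro k hk
      have := congrFun hy k
      rw [TT_apply, if_neg hk] at this
      exact this
    have hext : ∀ k', (if k' ∈ Rs then y k' else 0) = y k' := by
      intro k'
      by_cases h : k' ∈ Rs
      · rw [if_pos h]
      · rw [if_neg h, h0 k' h]
    have h1 : ∀ k ∈ Rs, ∑ i ∈ Fr, (∑ k', y k' * v i k') * v i k = (fun _ => (0 : ℝ)) k := by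
      intro k hk
      have := congrFun hy k
      rw [TT_apply, if_pos hk] at this
      simp only [hext] at this
      exact this
    have h2 := (key (fun _ => 0) y h0 h1 0 (by simp)).2.1
    have h3 : ∑ k, y k ^ 2 = 0 := by
      apply le_antisymm
      · simpa using h2
      · exact Finset.sum_nonneg fun k _ => sq_nonneg _
    funext k
    have h4 := (Finset.sum_eq_zero_iff_of_nonneg (fun k _ => sq_nonneg (y k))).mp h3 k
      (Finset.mem_univ k)
    exact pow_eq_zero_iff (two_ne_zero) |>.mp h4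
  have hsurj : Function.Surjective (TT v Fr Rs) :=
    LinearMap.injective_iff_surjective.mp hinj
  obtain ⟨y, hy⟩ := hsurj (fun k => if k ∈ Rs then q k else 0)
  have h0 : ∀ k, k ∉ Rs → y k = 0 := by
    intro k hk
    have := congrFun hy k
    rw [TT_apply, if_neg hk, if_neg hk] at this
    exact this
  have hext : ∀ k', (if k' ∈ Rs then y k' else 0) = y k' := by
    intro k'
    by_cases h : k' ∈ Rs
    · rw [if_pos h]
    · rw [if_neg h, h0 k' h]
  have h1 : ∀ k ∈ Rs, ∑ i ∈ Fr, (∑ k', y k' * v i k') * v i k = q k := by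
    intro k hk
    have := congrFun hy k
    rw [TT_apply, if_pos hk, if_pos hk] at this
    simp only [hext] at this
    exact this
  exact ⟨y, h0, h1, key q y h0 h1 Q hq⟩

end Vale.Agent.P262
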