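import Vale.Agent.P262.Full.PosUp
import Vale.Agent.P262.Full.DustUp
import Vale.Agent.P262.Full.Round
import Vale.Agent.P262.Full.Steer
import Vale.Agent.P262.Full.PairingEx

namespace Vale.Agent.P262

open Finset

section basics
variable {d m : ℕ}

theorem kap_pos' (hG : Good d m) : 0 < kap d := by
  have h1 := T0_ge hG.hd
  have h2 : (1:ℝ) ≤ d := by exact_mod_cast hG.hd
  unfold kap; positivity

theorem BB_pos' (hG : Good d m) : 0 < BB d := by
  have h1 := kap_pos' hG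
  have h2 : (1:ℝ) ≤ d := by exact_mod_cast hG.hd
  unfold BB; positivity

theorem Lam_pos' (hG : Good d m) : 0 < Lam d m := by
  have h1 := kap_pos' hG
  unfold Lam; positivity

theorem om_nonneg' (τ : Fin d → ℕ) (l : ℕ) (k : Fin d) : 0 ≤ om τ m l k := by
  unfold om; split_ifs <;> positivity

theorem sq_add_le {α : Type} (s : Finset α) (f g : α → ℝ) {A B : ℝ} (hA : 0 ≤ A) (hB : 0 ≤ B)
    (hf : ∑ k ∈ s, f k ^ 2 ≤ A ^ 2) (hg : ∑ k ∈ s, g k ^ 2 ≤ B ^ 2) :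
    ∑ k ∈ s, (f k + g k) ^ 2 ≤ (A + B) ^ 2 := by
  have h1 : (∑ k ∈ s, f k * g k) ^ 2 ≤ (∑ k ∈ s, f k ^ 2) * ∑ k ∈ s, g k ^ 2 :=
    Finset.sum_mul_sq_le_sq_mul_sq s f g
  have h2 : (∑ k ∈ s, f k * g k) ≤ A * B := by
    apply le_of_abs_le
    rw [← abs_of_nonneg (show (0:ℝ) ≤ A * B by positivity)]
    apply sq_le_sq.mp
    calc (∑ k ∈ s, f k * g k) ^ 2 ≤ _ := h1
      _ ≤ A ^ 2 * B ^ 2 := by
          apply mul_le_mul hf hg (Finset.sum_nonneg fun _ _ => sq_nonneg _) (by positivity)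
      _ = (A * B) ^ 2 := by ring
  have h3 : ∑ k ∈ s, (f k + g k) ^ 2
      = ∑ k ∈ s, f k ^ 2 + 2 * ∑ k ∈ s, f k * g k + ∑ k ∈ s, g k ^ 2 := by
    rw [Finset.mul_sum, ← Finset.sum_add_distrib, ← Finset.sum_add_distrib]
    exact Finset.sum_congr rfl fun _ _ => by ring
  rw [h3]; nlinarith

end basics

section
variable {ι : Type} [DecidableEq ι] {d m : ℕ} {v : ι → Fin d → ℝ} {τ : Fin d → ℕ}
  {lam : Fin d → ℝ} {l : ℕ} {F : Finset ι} {top : ι}

theorem exists_gm (hG : Good d m) (hS : Spec m τ lam) (l : ℕ) :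
    ∃ gm, Lam d m ≤ gm ∧ (∀ k ∈ rich τ l, gm ≤ (1 / 2) ^ l * lam k) ∧
      (rich τ l = ∅ ∨ 2 * (2 * RR d m + 2) / gm ≤ chi τ m l) := by
  by_cases hr : (rich τ l).Nonempty
  · obtain ⟨k0, hk0, hmin⟩ := Finset.exists_min_image (rich τ l) τ hr
    have hL := Lam_pos' hG
    refine ⟨Lam d m * 2 ^ (τ k0 - 1 - l), ?_, ?_, Or.inr ?_⟩
    · have : (1:ℝ) ≤ 2 ^ (τ k0 - 1 - l) := one_le_pow₀ (by norm_num)
      nlinarith
    · intro k hk
      have h1 : l < τ k := by simpa [rich] using hk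
      have h2 : l < τ k0 := by simpa [rich] using hk0
      have h3 := hmin k hk
      have h4 := hS.lower k (by omega)
      have h5 : (2:ℝ) ^ (τ k - 1) = 2 ^ l * 2 ^ (τ k - 1 - l) := by
        rw [← pow_add]; congr 1; omega
      have h6 : (1 / 2 : ℝ) ^ l * 2 ^ l = 1 := by rw [← mul_pow]; norm_num
      have h7 : (2:ℝ) ^ (τ k0 - 1 - l) ≤ 2 ^ (τ k - 1 - l) :=
        pow_le_pow_right₀ (by norm_num) (by omega)
      calc Lam d m * 2 ^ (τ k0 - 1 - l) ≤ Lam d m * 2 ^ (τ k - 1 - l) := by gcongr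
        _ = (1 / 2 : ℝ) ^ l * (Lam d m * 2 ^ (τ k - 1)) := by
            rw [h5]; linear_combination (-(Lam d m * 2 ^ (τ k - 1 - l))) * h6
        _ ≤ _ := by gcongr
    · have := chi_bound hG τ l k0 hk0
      have h1 : 2 * (2 * RR d m + 2) = 4 * (RR d m + 1) := by ring
      rw [h1]; exact this
  · refine ⟨Lam d m, le_rfl, ?_, Or.inl (Finset.not_nonempty_iff_eq_empty.mp hr)⟩
    intro k hk
    exact absurd ⟨k, hk⟩ hr

theorem steered (hG : Good d m) (hS : Spec m τ lam) (P : Pairing F top) (hcard : P.n + 1 ≤ 8)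
    (hv : ∀ i, ∑ k, v i k ^ 2 ≤ 1) (hgr : Gram v τ m lam l F)
    (q : Fin d → ℝ) (hq : ∑ k ∈ rich τ l, q k ^ 2 ≤ (2 * RR d m + 2) ^ 2) :
    ∃ x : ι → ℝ, (∀ i, |x i| ≤ chi τ m l) ∧
      (∀ k ∈ rich τ l, ∑ i ∈ P.Fr, x i * v i k = q k) ∧ ∑ i ∈ P.Fr, x i ^ 2 ≤ 1 ∧
      ∑ k ∈ zone τ m l, (∑ i ∈ P.Fr, x i * v i k) ^ 2 ≤ 1 := by
  obtain ⟨gm, hgL, hgk, hchi⟩ := exists_gm hG hS l
  have hL := Lam_pos' hG
  have hgm : 0 < gm := lt_of_lt_of_le hL hgL
  have hR := RR_nonneg d m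
  obtain ⟨y, hy0, hyq, hgy, hyy, hxx⟩ := steer v P.Fr (rich τ l) (fun k => (1 / 2) ^ l * lam k) gm
    (2 * RR d m + 2) hgm hgk (by positivity)
    (fun u hu => gram_lower hG hS P hcard (fun i _ => hv i) hgr u hu) q hq
  refine ⟨fun i => ∑ k, y k * v i k, ?_, ?_, ?_, ?_⟩
  · intro i
    rcases hchi with h | h
    · have : ∀ k, y k = 0 := fun k => hy0 k (by simp [h])
      simp [this, chi_nonneg]
    · refine le_trans ?_ h
      apply abs_le_of_sq_le_sq _ (by positivity)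
      calc (∑ k, y k * v i k) ^ 2 ≤ (∑ k, y k ^ 2) * ∑ k, v i k ^ 2 :=
            Finset.sum_mul_sq_le_sq_mul_sq _ _ _
        _ ≤ (4 * (2 * RR d m + 2) ^ 2 / gm ^ 2) * 1 := by
            apply mul_le_mul hyy (hv i) (Finset.sum_nonneg fun _ _ => sq_nonneg _) (by positivity)
        _ = (2 * (2 * RR d m + 2) / gm) ^ 2 := by ring
  · exact hyq
  · refine hxx.trans ?_
    rw [div_le_one hgm]
    have := par2 hG
    nlinarith
  · refine zone_drift hG hS P hcard (fun i _ => hv i) hgr y hy0 (hgy.trans ?_) (hyy.trans ?_)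
    · gcongr
    · gcongr

end

section
variable {ι : Type} [DecidableEq ι] {d m : ℕ} {v : ι → Fin d → ℝ} {τ : Fin d → ℕ}
  {lam : Fin d → ℝ} {l : ℕ} {F : Finset ι} {top : ι}

theorem rho_eq (τ : Fin d → ℕ) (l : ℕ) :
    rho τ m l = ∑ k ∈ old τ m l, (10 / 11 : ℝ) ^ (l - (τ k + m)) := by
  unfold rho old
  rw [Finset.sum_filter]

theorem sum_sq_le_sq_sum' {α : Type} (s : Finset α) (f : α → ℝ) (hf : ∀ i ∈ s, 0 ≤ f i) :
    ∑ i ∈ s, f i ^ 2 ≤ (∑ i ∈ s, f i) ^ 2 := by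
  rw [sq (∑ i ∈ s, f i), Finset.sum_mul]
  apply Finset.sum_le_sum
  intro i hi
  rw [sq]
  exact mul_le_mul_of_nonneg_left (Finset.single_le_sum hf hi) (hf i hi)

theorem old_of_om (_hG : Good d m) (l : ℕ) (w : Fin d → ℝ) {Ω : ℝ}
    (h : ∑ k ∈ old τ m l, om τ m l k * w k ^ 2 ≤ Ω)
    (hΩ' : Ω ≤ 25600 * d ^ 4 * T0 d ^ 2) : ∑ k ∈ old τ m l, w k ^ 2 ≤ Wt τ m l ^ 2 := by
  have hΩ0 : 0 ≤ Ω := le_trans (Finset.sum_nonneg fun k _ =>
    mul_nonneg (om_nonneg' τ l k) (sq_nonneg _)) h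
  have key : ∀ k ∈ old τ m l, w k ^ 2 ≤ Ω * ((10 / 11 : ℝ) ^ (l - (τ k + m))) ^ 2 := by
    intro k hk
    have hk' : τ k + 9 * m ≤ l := by simpa [old] using hk
    have h1 : om τ m l k * w k ^ 2 ≤ Ω := by
      refine le_trans ?_ h
      exact Finset.single_le_sum (f := fun k => om τ m l k * w k ^ 2)
        (fun k _ => mul_nonneg (om_nonneg' τ l k) (sq_nonneg _)) hk
    have h2 : om τ m l k = (121 / 100 : ℝ) ^ (l - (τ k + m)) := by
      unfold om; rw [if_pos (by omega)]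
    rw [h2] at h1
    have h3 : (121 / 100 : ℝ) ^ (l - (τ k + m)) * ((10 / 11 : ℝ) ^ (l - (τ k + m))) ^ 2 = 1 := by
      rw [← pow_mul, mul_comm (l - (τ k + m)) 2, pow_mul, ← mul_pow]; norm_num
    calc w k ^ 2 = ((121 / 100 : ℝ) ^ (l - (τ k + m)) * w k ^ 2)
          * ((10 / 11 : ℝ) ^ (l - (τ k + m))) ^ 2 := by
            linear_combination (-(w k ^ 2)) * h3
      _ ≤ _ := by gcongr
  have h4 : ∑ k ∈ old τ m l, ((10 / 11 : ℝ) ^ (l - (τ k + m))) ^ 2 ≤ rho τ m l ^ 2 := by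
    rw [rho_eq]
    exact sum_sq_le_sq_sum' _ _ (fun k _ => by positivity)
  have h5 : 0 ≤ rho τ m l := by rw [rho_eq]; exact Finset.sum_nonneg fun k _ => by positivity
  calc ∑ k ∈ old τ m l, w k ^ 2
      ≤ ∑ k ∈ old τ m l, Ω * ((10 / 11 : ℝ) ^ (l - (τ k + m))) ^ 2 := Finset.sum_le_sum key
    _ = Ω * ∑ k ∈ old τ m l, ((10 / 11 : ℝ) ^ (l - (τ k + m))) ^ 2 := by rw [Finset.mul_sum]
    _ ≤ (25600 * d ^ 4 * T0 d ^ 2) * rho τ m l ^ 2 := by gcongr
    _ = _ := by unfold Wt; ring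

theorem om_old_succ (hG : Good d m) {l : ℕ} {k : Fin d} (hk : k ∈ old τ m (l + 1)) :
    om τ m (l + 1) k = 121 / 100 * om τ m l k := by
  have hk' : τ k + 9 * m ≤ l + 1 := by simpa [old] using hk
  have := hG.hm
  unfold om
  rw [if_pos (by omega), if_pos (by omega)]
  have : l + 1 - (τ k + m) = (l - (τ k + m)) + 1 := by omega
  rw [this, pow_succ]; ring

theorem BB_le (hG : Good d m) : 98 * d * T0 d * BB d ≤ 25600 * d ^ 4 * T0 d ^ 2 ∧
    121 / 100 * BB d ≤ 25600 * d ^ 4 * T0 d ^ 2 := by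
  have h1 := T0_ge hG.hd
  have h2 : (1:ℝ) ≤ d := by exact_mod_cast hG.hd
  have h3 : BB d = 240 * d ^ 2 * T0 d := by unfold BB kap; ring
  rw [h3]
  have h4 : (d:ℝ) ^ 3 ≤ d ^ 4 := pow_le_pow_right₀ h2 (by norm_num)
  have h5 : (d:ℝ) ^ 2 ≤ d ^ 4 := pow_le_pow_right₀ h2 (by norm_num)
  have h6 : T0 d ≤ T0 d ^ 2 := by nlinarith
  have h7 : 0 ≤ (d:ℝ) ^ 4 := by positivity
  have h8 : 0 ≤ T0 d ^ 2 := by positivity
  constructor
  · calc 98 * d * T0 d * (240 * d ^ 2 * T0 d) = 23520 * (d ^ 3 * T0 d ^ 2) := by ring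
      _ ≤ 23520 * (d ^ 4 * T0 d ^ 2) := by gcongr
      _ ≤ _ := by nlinarith [mul_nonneg h7 h8]
  · calc 121 / 100 * (240 * d ^ 2 * T0 d) = (121 / 100 * 240) * (d ^ 2 * T0 d) := by ring
      _ ≤ (121 / 100 * 240) * (d ^ 4 * T0 d ^ 2) := by gcongr
      _ ≤ _ := by nlinarith [mul_nonneg h7 h8]

theorem tp_bound (hG : Good d m) {i : ι} (hi : tt v τ m l i ≤ BB d) :
    ∑ k ∈ old τ m (l + 1), v i k ^ 2 ≤ Wt τ m (l + 1) ^ 2 := by
  apply old_of_om hG (l + 1) (v i) (Ω := 121 / 100 * BB d) _ (BB_le hG).2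
  calc ∑ k ∈ old τ m (l + 1), om τ m (l + 1) k * v i k ^ 2
      = 121 / 100 * ∑ k ∈ old τ m (l + 1), om τ m l k * v i k ^ 2 := by
        rw [Finset.mul_sum]
        exact Finset.sum_congr rfl fun k hk => by rw [om_old_succ hG hk]; ring
    _ ≤ 121 / 100 * ∑ k, om τ m l k * v i k ^ 2 := by
        apply mul_le_mul_of_nonneg_left _ (by norm_num)
        apply Finset.sum_le_sum_of_subset_of_nonneg (Finset.subset_univ _)
        intro k _ _
        exact mul_nonneg (om_nonneg' τ l k) (sq_nonneg _)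
    _ ≤ 121 / 100 * BB d := by
        have : ∑ k, om τ m l k * v i k ^ 2 = tt v τ m l i := rfl
        rw [this]; linarith

theorem tt_nonneg (i : ι) : 0 ≤ tt v τ m l i :=
  Finset.sum_nonneg fun k _ => mul_nonneg (om_nonneg' τ l k) (sq_nonneg _)

theorem tt_le (hD : Dust v τ m l F top) {i : ι} (hi : i ∈ F.erase top) : tt v τ m l i ≤ BB d :=
  le_trans (Finset.single_le_sum (f := fun i => tt v τ m l i) (fun i _ => tt_nonneg i) hi) hD

theorem Fr_subset (P : Pairing F top) : P.Fr ⊆ F.erase top := by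
  intro i hi
  unfold Pairing.Fr at hi
  rw [Finset.mem_sdiff, Finset.mem_union, not_or] at hi
  rw [Finset.mem_erase]
  refine ⟨?_, hi.1⟩
  rintro rfl
  apply hi.2.1
  rw [Finset.mem_image]
  exact ⟨0, Finset.mem_univ _, P.p_zero⟩

theorem q_mem_erase (P : Pairing F top) (j : Fin (P.n + 1)) : P.q j ∈ F.erase top := by
  rw [Finset.mem_erase]
  refine ⟨?_, P.mem_q j⟩
  intro h
  exact P.disj 0 j (by rw [P.p_zero, h])

/-- drift in the weighted norm -/
theorem om_drift (hD : Dust v τ m l F top) (P : Pairing F top) (x : ι → ℝ)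
    (hx : ∑ i ∈ P.Fr, x i ^ 2 ≤ 1) :
    ∑ k, om τ m l k * (∑ i ∈ P.Fr, x i * v i k) ^ 2 ≤ BB d := by
  calc ∑ k, om τ m l k * (∑ i ∈ P.Fr, x i * v i k) ^ 2
      ≤ ∑ k, om τ m l k * ((∑ i ∈ P.Fr, x i ^ 2) * ∑ i ∈ P.Fr, v i k ^ 2) := by
        apply Finset.sum_le_sum
        intro k _
        apply mul_le_mul_of_nonneg_left _ (om_nonneg' τ l k)
        exact Finset.sum_mul_sq_le_sq_mul_sq _ _ _
    _ = (∑ i ∈ P.Fr, x i ^ 2) * ∑ i ∈ P.Fr, tt v τ m l i := by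
        unfold tt
        rw [Finset.sum_comm (s := P.Fr) (t := univ), Finset.mul_sum]
        apply Finset.sum_congr rfl
        intro k _
        rw [← Finset.mul_sum]; ring
    _ ≤ 1 * ∑ i ∈ F.erase top, tt v τ m l i := by
        apply mul_le_mul hx _ (Finset.sum_nonneg fun i _ => tt_nonneg i) (by norm_num)
        exact Finset.sum_le_sum_of_subset_of_nonneg (Fr_subset P) fun i _ _ => tt_nonneg i
    _ ≤ BB d := by rw [one_mul]; exact hD

end

section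
variable {ι : Type} [DecidableEq ι] {d m : ℕ} {v : ι → Fin d → ℝ} {τ : Fin d → ℕ}
  {lam : Fin d → ℝ} {l : ℕ} {F : Finset ι} {top : ι}

theorem sum3_sq {α : Type} (s : Finset α) (c : α → ℝ) (hc : ∀ k, 0 ≤ c k) (f g h : α → ℝ) :
    ∑ k ∈ s, c k * (f k + g k + h k) ^ 2
      ≤ 3 * (∑ k ∈ s, c k * f k ^ 2 + ∑ k ∈ s, c k * g k ^ 2 + ∑ k ∈ s, c k * h k ^ 2) := by
  rw [← Finset.sum_add_distrib, ← Finset.sum_add_distrib, Finset.mul_sum]
  apply Finset.sum_le_sum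
  intro k _
  have := hc k
  nlinarith [mul_nonneg this (sq_nonneg (f k - g k)), mul_nonneg this (sq_nonneg (f k - h k)),
    mul_nonneg this (sq_nonneg (g k - h k))]

theorem D_eq (P : Pairing F top) (s x : ι → ℝ) (k : Fin d) :
    ∑ i ∈ F, s i * v i k = rf P s x (fun i => v i k) + s top * (v top k - v (P.q 0) k)
      + ∑ i ∈ P.Fr, x i * v i k := by
  unfold rf; ring

theorem core (hG : Good d m) (hv : ∀ i, ∑ k, v i k ^ 2 ≤ 1) (hS : Spec m τ lam)
    (htop : top ∈ F) (hgr : Gram v τ m lam l F) (hD : Dust v τ m l F top) {a b : Fin d → ℝ}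
    (ha : ∑ k, a k ^ 2 ≤ RR d m ^ 2) (hb : ∑ k, b k ^ 2 ≤ RR d m ^ 2) (hF : 2 ≤ F.card)
    {τ1 : ℝ} (hτ1 : τ1 = 1 ∨ τ1 = -1) :
    ∃ (q0 : ι) (s : ι → ℝ), q0 ∈ F ∧ tt v τ m l q0 ≤ BB d ∧ (∀ i, s i = 1 ∨ s i = -1) ∧
      s top = τ1 ∧ s q0 = -τ1 ∧
      (∀ e : ℝ, e = 1 ∨ e = -1 → Gram v τ m lam (l + 1) (F.filter fun i => s i = e) ∧
        Dust v τ m (l + 1) (F.filter fun i => s i = e) (if s top = e then top else q0)) ∧
      ∑ k ∈ old τ m l, ((∑ i ∈ F, s i * v i k) - τ1 * v top k) ^ 2 ≤ Wt τ m l ^ 2 ∧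
      ∑ k ∈ zone τ m l, (∑ i ∈ F, s i * v i k) ^ 2 ≤ 111 * T0 d * (zone τ m l).card ∧
      (∀ j, ∑ k ∈ (rich τ l).filter (· ≤ j),
        ((a k + b k) / 2 + (∑ i ∈ F, s i * v i k) / 2) ^ 2
          ≤ Ch d * ((rich τ l).filter (· ≤ j)).card) := by
  have hT := T0_ge hG.hd
  have hd1 : (1:ℝ) ≤ d := by exact_mod_cast hG.hd
  have hR := RR_nonneg d m
  have hBB := BB_pos' hG
  have hτ1sq : τ1 ^ 2 = 1 := by rcases hτ1 with h | h <;> rw [h] <;> norm_num
  obtain ⟨P, hP⟩ := exists_pairing F top htop hF (tt v τ m l) (fun i _ => tt_nonneg i)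
  -- the steering target
  set q : Fin d → ℝ := fun k => (-(a k) + -(b k)) + (-(τ1 * v top k) + τ1 * v (P.q 0) k) with hq
  have hq2 : ∑ k ∈ rich τ l, q k ^ 2 ≤ (2 * RR d m + 2) ^ 2 := by
    have sub : ∀ f : Fin d → ℝ, ∑ k ∈ rich τ l, f k ^ 2 ≤ ∑ k, f k ^ 2 := fun f =>
      Finset.sum_le_sum_of_subset_of_nonneg (Finset.subset_univ _) fun _ _ _ => sq_nonneg _
    have e1 : ∑ k ∈ rich τ l, (-(a k) + -(b k)) ^ 2 ≤ (RR d m + RR d m) ^ 2 := by
      apply sq_add_le _ _ _ hR hR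
      · simpa using (sub a).trans ha
      · simpa using (sub b).trans hb
    have e2 : ∑ k ∈ rich τ l, (-(τ1 * v top k) + τ1 * v (P.q 0) k) ^ 2 ≤ (1 + 1) ^ 2 := by
      apply sq_add_le _ _ _ zero_le_one zero_le_one
      · simpa [mul_pow, hτ1sq] using (sub (v top)).trans (hv top)
      · simpa [mul_pow, hτ1sq] using (sub (v (P.q 0))).trans (hv (P.q 0))
    have e3 := sq_add_le (rich τ l) _ _ (by positivity) (by positivity) e1 e2
    calc ∑ k ∈ rich τ l, q k ^ 2 ≤ (RR d m + RR d m + (1 + 1)) ^ 2 := e3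
      _ = _ := by ring
  obtain ⟨x, hx1, hx2, hx3, hx4⟩ := steered hG hS P hP.card hv hgr q hq2
  have hchi := chi_le hG τ l
  -- the bound on the free elements
  obtain ⟨tst, htst0, htst1, hcase⟩ : ∃ tst : ℝ, 0 ≤ tst ∧ (∀ i ∈ P.Fr, tt v τ m l i ≤ tst) ∧
      ((∑ j ∈ univ.erase 0, tt v τ m l (P.p j) + ∑ i ∈ P.Fr, tt v τ m l i
        ≤ (1 / 2) * ∑ i ∈ F.erase top, tt v τ m l i) ∨
      (∑ j ∈ univ.erase 0, tt v τ m l (P.p j)
          ≤ (1 / 2) * (∑ i ∈ F.erase top, tt v τ m l i - ∑ i ∈ P.Fr, tt v τ m l i) ∧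
        tst = BB d / 16)) := by
    rcases hP.half with h | h
    · exact ⟨BB d, hBB.le, fun i hi => tt_le hD (Fr_subset P hi), Or.inl h.2⟩
    · refine ⟨BB d / 16, by positivity, ?_, Or.inr ⟨h.1, rfl⟩⟩
      intro i hi
      have h1 := h.2 i hi
      have h2 : ∑ i ∈ F.erase top, tt v τ m l i ≤ BB d := hD
      linarith
  obtain ⟨s, hs, hsq, hstop, r1, r2, r3, r4, r5⟩ := round hG.hd v P (fun i _ => hv i) τ1 hτ1 x
    (fun i _ => (hx1 i).trans (by linarith)) (zone τ m l) (rich τ l)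
    (by
      rw [Finset.disjoint_left]; intro k hk hk'
      simp only [zone, rich, Finset.mem_filter, Finset.mem_univ, true_and] at hk hk'
      omega)
    (om τ m l) (om_nonneg' τ l) (BB d) tst hBB htst0
    (fun i hi => tt_le hD hi) htst1
  refine ⟨P.q 0, s, P.mem_q 0, tt_le hD (q_mem_erase P 0), hs, hstop, ?_, ?_, ?_, ?_, ?_⟩
  · rw [hsq 0, P.p_zero, hstop]
  · intro e he
    have g := gram_update hG hS.nonneg P (fun i _ => hv i) hgr s x hs (fun i _ => hx1 i) r3 he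
    refine ⟨g, ?_⟩
    refine dust_update htop hG hS P hD s x hs hsq (fun i _ => hx1 i) ?_ hP.le he g
    rcases hcase with h | ⟨h1, h2⟩
    · exact Or.inl h
    · right
      refine ⟨h1, ?_⟩
      rw [← h2]; exact r5
  · -- old directions
    apply old_of_om hG l _ (Ω := 98 * d * T0 d * BB d) _ (BB_le hG).1
    have e1 : ∀ k, (∑ i ∈ F, s i * v i k) - τ1 * v top k
        = rf P s x (fun i => v i k) + -(τ1 * v (P.q 0) k) + ∑ i ∈ P.Fr, x i * v i k := by
      intro k; rw [D_eq P s x k, hstop]; ring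
    calc ∑ k ∈ old τ m l, om τ m l k * ((∑ i ∈ F, s i * v i k) - τ1 * v top k) ^ 2
        ≤ ∑ k, om τ m l k * ((∑ i ∈ F, s i * v i k) - τ1 * v top k) ^ 2 :=
          Finset.sum_le_sum_of_subset_of_nonneg (Finset.subset_univ _)
            fun k _ _ => mul_nonneg (om_nonneg' τ l k) (sq_nonneg _)
      _ = ∑ k, om τ m l k * (rf P s x (fun i => v i k) + -(τ1 * v (P.q 0) k)
            + ∑ i ∈ P.Fr, x i * v i k) ^ 2 := by simp only [e1]
      _ ≤ 3 * (∑ k, om τ m l k * rf P s x (fun i => v i k) ^ 2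
            + ∑ k, om τ m l k * (-(τ1 * v (P.q 0) k)) ^ 2
            + ∑ k, om τ m l k * (∑ i ∈ P.Fr, x i * v i k) ^ 2) :=
          sum3_sq univ (om τ m l) (om_nonneg' τ l) _ _ _
      _ ≤ 3 * (32 * d * BB d * T0 d + BB d + BB d) := by
          have h1 : ∑ k, om τ m l k * (-(τ1 * v (P.q 0) k)) ^ 2 = tt v τ m l (P.q 0) := by
            unfold tt
            apply Finset.sum_congr rfl; intro k _
            rw [neg_sq, mul_pow, hτ1sq, one_mul]
          have h2 := tt_le hD (q_mem_erase P 0)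
          have h3 := om_drift (v := v) hD P x hx3
          rw [h1]
          linarith
      _ ≤ 98 * d * T0 d * BB d := by
          have : 6 * BB d ≤ 2 * (d * T0 d) * BB d := by
            apply mul_le_mul_of_nonneg_right _ hBB.le
            nlinarith
          linarith
  · -- zone
    rcases Finset.eq_empty_or_nonempty (zone τ m l) with hz | hz
    · simp [hz]
    · have hz1 : (1:ℝ) ≤ (zone τ m l).card := by exact_mod_cast hz.card_pos
      have e1 : ∀ k, (∑ i ∈ F, s i * v i k)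
          = rf P s x (fun i => v i k) + (τ1 * v top k - τ1 * v (P.q 0) k)
            + ∑ i ∈ P.Fr, x i * v i k := by
        intro k; rw [D_eq P s x k, hstop]; ring
      have e2 : ∑ k ∈ zone τ m l, (τ1 * v top k - τ1 * v (P.q 0) k) ^ 2 ≤ (1 + 1) ^ 2 := by
        have sub : ∀ f : Fin d → ℝ, ∑ k ∈ zone τ m l, f k ^ 2 ≤ ∑ k, f k ^ 2 := fun f =>
          Finset.sum_le_sum_of_subset_of_nonneg (Finset.subset_univ _) fun _ _ _ => sq_nonneg _
        simp only [sub_eq_add_neg]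
        apply sq_add_le _ _ _ zero_le_one zero_le_one
        · simpa [mul_pow, hτ1sq] using (sub (v top)).trans (hv top)
        · simpa [mul_pow, hτ1sq] using (sub (v (P.q 0))).trans (hv (P.q 0))
      have e3 := sum3_sq (zone τ m l) (fun _ => 1) (fun _ => zero_le_one)
        (fun k => rf P s x (fun i => v i k)) (fun k => τ1 * v top k - τ1 * v (P.q 0) k)
        (fun k => ∑ i ∈ P.Fr, x i * v i k)
      simp only [one_mul] at e3
      simp only [e1]
      nlinarith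
  · -- rich
    intro j
    have e1 : ∀ k ∈ (rich τ l).filter (· ≤ j),
        ((a k + b k) / 2 + (∑ i ∈ F, s i * v i k) / 2) ^ 2
          = (1 / 4) * rf P s x (fun i => v i k) ^ 2 := by
      intro k hk
      have hk' := (Finset.mem_filter.mp hk).1
      rw [D_eq P s x k, hx2 k hk', hstop, hq]
      ring
    rw [Finset.sum_congr rfl e1, ← Finset.mul_sum]
    have := r1 j
    unfold Ch
    linarith

end

section
variable {ι : Type} [DecidableEq ι] {d m : ℕ} {v : ι → Fin d → ℝ} {τ : Fin d → ℕ}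
  {lam : Fin d → ℝ} {l : ℕ} {F : Finset ι} {top : ι}

/-- splitting a node of the tree -/
theorem step (hG : Good d m) (hv : ∀ i, ∑ k, v i k ^ 2 ≤ 1) (hS : Spec m τ lam)
    {a : Fin d → ℝ} (hI : Inv v τ m lam l a F) (hF : 2 ≤ F.card) :
    ∃ A B : Finset ι, Disjoint A B ∧ A ∪ B = F ∧ A.card < F.card ∧ B.card < F.card ∧
      Inv v τ m lam (l + 1) a A ∧
      Inv v τ m lam (l + 1) (fun k => a k + ∑ i ∈ A, v i k) B := by
  obtain ⟨top, htop, hgr, hD, hp⟩ := hI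
  obtain ⟨ha, hb⟩ := hp.bound hG
  set b : Fin d → ℝ := fun k => a k + ∑ i ∈ F, v i k with hbdef
  obtain ⟨τ1, hτ1, hsign⟩ : ∃ τ1 : ℝ, (τ1 = 1 ∨ τ1 = -1) ∧
      τ1 * ∑ k ∈ old τ m l, ((a k + b k) / 2) * v top k ≤ 0 := by
    rcases le_total (∑ k ∈ old τ m l, ((a k + b k) / 2) * v top k) 0 with h | h
    · exact ⟨1, Or.inl rfl, by linarith⟩
    · exact ⟨-1, Or.inr rfl, by linarith⟩
  obtain ⟨q0, s, hq0, htq, hs, hst, hsq, hgd, hW, hZ, hR⟩ := core hG hv hS htop hgr hD ha hb hF hτ1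
  set D : Fin d → ℝ := fun k => ∑ i ∈ F, s i * v i k with hDdef
  have htpb : ∑ k ∈ old τ m (l + 1), v q0 k ^ 2 ≤ Wt τ m (l + 1) ^ 2 := tp_bound hG htq
  set A := F.filter fun i => s i = 1 with hA
  set B := F.filter fun i => s i = -1 with hB
  have hAc : ∀ k, (a k + b k) / 2 + D k / 2 = a k + ∑ i ∈ A, v i k := by
    intro k
    rw [hA, child_sum s hs (Or.inl rfl) (fun i => v i k), hbdef, hDdef]
    ring
  have hdisj : Disjoint A B := by
    rw [Finset.disjoint_left]; intro i hi hi'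
    have h1 := (Finset.mem_filter.mp hi).2
    have h2 := (Finset.mem_filter.mp hi').2
    rw [h1] at h2; norm_num at h2
  have hun : A ∪ B = F := by
    ext i
    simp only [hA, hB, Finset.mem_union, Finset.mem_filter]
    constructor
    · rintro (h | h) <;> exact h.1
    · intro h
      rcases hs i with h1 | h1
      · exact Or.inl ⟨h, h1⟩
      · exact Or.inr ⟨h, h1⟩
  have htA : (if s top = 1 then top else q0) ∈ A := by
    rw [hA, Finset.mem_filter]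
    split_ifs with h
    · exact ⟨htop, h⟩
    · refine ⟨hq0, ?_⟩
      rw [hst] at h
      rcases hτ1 with h1 | h1
      · exact absurd h1 h
      · rw [hsq, h1]; norm_num
  have htB : (if s top = -1 then top else q0) ∈ B := by
    rw [hB, Finset.mem_filter]
    split_ifs with h
    · exact ⟨htop, h⟩
    · refine ⟨hq0, ?_⟩
      rw [hst] at h
      rcases hτ1 with h1 | h1
      · rw [hsq, h1]
      · exact absurd h1 h
  have hcard : A.card + B.card = F.card := by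
    rw [← Finset.card_union_of_disjoint hdisj, hun]
  have hA0 : 0 < A.card := Finset.card_pos.mpr ⟨_, htA⟩
  have hB0 : 0 < B.card := Finset.card_pos.mpr ⟨_, htB⟩
  have hBud : Bud τ m (l + 1) = Bud τ m l + bud τ m l := by
    unfold Bud; rw [Finset.sum_range_succ]
  refine ⟨A, B, hdisj, hun, by omega, by omega, ?_, ?_⟩
  · refine ⟨_, htA, (hgd 1 (Or.inl rfl)).1, (hgd 1 (Or.inl rfl)).2, ?_⟩
    rw [hBud]
    have hfun : (fun k => a k + ∑ i ∈ A, v i k) = fun k => (a k + b k) / 2 + D k / 2 := by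
      funext k; rw [hAc k]
    rw [hfun]
    refine pos_update hG hS.mono hτ1 hp hW hsign hZ hR ha hb (hv top) ?_
    rw [hst]
    rcases hτ1 with h1 | h1
    · left; rw [if_pos h1]; exact ⟨h1, rfl⟩
    · right
      rw [if_neg (by rw [h1]; norm_num)]
      exact ⟨h1, hv q0, htpb⟩
  · refine ⟨_, htB, (hgd (-1) (Or.inr rfl)).1, (hgd (-1) (Or.inr rfl)).2, ?_⟩
    rw [hBud]
    have hfun : (fun k => a k + ∑ i ∈ A, v i k) = fun k => (a k + b k) / 2 + D k / 2 := by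
      funext k; rw [hAc k]
    have hfun2 : (fun k => (fun k => a k + ∑ i ∈ A, v i k) k + ∑ i ∈ B, v i k) = b := by
      funext k
      simp only [hbdef]
      rw [← hun, Finset.sum_union hdisj]; ring
    rw [hfun2, hfun]
    refine pos_update' hG hS.mono hτ1 hp hW hsign hZ hR ha hb (hv top) ?_
    rw [hst]
    rcases hτ1 with h1 | h1
    · right
      rw [if_neg (by rw [h1]; norm_num)]
      exact ⟨h1, hv q0, htpb⟩
    · left; rw [if_pos h1]; exact ⟨h1, rfl⟩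

theorem Inv.bound (hG : Good d m) {a : Fin d → ℝ}
    (hI : Inv v τ m lam l a F) :
    ∑ k, a k ^ 2 ≤ RR d m ^ 2 ∧ ∑ k, (a k + ∑ i ∈ F, v i k) ^ 2 ≤ RR d m ^ 2 := by
  obtain ⟨top, _, _, _, hp⟩ := hI
  exact hp.bound hG

end

end Vale.Agent.P262
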