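import Vale.Agent.P262.Full.Step

namespace Vale.Agent.P262

open Finset

/-- an ordering of the family of a node -/
theorem tree {ι : Type} [DecidableEq ι] {d m : ℕ} (hG : Good d m) {v : ι → Fin d → ℝ}
    (hv : ∀ i, ∑ k, v i k ^ 2 ≤ 1) {τ : Fin d → ℕ} {lam : Fin d → ℝ} (hS : Spec m τ lam)
    {l : ℕ} {a : Fin d → ℝ} {F : Finset ι} (hI : Inv v τ m lam l a F) :
    ∃ L : List ι, L.Nodup ∧ L.toFinset = F ∧
      ∀ n, ∑ k, (a k + ((L.take n).map fun i => v i k).sum) ^ 2 ≤ RR d m ^ 2 := by
  suffices H : ∀ c : ℕ, ∀ (l : ℕ) (a : Fin d → ℝ) (F : Finset ι), F.card = c →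
      Inv v τ m lam l a F →
      ∃ L : List ι, L.Nodup ∧ L.toFinset = F ∧
        ∀ n, ∑ k, (a k + ((L.take n).map fun i => v i k).sum) ^ 2 ≤ RR d m ^ 2 from
    H _ l a F rfl hI
  intro c
  induction c using Nat.strong_induction_on with
  | _ c ih =>
    intro l a F hc hI
    rcases Nat.lt_or_ge F.card 2 with h2 | h2
    · have h1 : F.card = 1 := by
        have : 0 < F.card := by
          obtain ⟨top, htop, _⟩ := hI
          exact Finset.card_pos.2 ⟨top, htop⟩
        omega
      obtain ⟨i, rfl⟩ := Finset.card_eq_one.1 h1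
      obtain ⟨b1, b2⟩ := hI.bound hG
      refine ⟨[i], List.nodup_singleton i, by simp, ?_⟩
      intro n
      rcases n with _ | n
      · simpa using b1
      · simpa using b2
    · obtain ⟨A, B, hdisj, hun, hA, hB, hIA, hIB⟩ := step hG hv hS hI h2
      obtain ⟨L1, n1, f1, s1⟩ := ih A.card (hc ▸ hA) (l + 1) a A rfl hIA
      obtain ⟨L2, n2, f2, s2⟩ := ih B.card (hc ▸ hB) (l + 1) _ B rfl hIB
      refine ⟨L1 ++ L2, ?_, ?_, ?_⟩
      · refine List.Nodup.append n1 n2 ?_
        intro x hx1 hx2
        have e1 : x ∈ A := by rw [← f1]; exact List.mem_toFinset.2 hx1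
        have e2 : x ∈ B := by rw [← f2]; exact List.mem_toFinset.2 hx2
        exact Finset.disjoint_left.1 hdisj e1 e2
      · rw [List.toFinset_append, f1, f2, hun]
      · intro n
        rcases Nat.le_total n L1.length with hn | hn
        · rw [List.take_append_of_le_length hn]
          exact s1 n
        · have e : List.take n (L1 ++ L2) = L1 ++ List.take (n - L1.length) L2 := by
            rw [List.take_append, List.take_of_length_le hn]
          rw [e]
          have s := s2 (n - L1.length)
          refine le_of_eq_of_le ?_ s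
          refine Finset.sum_congr rfl fun k _ => ?_
          congr 1
          rw [List.map_append, List.sum_append, ← add_assoc]
          congr 2
          rw [← f1, List.sum_toFinset _ n1]

end Vale.Agent.P262
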